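import Vale.Agent.P095.SI.Defs
import Vale.Agent.P095.Tracial.Main

/-!
# P095 (SI): Foelner sets of a coset space

Layer cake: a Foelner set of `G` is cut into the levels of its coset multiplicities; some level is
almost invariant in `G ⧸ N`.
-/

namespace Vale.P095.SI

open Vale.P095.Tracial Finset

variable {G : Type} [Group G]

open scoped Classical in
/-- The levels of the multiplicities move at most as much as the set itself. -/
private theorem cosets_move_le (N : Subgroup G) (F : Finset G) (k : G) :
    ∑ l ∈ range F.card,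
        ((F.image (QuotientGroup.mk : G → G ⧸ N)).filter fun c =>
          l < (F.filter fun x => QuotientGroup.mk x = c).card ∧
            ¬ l < (F.filter fun x => QuotientGroup.mk x = k • c).card).card ≤
      ((F.image (k * ·)) \ F).card := by
  set P : Finset (G ⧸ N) := F.image QuotientGroup.mk
  set f : G ⧸ N → ℕ := fun c => (F.filter fun x => QuotientGroup.mk x = c).card
  calc ∑ l ∈ range F.card, (P.filter fun c => l < f c ∧ ¬ l < f (k • c)).card
      = ∑ c ∈ P, ((range F.card).filter fun l => l < f c ∧ ¬ l < f (k • c)).card := by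
        simp only [card_filter]; exact sum_comm
    _ ≤ ∑ c ∈ P, ((F.filter fun x => k * x ∉ F).filter fun x => QuotientGroup.mk x = c).card := by
        refine sum_le_sum fun c _ => ?_
        have h1 : ((range F.card).filter fun l => l < f c ∧ ¬ l < f (k • c)) ⊆ Ico (f (k • c)) (f c) :=
          fun l hl => by
            obtain ⟨-, a, b⟩ := mem_filter.1 hl
            exact mem_Ico.2 ⟨not_lt.1 b, a⟩
        refine (card_le_card h1).trans ?_
        rw [Nat.card_Ico, Nat.sub_le_iff_le_add]
        calc f c = ((F.filter fun x => k * x ∉ F).filter fun x => QuotientGroup.mk x = c).card +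
              ((F.filter fun x => ¬ k * x ∉ F).filter fun x => QuotientGroup.mk x = c).card := by
                rw [← card_union_of_disjoint (disjoint_filter_filter (disjoint_filter_filter_not _ _ _)),
                  ← filter_union, filter_union_filter_not_eq]
          _ ≤ _ := by
            refine Nat.add_le_add_left (card_le_card_of_injOn (k * ·) (fun x hx => ?_)
              (mul_right_injective k).injOn) _
            obtain ⟨hx, hc⟩ := mem_filter.1 hx
            refine mem_filter.2 ⟨not_not.1 (mem_filter.1 hx).2, ?_⟩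
            subst hc
            rfl
    _ = (F.filter fun x => k * x ∉ F).card :=
        (card_eq_sum_card_fiberwise fun x hx => mem_image_of_mem _ (mem_filter.1 hx).1).symm
    _ = ((F.image (k * ·)) \ F).card := by
        refine card_nbij (k * ·) (fun x hx => ?_) (mul_right_injective k).injOn fun y hy => ?_
        · obtain ⟨hx, hk⟩ := mem_filter.1 hx
          exact mem_sdiff.2 ⟨mem_image_of_mem _ hx, hk⟩
        · obtain ⟨hy, hF⟩ := mem_sdiff.1 hy
          obtain ⟨x, hx, rfl⟩ := mem_image.1 hy
          exact ⟨x, mem_filter.2 ⟨hx, hF⟩, rfl⟩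

open scoped Classical in
/-- `G ⧸ N` has Foelner sets, given by representatives. -/
theorem exists_folner_reps (hG : IsFolner G) (N : Subgroup G) (S : Finset G) {ε : ℝ}
    (hε : 0 < ε) :
    ∃ F : Finset G, F.Nonempty ∧ (∀ g ∈ F, ∀ h ∈ F, g⁻¹ * h ∈ N → g = h) ∧
      ∀ k ∈ S, ∃ (F₀ : Finset G) (σ : G → G), F₀ ⊆ F ∧ ((F \ F₀).card : ℝ) ≤ ε * F.card ∧
        Set.InjOn σ F₀ ∧ ∀ g ∈ F₀, σ g ∈ F ∧ (σ g)⁻¹ * (k * g) ∈ N := by
  obtain ⟨E, hE, hinv⟩ := hG S (ε / (S.card + 1)) (by positivity)
  set P : Finset (G ⧸ N) := E.image QuotientGroup.mk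
  set f : G ⧸ N → ℕ := fun c => (E.filter fun x => QuotientGroup.mk x = c).card with hf
  set L : ℕ → Finset (G ⧸ N) := fun l => P.filter fun c => l < f c with hL
  set B : G → ℕ → ℕ := fun k l => (P.filter fun c => l < f c ∧ ¬ l < f (k • c)).card with hB
  have htot : ∑ l ∈ range E.card, (L l).card = E.card := by
    calc ∑ l ∈ range E.card, (L l).card = ∑ c ∈ P, ((range E.card).filter fun l => l < f c).card := by
          simp only [hL, card_filter]; exact sum_comm
      _ = ∑ c ∈ P, f c := sum_congr rfl fun c _ => by
          have h : (range E.card).filter (fun l => l < f c) = range (f c) := by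
            ext l
            have : f c ≤ E.card := card_filter_le _ _
            simp only [mem_filter, mem_range]
            omega
          rw [h, card_range]
      _ = E.card := (card_eq_sum_card_image QuotientGroup.mk E).symm
  have hEpos : (0 : ℝ) < E.card := Nat.cast_pos.2 hE.card_pos
  have hlt : ∑ l ∈ range E.card, ∑ k ∈ S, (B k l : ℝ) <
      ∑ l ∈ range E.card, ε * (L l).card := by
    rw [sum_comm, ← mul_sum, ← Nat.cast_sum (f := fun l => (L l).card), htot]
    calc ∑ k ∈ S, ∑ l ∈ range E.card, (B k l : ℝ) ≤ ∑ _k ∈ S, ε / (S.card + 1) * E.card :=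
          sum_le_sum fun k hk => le_trans (by
            rw [← Nat.cast_sum]
            exact Nat.cast_le.2 (cosets_move_le N E k)) (hinv k hk)
      _ < ε * E.card := by
          rw [sum_const, nsmul_eq_mul, ← mul_assoc]
          refine mul_lt_mul_of_pos_right ?_ hEpos
          rw [← mul_div_assoc, div_lt_iff₀ (by positivity)]
          nlinarith
  obtain ⟨l, -, hl⟩ := exists_lt_of_sum_lt hlt
  have hne : (L l).Nonempty := by
    rw [nonempty_iff_ne_empty]
    intro h
    rw [h, card_empty, Nat.cast_zero, mul_zero] at hl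
    exact absurd hl (not_lt.2 (sum_nonneg fun _ _ => Nat.cast_nonneg _))
  have hout : Function.Injective (Quotient.out : G ⧸ N → G) := fun a b h => by
    rw [← QuotientGroup.out_eq' a, ← QuotientGroup.out_eq' b, h]
  refine ⟨(L l).image Quotient.out, hne.image _, fun g hg h hh hn => ?_, fun k hk => ?_⟩
  · obtain ⟨a, -, rfl⟩ := mem_image.1 hg
    obtain ⟨b, -, rfl⟩ := mem_image.1 hh
    rw [← QuotientGroup.eq, QuotientGroup.out_eq', QuotientGroup.out_eq'] at hn
    rw [hn]
  refine ⟨((L l).filter fun c => l < f (k • c)).image Quotient.out,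
    fun g => Quotient.out (k • (g : G ⧸ N)), image_subset_image (filter_subset _ _), ?_, ?_, ?_⟩
  · rw [← image_sdiff _ _ hout, card_image_of_injective _ hout, card_image_of_injective _ hout]
    refine le_trans ?_ (le_of_lt hl)
    refine le_trans (le_of_eq ?_) (single_le_sum (fun x _ => Nat.cast_nonneg (B x l)) hk)
    congr 1
    rw [hB]
    congr 1
    ext c
    simp only [hL, mem_sdiff, mem_filter]
    tauto
  · intro g hg h hh he
    obtain ⟨a, -, rfl⟩ := mem_image.1 (mem_coe.1 hg)
    obtain ⟨b, -, rfl⟩ := mem_image.1 (mem_coe.1 hh)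
    simp only [QuotientGroup.out_eq'] at he
    exact congrArg Quotient.out (MulAction.injective (β := G ⧸ N) k (hout he))
  · intro g hg
    obtain ⟨a, ha, rfl⟩ := mem_image.1 hg
    obtain ⟨-, hk'⟩ := mem_filter.1 ha
    simp only [QuotientGroup.out_eq']
    refine ⟨mem_image_of_mem _ (mem_filter.2 ⟨?_, hk'⟩), ?_⟩
    · obtain ⟨x, hx⟩ := card_pos.1 (lt_of_le_of_lt (Nat.zero_le _) hk')
      obtain ⟨hx, hc⟩ := mem_filter.1 hx
      exact hc ▸ mem_image_of_mem _ hx
    · rw [← QuotientGroup.eq, QuotientGroup.out_eq']
      conv_lhs => rw [← QuotientGroup.out_eq' a]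
      rfl

end Vale.P095.SI
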