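import Vale.Agent.P095.SI.Relative
import Vale.Agent.P095.Nonunital.QuotStar
import Vale.Agent.P095.Finite.Fun

/-!
# P095 (SI): the dichotomy for one automorphism

Let `θ` move some asymptotically central sequence of a simple ideal `I`.  In the quotient
`E = (B_ω ∩ I') / Ann(I)` it moves a positive contraction `w`; with `X = θ⁻¹ w - w` and `K` a
suitable power of two, a high power `b` of `w + K (X + ‖X‖)` normalised compresses `w` to a scalar
`l` and `θ⁻¹ w` to `l + ‖X‖`, which rules out that `b` and `θ b` almost fix a common vector, so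
`‖b θ b‖ ≤ r < 1`.  By simplicity `‖a b a‖ ≥ ‖b‖` for positive `a ∈ I` of norm one, so
representatives `q` of `b` give repeated compressions `a q a` making `a x θ a` small.
-/

open Filter Topology

namespace Vale.P095.SI

attribute [local instance] CStarAlgebra.spectralOrder CStarAlgebra.spectralOrderedRing

variable {A : Type*} [CStarAlgebra A]

namespace Dicho

theorem isPos_iff {a : A} : IsPos a ↔ 0 ≤ a :=
  CStarAlgebra.nonneg_iff_eq_star_mul_self.symm

theorem map_pos (θ : A ≃⋆ₐ[ℂ] A) {a : A} (ha : 0 ≤ a) : 0 ≤ θ a := by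
  obtain ⟨y, rfl⟩ := CStarAlgebra.nonneg_iff_eq_star_mul_self.mp ha
  rw [map_mul, map_star]
  exact star_mul_self_nonneg _

theorem map_real_smul (θ : A ≃⋆ₐ[ℂ] A) (c : ℝ) (a : A) : θ (c • a) = c • θ a := by
  rw [← Complex.coe_smul, map_smul, Complex.coe_smul]

theorem norm_le_of_between [Nontrivial A] {z : A} {c : ℝ} (h1 : -(c • (1 : A)) ≤ z)
    (h2 : z ≤ c • (1 : A)) : ‖z‖ ≤ c := by
  have hz : IsSelfAdjoint z := by
    have h : IsSelfAdjoint (z - -(c • (1 : A))) := .of_nonneg (sub_nonneg.2 h1)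
    simpa using h.sub ((IsSelfAdjoint.all c).smul (IsSelfAdjoint.one A))
  rw [← Algebra.algebraMap_eq_smul_one] at h1 h2
  rw [← map_neg, algebraMap_le_iff_le_spectrum hz] at h1
  rw [le_algebraMap_iff_spectrum_le hz] at h2
  rcases CStarAlgebra.norm_or_neg_norm_mem_spectrum hz with h | h
  · exact h2 _ h
  · linarith [h1 _ h]

theorem le_norm_smul_one {z : A} (hz : IsSelfAdjoint z) : z ≤ ‖z‖ • (1 : A) :=
  hz.le_algebraMap_norm_self.trans_eq (Algebra.algebraMap_eq_smul_one _)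

theorem le_one_of_norm_le {a : A} (ha : 0 ≤ a) (h : ‖a‖ ≤ 1) : a ≤ 1 :=
  (le_norm_smul_one (.of_nonneg ha)).trans (by
    simpa using smul_le_smul_of_nonneg_right h (zero_le_one (α := A)))

theorem norm_pow_eq [Nontrivial A] {a : A} (ha : 0 ≤ a) (n : ℕ) : ‖a ^ n‖ = ‖a‖ ^ n := by
  refine le_antisymm (norm_pow_le a n) ?_
  have h := spectrum.pow_mem_pow a n (CStarAlgebra.norm_mem_spectrum_of_nonneg ha)
  simpa using spectrum.norm_le_norm_of_mem h

theorem bump_real {t : ℝ} (h0 : 0 ≤ t) (h1 : t ≤ 1) (n : ℕ) :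
    t ^ n - t ^ (n + 1) ≤ 1 / (n + 1) := by
  have hb : 0 ≤ 1 - t := by linarith
  have hsum : ∀ m, (∑ i ∈ Finset.range m, t ^ i) * (1 - t) = 1 - t ^ m := fun m => by
    linear_combination -(geom_sum_mul t m)
  have hle : ((n : ℝ) + 1) * t ^ n ≤ ∑ i ∈ Finset.range (n + 1), t ^ i := by
    calc ((n : ℝ) + 1) * t ^ n = ∑ _i ∈ Finset.range (n + 1), t ^ n := by simp
      _ ≤ _ := Finset.sum_le_sum fun i hi =>
        pow_le_pow_of_le_one h0 h1 (by have := Finset.mem_range.1 hi; omega)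
  rw [le_div_iff₀ (by positivity)]
  nlinarith [hsum (n + 1), mul_le_mul_of_nonneg_right hle hb, pow_nonneg h0 (n + 1),
    pow_succ t n]

theorem bump_le [Nontrivial A] {a : A} (ha : 0 ≤ a) (h1 : ‖a‖ ≤ 1) (n : ℕ) :
    a ^ n - a ^ (n + 1) ≤ (1 / ((n : ℝ) + 1)) • (1 : A) := by
  have hs : IsSelfAdjoint a := .of_nonneg ha
  rw [← cfc_pow_id (R := ℝ) a n, ← cfc_pow_id (R := ℝ) a (n + 1), ← cfc_sub _ _ a,
    ← Algebra.algebraMap_eq_smul_one]
  refine cfc_le_algebraMap _ _ a fun t ht => bump_real (spectrum_nonneg_of_nonneg ha ht) ?_ n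
  exact ((Real.le_norm_self t).trans (spectrum.norm_le_norm_of_mem ht)).trans h1

theorem norm_mul₃_le (a b c : A) : ‖a * b * c‖ ≤ ‖a‖ * ‖b‖ * ‖c‖ :=
  (norm_mul_le _ _).trans (mul_le_mul_of_nonneg_right (norm_mul_le _ _) (norm_nonneg _))

/-- A power of `w + K (v - w + ‖v - w‖)` compresses `w` and `v` to scalars at distance
`‖v - w‖`. -/
theorem window [Nontrivial A] {d₀ ε : ℝ} (hd₀ : 0 < d₀) (hε : 0 < ε) :
    ∀ w v : A, 0 ≤ w → ‖w‖ ≤ 1 → ‖v‖ ≤ 1 → IsSelfAdjoint (v - w) → d₀ ≤ ‖v - w‖ →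
      ‖v - w‖ ∈ spectrum ℝ (v - w) → ∃ (b : A) (l : ℝ), 0 ≤ b ∧ ‖b‖ = 1 ∧ 0 ≤ l ∧ l ≤ 1 ∧
        ‖b * w * b - l • (b * b)‖ ≤ ε ∧
        ‖b * v * b - (l + ‖v - w‖) • (b * b)‖ ≤ ε := by
  obtain ⟨J, hJ⟩ := exists_nat_gt (16 / ε)
  have hJ0 : (0 : ℝ) < J := lt_trans (by positivity) hJ
  obtain ⟨M, hM⟩ : ∃ M : ℝ, M = 1 + 4 * 2 ^ J := ⟨_, rfl⟩
  obtain ⟨m, hm⟩ := exists_nat_gt (8 * M / ε)
  have hM0 : 0 < M := by rw [hM]; positivity
  have hm0 : (0 : ℝ) < m := lt_trans (by positivity) hm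
  intro w v hw0 hw1 hv1 hX hd hmem
  set X := v - w with hXdef
  set d := ‖X‖ with hddef
  have hd2 : 0 < d := lt_of_lt_of_le hd₀ hd
  set Y := X + d • (1 : A) with hY
  have hY0 : 0 ≤ Y := by
    have := hX.neg_algebraMap_norm_le_self
    rw [Algebra.algebraMap_eq_smul_one] at this
    simpa [hY] using sub_nonneg.2 this
  have hYle : Y ≤ (2 * d) • (1 : A) := by
    have := le_norm_smul_one hX
    rw [two_mul, add_smul, hY]
    simpa [add_comm] using add_le_add this (le_refl (d • (1 : A)))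
  have hYn : 2 * d ≤ ‖Y‖ := by
    have h : d + d ∈ spectrum ℝ Y := by
      rw [hY, add_comm X, ← Algebra.algebraMap_eq_smul_one, spectrum.add_mem_add_iff]
      exact hmem
    have := spectrum.norm_le_norm_of_mem h
    rw [Real.norm_eq_abs, abs_of_pos (by linarith)] at this
    linarith
  set H : ℕ → A := fun j => w + ((2 : ℝ) ^ j) • Y with hH
  have hH0 : ∀ j, 0 ≤ H j := fun j => add_nonneg hw0 (smul_nonneg (by positivity) hY0)
  set u : ℕ → ℝ := fun j => ‖H j‖ - 2 * d * 2 ^ j with hu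
  have hlow : ∀ j, 2 * d * (2 : ℝ) ^ j ≤ ‖H j‖ := fun j => by
    have := CStarAlgebra.norm_le_norm_of_nonneg_of_le (smul_nonneg (by positivity) hY0)
      (le_add_of_nonneg_left (a := ((2 : ℝ) ^ j) • Y) hw0)
    refine le_trans ?_ this
    rw [norm_smul, Real.norm_eq_abs, abs_of_pos (by positivity), mul_comm]
    exact mul_le_mul_of_nonneg_left hYn (by positivity)
  have hYn' : ‖Y‖ ≤ 2 * d := by
    refine norm_le_of_between ?_ hYle
    exact le_trans (by simpa using smul_nonneg (by positivity : (0 : ℝ) ≤ 2 * d) zero_le_one) hY0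
  have hup : ∀ j, ‖H j‖ ≤ 1 + 2 * d * 2 ^ j := fun j => by
    refine (norm_add_le _ _).trans (add_le_add hw1 ?_)
    rw [norm_smul, Real.norm_eq_abs, abs_of_pos (by positivity), mul_comm]
    exact mul_le_mul_of_nonneg_right hYn' (by positivity)
  obtain ⟨j, hjJ, hj⟩ : ∃ j < J, u j - u (j + 1) ≤ 1 / J := by
    by_contra! hc
    have h1 : ∑ j ∈ Finset.range J, (1 / J : ℝ) < ∑ j ∈ Finset.range J, (u j - u (j + 1)) :=
      Finset.sum_lt_sum_of_nonempty (by simpa using fun h : J = 0 => by simp [h] at hJ0)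
        fun j hj => hc j (Finset.mem_range.1 hj)
    rw [Finset.sum_range_sub', Finset.sum_const, Finset.card_range, nsmul_eq_mul,
      mul_one_div_cancel hJ0.ne'] at h1
    have h2 := hup 0
    have h3 := hlow J
    simp only [hu] at h1
    linarith
  set K : ℝ := 2 ^ (j + 1) with hK
  have hK1 : 1 ≤ K := one_le_pow₀ one_le_two
  have hKJ : K ≤ 2 ^ J := pow_le_pow_right₀ one_le_two hjJ
  set h := ‖H (j + 1)‖ with hh
  have hh0 : 2 * d * K ≤ h := hlow (j + 1)
  have hd₀h : d₀ ≤ h := by nlinarith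
  have hh1 : 0 < h := lt_of_lt_of_le hd₀ hd₀h
  have hdle : d ≤ 2 := (norm_sub_le _ _).trans (by linarith)
  set p := h⁻¹ • H (j + 1) with hp
  have hp0 : 0 ≤ p := smul_nonneg (by positivity) (hH0 _)
  have hp1 : ‖p‖ = 1 := by
    rw [hp, norm_smul, norm_inv, Real.norm_eq_abs, abs_of_pos hh1]
    exact inv_mul_cancel₀ hh1.ne'
  have hpH : H (j + 1) = h • p := by rw [hp, smul_inv_smul₀ hh1.ne']
  set b := p ^ m with hb
  have hb0 : 0 ≤ b := CStarAlgebra.pow_nonneg hp0 m
  have hb1 : ‖b‖ = 1 := by rw [hb, norm_pow_eq hp0, hp1, one_pow]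
  have hbs : IsSelfAdjoint b := .of_nonneg hb0
  have hB0 : 0 ≤ b * b := hbs.mul_self_nonneg
  have hB1 : b * b ≤ 1 := le_one_of_norm_le hB0 (by rw [hbs.norm_mul_self, hb1, one_pow])
  set ρ := h * (1 / ((m + m : ℕ) + 1)) with hρ
  have hρε : ρ ≤ ε / 8 := by
    have h2 : h ≤ M := (hup (j + 1)).trans (by
      rw [hM]
      nlinarith [mul_le_mul hdle hKJ (by positivity) (by norm_num : (0 : ℝ) ≤ 2)])
    rw [hρ, mul_one_div, div_le_iff₀ (by positivity)]
    rw [div_lt_iff₀ hε] at hm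
    push_cast
    nlinarith
  have hρ0 : 0 ≤ ρ := by positivity
  have hA : h • (b * b) - ρ • (1 : A) ≤ b * H (j + 1) * b := by
    have h1 := smul_le_smul_of_nonneg_left (bump_le hp0 hp1.le (m + m)) hh1.le
    rw [smul_smul, smul_sub, sub_le_comm] at h1
    convert h1 using 2
    · rw [hb, pow_add]
    · rw [hpH, hb, mul_smul_comm, smul_mul_assoc, ← pow_succ, ← pow_add]
      congr 2
      omega
  have hB : b * H j * b ≤ ‖H j‖ • (b * b) := by
    have := hbs.conjugate_le_conjugate (le_norm_smul_one (IsSelfAdjoint.of_nonneg (hH0 j)))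
    simpa [mul_smul_comm, smul_mul_assoc] using this
  have hQ : b * Y * b ≤ (2 * d) • (b * b) := by
    simpa [mul_smul_comm, smul_mul_assoc] using hbs.conjugate_le_conjugate hYle
  have eH : ∀ i, b * H i * b = b * w * b + (2 : ℝ) ^ i • (b * Y * b) := fun i => by
    simp [hH, mul_add, add_mul]
  rw [eH, ← hK] at hA
  rw [eH] at hB
  set P := b * w * b
  set Q := b * Y * b
  set B := b * b
  set ε₁ := 2 / J + ρ with hε₁
  have hlb : -(ρ • (1 : A)) ≤ P - u (j + 1) • B := by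
    have h1 : K • Q ≤ (K * (2 * d)) • B := by
      rw [mul_smul]; exact smul_le_smul_of_nonneg_left hQ (by positivity)
    have h2 : h • B - ρ • (1 : A) - (K * (2 * d)) • B ≤ P :=
      (sub_le_sub hA h1).trans_eq (add_sub_cancel_right P _)
    calc -(ρ • (1 : A)) = h • B - ρ • (1 : A) - (K * (2 * d)) • B - u (j + 1) • B := by
          simp only [hu, ← hh, ← hK]; module
      _ ≤ _ := sub_le_sub_right h2 _
  have hub : P - u (j + 1) • B ≤ ε₁ • (1 : A) := by
    have hKh : K = 2 * 2 ^ j := by rw [hK, pow_succ]; ring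
    have h1 : P = (2 : ℝ) • (P + (2 : ℝ) ^ j • Q) - (P + K • Q) := by rw [hKh]; module
    have h2 : (2 : ℝ) • (P + (2 : ℝ) ^ j • Q) - (P + K • Q) ≤
        (2 : ℝ) • (‖H j‖ • B) - (h • B - ρ • (1 : A)) :=
      sub_le_sub (smul_le_smul_of_nonneg_left hB zero_le_two) hA
    rw [← h1] at h2
    calc P - u (j + 1) • B
        ≤ (2 : ℝ) • (‖H j‖ • B) - (h • B - ρ • (1 : A)) - u (j + 1) • B := sub_le_sub_right h2 _
      _ = (2 * (u j - u (j + 1))) • B + ρ • (1 : A) := by
          simp only [hu, ← hh]; module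
      _ ≤ (2 / (J : ℝ)) • B + ρ • (1 : A) := by
          refine add_le_add (smul_le_smul_of_nonneg_right ?_ hB0) le_rfl
          rw [div_eq_mul_one_div]; linarith
      _ ≤ (2 / (J : ℝ)) • (1 : A) + ρ • (1 : A) :=
          add_le_add (smul_le_smul_of_nonneg_left hB1 (by positivity)) le_rfl
      _ = _ := by rw [hε₁, add_smul]
  have hε₁0 : 0 ≤ ε₁ := by positivity
  have hP : ‖P - u (j + 1) • B‖ ≤ ε₁ := by
    refine norm_le_of_between ((neg_le_neg ?_).trans hlb) hub
    exact smul_le_smul_of_nonneg_right (le_add_of_nonneg_left (by positivity)) zero_le_one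
  have hXb : ‖Q - (2 * d) • B‖ ≤ ρ + ε₁ := by
    have h1 : ‖K • (Q - (2 * d) • B)‖ ≤ ρ + ε₁ := by
      refine norm_le_of_between ?_ ?_
      · calc -((ρ + ε₁) • (1 : A))
            = (h • B - ρ • (1 : A)) - (u (j + 1) • B + ε₁ • (1 : A)) - (K * (2 * d)) • B := by
              simp only [hu, ← hh, ← hK]; module
          _ ≤ (P + K • Q) - P - (K * (2 * d)) • B :=
              sub_le_sub_right (sub_le_sub hA (sub_le_iff_le_add'.1 hub)) _
          _ = _ := by module
      · calc K • (Q - (2 * d) • B) ≤ 0 :=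
              (smul_le_smul_of_nonneg_left (sub_nonpos.2 hQ) (by positivity)).trans_eq (smul_zero _)
          _ ≤ _ := smul_nonneg (by positivity) zero_le_one
    rw [norm_smul, Real.norm_eq_abs, abs_of_pos (by positivity)] at h1
    exact (le_mul_of_one_le_left (norm_nonneg _) hK1).trans h1
  have hJε : 2 / (J : ℝ) ≤ ε / 8 := by
    rw [div_lt_iff₀ hε] at hJ
    rw [div_le_iff₀ hJ0]
    linarith
  refine ⟨b, u (j + 1), hb0, hb1, by have := hlow (j + 1); simp only [hu]; linarith,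
    by have := hup (j + 1); simp only [hu]; linarith, hP.trans (by linarith), ?_⟩
  · have e : b * v * b - (u (j + 1) + d) • B = (P - u (j + 1) • B) + (Q - (2 * d) • B) := by
      simp only [P, Q, B, hY, hXdef, mul_add, add_mul, mul_sub, sub_mul, mul_smul_comm,
        smul_mul_assoc, mul_one]
      module
    rw [e]
    exact (norm_add_le _ _).trans (by linarith)

/-- The translate of a compressing element is almost orthogonal to it. -/
theorem norm_mul_map_le [Nontrivial A] (θ : A ≃⋆ₐ[ℂ] A) {d₀ : ℝ} (hd₀ : 0 < d₀) {k : ℕ}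
    (hk : 1 / ((k + k : ℕ) + 1 : ℝ) ≤ (d₀ / 16) ^ 2) {b w : A} {l d : ℝ} (hb0 : 0 ≤ b)
    (hb1 : ‖b‖ = 1) (hw : ‖w‖ ≤ 1) (hl0 : 0 ≤ l) (hl1 : l ≤ 1) (hd : d₀ ≤ d)
    (hP : ‖b * w * b - l • (b * b)‖ ≤ d₀ / 16)
    (hQ : ‖b * θ.symm w * b - (l + d) • (b * b)‖ ≤ d₀ / 16) :
    ‖b * θ b‖ ≤ 1 - 1 / (8 * ((k + k : ℕ) + 1) : ℝ) := by
  set n := k + k + 1 with hn
  set r : ℝ := 1 - 1 / (8 * ((k + k : ℕ) + 1) : ℝ) with hr
  by_contra! hlt
  have hn1 : ((n : ℕ) : ℝ) = ((k + k : ℕ) : ℝ) + 1 := by rw [hn]; push_cast; ring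
  have hr0 : 0 ≤ r := by
    rw [hr, sub_nonneg, div_le_one (by positivity)]
    linarith [Nat.cast_nonneg (α := ℝ) (k + k)]
  set c := θ b with hc
  have hc0 : 0 ≤ c := map_pos θ hb0
  have hc1 : ‖c‖ = 1 := (StarAlgEquiv.norm_map θ b).trans hb1
  have hcs : star c = c := (IsSelfAdjoint.of_nonneg hc0).star_eq
  have hbs : star b = b := (IsSelfAdjoint.of_nonneg hb0).star_eq
  set R := star (b * c) * (b * c) with hR
  have hR0 : 0 ≤ R := star_mul_self_nonneg _
  have hT1 : ‖b * c‖ ≤ 1 := (norm_mul_le _ _).trans (by rw [hb1, hc1, one_mul])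
  have hRn : ‖R‖ = ‖b * c‖ ^ 2 := by rw [hR, CStarRing.norm_star_mul_self, sq]
  have hR1 : ‖R‖ ≤ 1 := by rw [hRn]; exact pow_le_one₀ (norm_nonneg _) hT1
  have hRle : R ≤ c * c := by
    have h := star_left_conjugate_le_conjugate
      (le_one_of_norm_le (IsSelfAdjoint.of_nonneg hb0).mul_self_nonneg
        (by rw [(IsSelfAdjoint.of_nonneg hb0).norm_mul_self, hb1, one_pow])) c
    simpa [hR, star_mul, hcs, hbs, mul_assoc] using h
  set g := R ^ k with hg
  have hgs : star g = g := (IsSelfAdjoint.of_nonneg (CStarAlgebra.pow_nonneg hR0 k)).star_eq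
  have hg1 : ‖g‖ ≤ 1 := (norm_pow_le R k).trans (pow_le_one₀ (norm_nonneg _) hR1)
  set g' := θ.symm g with hg'
  have hg'1 : ‖g'‖ ≤ 1 := le_of_eq_of_le (StarAlgEquiv.norm_map θ.symm g) hg1
  set V := c * g with hV
  have hV1 : ‖V‖ ≤ 1 := (norm_mul_le _ _).trans (mul_le_one₀ hc1.le (norm_nonneg _) hg1)
  have hbV : ‖b * V‖ ≤ 1 := (norm_mul_le _ _).trans (mul_le_one₀ hb1.le (norm_nonneg _) hV1)
  have hbig : 3 / 4 ≤ ‖star V * V‖ := by
    have h1 : R ^ n ≤ star V * V := by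
      have h := star_left_conjugate_le_conjugate hRle g
      have e1 : R ^ n = star g * R * g := by
        rw [hgs, hg, hn, ← pow_succ, ← pow_add]
        congr 1
        omega
      rw [e1]
      refine h.trans_eq ?_
      simp [hV, star_mul, hcs, mul_assoc]
    refine le_trans ?_
      (CStarAlgebra.norm_le_norm_of_nonneg_of_le (CStarAlgebra.pow_nonneg hR0 n) h1)
    rw [norm_pow_eq hR0, hRn, ← pow_mul]
    refine le_trans ?_ (pow_le_pow_left₀ hr0 hlt.le (2 * n))
    have h2 := one_add_mul_le_pow (a := -(1 / (8 * ((k + k : ℕ) + 1) : ℝ))) (by linarith) (2 * n)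
    rw [← sub_eq_add_neg 1 (1 / _)] at h2
    refine le_trans (le_of_eq ?_) h2
    rw [Nat.cast_mul, hn1]
    field_simp
    norm_num
  have hVb : ‖V - b * V‖ ≤ d₀ / 16 := by
    refine le_of_pow_le_pow_left₀ two_ne_zero (by positivity) ?_
    rw [sq, ← CStarRing.norm_star_mul_self]
    have hbb : b * b ≤ b := by
      have := CStarAlgebra.pow_antitone hb0 (le_one_of_norm_le hb0 hb1.le) (show 1 ≤ 2 by norm_num)
      simpa [sq] using this
    have h1 : star (V - b * V) * (V - b * V) ≤ star g * (1 - R) * g := by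
      have e1 : star (V - b * V) * (V - b * V) =
          star g * (star c * ((1 - b - b) + b * b) * c) * g := by
        simp only [hV, star_sub, star_mul, hbs]
        noncomm_ring
      rw [e1]
      refine star_left_conjugate_le_conjugate ?_ g
      calc star c * (1 - b - b + b * b) * c ≤ star c * (1 - b * b) * c := by
            refine star_left_conjugate_le_conjugate ?_ c
            calc 1 - b - b + b * b ≤ 1 - b * b - b * b + b * b :=
                  add_le_add_left (sub_le_sub (sub_le_sub_left hbb _) hbb) _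
              _ = _ := by abel
        _ = c * c - R := by
            simp only [hR, star_mul, hcs, hbs]
            noncomm_ring
        _ ≤ 1 - R := sub_le_sub_right (le_one_of_norm_le
            (IsSelfAdjoint.of_nonneg hc0).mul_self_nonneg
            (by rw [(IsSelfAdjoint.of_nonneg hc0).norm_mul_self, hc1, one_pow])) _
    refine (CStarAlgebra.norm_le_norm_of_nonneg_of_le (star_mul_self_nonneg _) h1).trans ?_
    have e2 : star g * (1 - R) * g = R ^ (k + k) - R ^ (k + k + 1) := by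
      rw [hgs, hg, mul_sub, sub_mul, mul_one, ← pow_succ, ← pow_add, ← pow_add]
      congr 2
      omega
    rw [e2]
    refine le_trans (norm_le_of_between ?_ (bump_le hR0 hR1 (k + k))) hk
    refine le_trans (neg_nonpos.2 (smul_nonneg (by positivity) zero_le_one)) (sub_nonneg.2 ?_)
    exact CStarAlgebra.pow_antitone hR0 (le_one_of_norm_le hR0 hR1) (Nat.le_succ _)
  have hE1 : ‖star V * w * V - (l + d) • (star V * V)‖ ≤ d₀ / 16 := by
    have e : star V * w * V - (l + d) • (star V * V) =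
        θ (star g' * (b * θ.symm w * b - (l + d) • (b * b)) * g') := by
      simp only [hV, star_mul, map_mul, map_sub, map_real_smul, map_star, hg',
        StarAlgEquiv.apply_symm_apply, ← hc, hcs, mul_sub, sub_mul, mul_smul_comm,
        smul_mul_assoc, mul_assoc]
    rw [e, StarAlgEquiv.norm_map]
    refine (norm_mul₃_le _ _ _).trans ?_
    rw [norm_star]
    calc ‖g'‖ * ‖b * θ.symm w * b - (l + d) • (b * b)‖ * ‖g'‖
        ≤ 1 * (d₀ / 16) * 1 := by gcongr
      _ = _ := by ring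
  have hE2 : ‖star V * (b * w * b - l • (b * b)) * V‖ ≤ d₀ / 16 := by
    refine (norm_mul₃_le _ _ _).trans ?_
    rw [norm_star]
    calc ‖V‖ * ‖b * w * b - l • (b * b)‖ * ‖V‖ ≤ 1 * (d₀ / 16) * 1 := by gcongr
      _ = _ := by ring
  have hdiff : ∀ z : A, ‖z‖ ≤ 1 →
      ‖star V * z * V - star (b * V) * z * (b * V)‖ ≤ d₀ / 8 := fun z hz => by
    have e : star V * z * V - star (b * V) * z * (b * V) =
        star (V - b * V) * z * V + star (b * V) * z * (V - b * V) := by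
      rw [star_sub]
      noncomm_ring
    rw [e]
    refine (norm_add_le _ _).trans ((add_le_add (norm_mul₃_le _ _ _) (norm_mul₃_le _ _ _)).trans ?_)
    rw [norm_star, norm_star]
    calc ‖V - b * V‖ * ‖z‖ * ‖V‖ + ‖b * V‖ * ‖z‖ * ‖V - b * V‖
        ≤ d₀ / 16 * 1 * 1 + 1 * 1 * (d₀ / 16) := by gcongr
      _ = _ := by ring
  have e : d • (star V * V) = star V * (b * w * b - l • (b * b)) * V +
      (star V * w * V - star (b * V) * w * (b * V)) -
      (star V * w * V - (l + d) • (star V * V)) -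
      l • (star V * 1 * V - star (b * V) * 1 * (b * V)) := by
    simp only [star_mul, hbs, mul_one, mul_sub, sub_mul, mul_smul_comm, smul_mul_assoc, mul_assoc]
    module
  have hn4 : ‖d • (star V * V)‖ ≤ d₀ / 16 + d₀ / 8 + d₀ / 16 + 1 * (d₀ / 8) := by
    rw [e]
    refine (norm_sub_le _ _).trans (add_le_add ((norm_sub_le _ _).trans (add_le_add
      ((norm_add_le _ _).trans (add_le_add hE2 (hdiff w hw))) hE1)) ?_)
    rw [norm_smul, Real.norm_eq_abs, abs_of_nonneg hl0]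
    exact mul_le_mul hl1 (hdiff 1 (le_of_eq norm_one)) (norm_nonneg _) zero_le_one
  rw [norm_smul, Real.norm_eq_abs, abs_of_pos (hd₀.trans_le hd)] at hn4
  nlinarith [mul_le_mul hd hbig (by norm_num) (hd₀.le.trans hd)]

section Quotient

open Vale.P101 Vale.P095.Nonunital
open scoped BoundedContinuousFunction

noncomputable section

variable {B : Type*} [CStarAlgebra B] (I : Set B) (ω : Ultrafilter ℕ)

/-- The commutant of `I` and its adjoints in the ultrapower. -/
def CenI : StarSubalgebra ℂ (Ultrapower B ω) :=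
  StarSubalgebra.centralizer ℂ (constSeq ω '' I)

instance : IsClosed (CenI I ω : Set (Ultrapower B ω)) := by
  rw [CenI, StarSubalgebra.coe_centralizer]
  exact Set.isClosed_centralizer _

instance : CStarAlgebra (CenI I ω) := StarSubalgebra.cstarAlgebra _

variable {I ω}

theorem mem_cenI (hI : IsSimpleIdeal I) {x : Ultrapower B ω} :
    x ∈ CenI I ω ↔ ∀ a ∈ I, Commute (constSeq ω a) x := by
  rw [CenI, StarSubalgebra.mem_centralizer_iff]
  refine ⟨fun h a ha => (h _ ⟨a, ha, rfl⟩).1, ?_⟩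
  rintro h _ ⟨a, ha, rfl⟩
  refine ⟨h a ha, ?_⟩
  rw [star_cls]
  exact h (star a) (hI.star_mem a ha)

theorem continuous_constSeq : Continuous fun b : B => constSeq ω b :=
  (AddMonoidHomClass.continuous_of_bound (cls ω).toLinearMap 1 fun g => by
    rw [one_mul]
    exact quot_norm_mk_le (NullSeq B ω) g).comp
    (Isometry.continuous (Isometry.of_dist_eq fun p q => by
      simp [dist_eq_norm, BoundedContinuousFunction.norm_eq_iSup_norm]))

theorem norm_constSeq_le (b : B) : ‖constSeq ω b‖ ≤ ‖b‖ :=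
  (quot_norm_mk_le (NullSeq B ω) _).trans (BoundedContinuousFunction.norm_const_le b)

variable (ω)

/-- The annihilator of `I`. -/
def annI (hI : IsSimpleIdeal I) : CIdeal (CenI I ω) where
  toIdeal :=
    { carrier := {x | ∀ a ∈ I, (x : Ultrapower B ω) * constSeq ω a = 0}
      add_mem' := fun {x y} hx hy a ha => by
        show ((x : Ultrapower B ω) + y) * _ = 0
        rw [add_mul, hx a ha, hy a ha, add_zero]
      zero_mem' := fun a _ => zero_mul _
      smul_mem' := fun c x hx a ha => by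
        show ((c : Ultrapower B ω) * x) * _ = 0
        rw [mul_assoc, hx a ha, mul_zero] }
  right_mem x y hx a ha := by
    show ((x : Ultrapower B ω) * y) * _ = 0
    rw [mul_assoc, ← ((mem_cenI hI).1 y.2 a ha).eq, ← mul_assoc, hx a ha, zero_mul]
  star_mem x hx a ha := by
    apply star_injective
    show star ((star x : Ultrapower B ω) * constSeq ω a) = star 0
    rw [star_mul, star_star, star_zero, star_cls,
      show star (BoundedContinuousFunction.const ℕ a) = BoundedContinuousFunction.const ℕ (star a)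
        from rfl, ((mem_cenI hI).1 x.2 (star a) (hI.star_mem a ha)).eq]
    exact hx _ (hI.star_mem a ha)
  closed := by
    show IsClosed {x : CenI I ω | ∀ a ∈ I, (x : Ultrapower B ω) * constSeq ω a = 0}
    simp only [Set.ofPred_forall]
    exact isClosed_biInter fun a _ =>
      isClosed_eq (continuous_subtype_val.mul continuous_const) continuous_const

theorem proj_eq_zero_iff (hI : IsSimpleIdeal I) {x : CenI I ω} :
    (annI ω hI).proj x = 0 ↔ ∀ a ∈ I, (x : Ultrapower B ω) * constSeq ω a = 0 :=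
  (annI ω hI).proj_eq_zero

/-- An automorphism fixing `I` on the commutant. -/
def cenMap (hI : IsSimpleIdeal I) (θ : B ≃⋆ₐ[ℂ] B) (hθ : ∀ x, x ∈ I ↔ θ x ∈ I) :
    CenI I ω →⋆ₐ[ℂ] CenI I ω :=
  ((mapU ω (StarAlgHomClass.toStarAlgHom θ)).comp (CenI I ω).subtype).codRestrict (CenI I ω)
    fun x => (mem_cenI hI).2 fun a ha => by
      have h := ((mem_cenI hI).1 x.2 (θ.symm a) ((hθ _).2 (by simpa using ha))).map
        (mapU ω (StarAlgHomClass.toStarAlgHom θ))
      rw [mapU_constSeq,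
        show StarAlgHomClass.toStarAlgHom θ (θ.symm a) = a from θ.apply_symm_apply a] at h
      exact h

theorem cenMap_cenMap (hI : IsSimpleIdeal I) (θ θ' : B ≃⋆ₐ[ℂ] B) (hθ : ∀ x, x ∈ I ↔ θ x ∈ I)
    (hθ' : ∀ x, x ∈ I ↔ θ' x ∈ I) (h : ∀ b, θ (θ' b) = b) (x : CenI I ω) :
    cenMap ω hI θ hθ (cenMap ω hI θ' hθ' x) = x := by
  apply Subtype.ext
  show mapU ω (StarAlgHomClass.toStarAlgHom θ) (mapU ω (StarAlgHomClass.toStarAlgHom θ') _) = _
  rw [mapU_comp]
  conv_rhs => rw [← mapU_id ω (x : Ultrapower B ω)]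
  congr 2
  ext b
  exact h b

theorem exists_relEquiv (hI : IsSimpleIdeal I) (θ : B ≃⋆ₐ[ℂ] B) (hθ : ∀ x, x ∈ I ↔ θ x ∈ I) :
    ∃ Φ : (annI ω hI).Quo ≃⋆ₐ[ℂ] (annI ω hI).Quo, ∀ x,
      Φ ((annI ω hI).proj x) = (annI ω hI).proj (cenMap ω hI θ hθ x) := by
  have hθ' : ∀ x, x ∈ I ↔ θ.symm x ∈ I := fun x => by
    conv_lhs => rw [← θ.apply_symm_apply x]
    exact (hθ _).symm
  have desc : ∀ (σ : B ≃⋆ₐ[ℂ] B) (hσ : ∀ x, x ∈ I ↔ σ x ∈ I),
      ∃ φ : (annI ω hI).Quo →⋆ₐ[ℂ] (annI ω hI).Quo, ∀ x,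
        φ ((annI ω hI).proj x) = (annI ω hI).proj (cenMap ω hI σ hσ x) := fun σ hσ =>
    (annI ω hI).exists_lift ((annI ω hI).proj.comp (cenMap ω hI σ hσ)) fun x hx => by
      refine (proj_eq_zero_iff ω hI).2 fun a ha => ?_
      have h := congrArg (mapU ω (StarAlgHomClass.toStarAlgHom σ))
        (hx (σ.symm a) ((hσ _).2 (by simpa using ha)))
      rw [map_mul, map_zero, mapU_constSeq,
        show StarAlgHomClass.toStarAlgHom σ (σ.symm a) = a from σ.apply_symm_apply a] at h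
      exact h
  obtain ⟨φ, hφ⟩ := desc θ hθ
  obtain ⟨ψ, hψ⟩ := desc θ.symm hθ'
  refine ⟨StarAlgEquiv.ofStarAlgHom φ ψ ?_ ?_, hφ⟩
  · refine StarAlgHom.ext fun y => ?_
    obtain ⟨x, rfl⟩ := (annI ω hI).proj_surjective y
    show ψ (φ ((annI ω hI).proj x)) = (annI ω hI).proj x
    rw [hφ, hψ, cenMap_cenMap ω hI θ.symm θ hθ' hθ θ.symm_apply_apply]
  · refine StarAlgHom.ext fun y => ?_
    obtain ⟨x, rfl⟩ := (annI ω hI).proj_surjective y
    show φ (ψ ((annI ω hI).proj x)) = (annI ω hI).proj x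
    rw [hψ, hφ, cenMap_cenMap ω hI θ θ.symm hθ hθ' θ.apply_symm_apply]

/-- `(B_ω ∩ I') / Ann(I)`. -/
def RelI (hI : IsSimpleIdeal I) : Type _ := (annI ω hI).Quo

instance (hI : IsSimpleIdeal I) : CStarAlgebra (RelI ω hI) :=
  CIdeal.instCStarAlgebraQuo (annI ω hI)

/-- The quotient map. -/
def relI (hI : IsSimpleIdeal I) : CenI I ω →⋆ₐ[ℂ] RelI ω hI := (annI ω hI).proj

theorem relI_surjective (hI : IsSimpleIdeal I) : Function.Surjective (relI ω hI) :=
  (annI ω hI).proj_surjective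

theorem relI_eq_zero_iff (hI : IsSimpleIdeal I) {x : CenI I ω} :
    relI ω hI x = 0 ↔ ∀ a ∈ I, (x : Ultrapower B ω) * constSeq ω a = 0 :=
  proj_eq_zero_iff ω hI

theorem exists_relI_lift (hI : IsSimpleIdeal I) (y : RelI ω hI) {δ : ℝ} (hδ : 0 < δ) :
    ∃ x : CenI I ω, relI ω hI x = y ∧ ‖x‖ < ‖y‖ + δ :=
  quot_exists_norm_lt (annI ω hI).toIdeal y hδ

theorem exists_relI_equiv (hI : IsSimpleIdeal I) (θ : B ≃⋆ₐ[ℂ] B) (hθ : ∀ x, x ∈ I ↔ θ x ∈ I) :
    ∃ Φ : RelI ω hI ≃⋆ₐ[ℂ] RelI ω hI, ∀ x,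
      Φ (relI ω hI x) = relI ω hI (cenMap ω hI θ hθ x) :=
  exists_relEquiv ω hI θ hθ

theorem continuous_relI (hI : IsSimpleIdeal I) : Continuous (relI ω hI) :=
  AddMonoidHomClass.continuous_of_bound (relI ω hI) 1 fun y => by
    rw [one_mul]; exact NonUnitalStarAlgHom.norm_apply_le (relI ω hI) y

theorem max_eq_div_mul {c : ℝ} (hc : 0 < c) (m : ℕ) (t : ℝ) :
    max 0 (t - c) = max 0 (t - c) / max c t ^ m * t ^ m := by
  by_cases ht : t ≤ c
  · simp [max_eq_left (show t - c ≤ 0 by linarith)]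
  · rw [max_eq_right (not_le.1 ht).le, div_mul_cancel₀]
    exact pow_ne_zero _ (by linarith)

theorem continuous_max_div {c : ℝ} (hc : 0 < c) (m : ℕ) :
    Continuous fun t : ℝ => max 0 (t - c) / max c t ^ m :=
  Continuous.div₀ (by fun_prop) (by fun_prop)
    fun t => pow_ne_zero _ (ne_of_gt (hc.trans_le (le_max_left _ _)))

theorem norm_max_div_le {c t M : ℝ} (hc : 0 < c) (m : ℕ) (ht : t ≤ M) (hM : 0 ≤ M) :
    ‖max 0 (t - c) / max c t ^ m‖ ≤ M / c ^ m := by
  rw [Real.norm_eq_abs, abs_of_nonneg (div_nonneg (le_max_left _ _)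
    (pow_nonneg (hc.le.trans (le_max_left _ _)) _))]
  exact div_le_div₀ hM (max_le hM (by linarith)) (pow_pos hc _)
    (pow_le_pow_left₀ hc.le (le_max_left _ _) m)

/-- Bumps of `a` and of `x` are orthogonal if `a x a` is small. -/
theorem bump_mul_eq_zero (hI : IsSimpleIdeal I) {x : CenI I ω} (hxs : IsSelfAdjoint x) {a : B}
    (ha : a ∈ I) (ha0 : 0 ≤ a) (ha1 : ‖a‖ = 1) {μ ν : ℝ} (hμ : 0 < μ) (hν : 0 < ν)
    (h : ‖constSeq ω a * (x : Ultrapower B ω) * constSeq ω a‖ < ν ^ 2 * μ) :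
    constSeq ω (cfc (fun t => max 0 (t - ν)) a) *
      ((cfc (fun t => max 0 (t - μ)) x : CenI I ω) : Ultrapower B ω) = 0 := by
  have hB : Nontrivial B := ⟨⟨a, 0, fun h => by simp [h] at ha1⟩⟩
  have has : IsSelfAdjoint a := .of_nonneg ha0
  set U := constSeq ω a * (x : Ultrapower B ω) * constSeq ω a with hU
  set M := ‖x‖ with hM
  have hc : Commute (constSeq ω a) (x : Ultrapower B ω) := (mem_cenI hI).1 x.2 a ha
  have key : ∀ m : ℕ, ‖constSeq ω (cfc (fun t => max 0 (t - ν)) a) *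
      ((cfc (fun t => max 0 (t - μ)) x : CenI I ω) : Ultrapower B ω)‖ ≤
        M * (‖U‖ / (ν ^ 2 * μ)) ^ m := fun m => by
    set H := cfc (fun t => max 0 (t - ν) / max ν t ^ (m + m)) a with hH
    set G : CenI I ω := cfc (fun t => max 0 (t - μ) / max μ t ^ m) x with hG
    have e1 : cfc (fun t => max 0 (t - μ)) x = x ^ m * G := by
      have h := cfc_mul (fun t => t ^ m) (fun t => max 0 (t - μ) / max μ t ^ m) x
        (by fun_prop) (continuous_max_div hμ m).continuousOn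
      rw [cfc_pow_id (R := ℝ) x m] at h
      rw [hG, ← h]
      exact cfc_congr fun t _ => (max_eq_div_mul hμ m t).trans (mul_comm _ _)
    have e2 : cfc (fun t => max 0 (t - ν)) a = H * a ^ (m + m) := by
      have h := cfc_mul (fun t => max 0 (t - ν) / max ν t ^ (m + m)) (fun t => t ^ (m + m)) a
        (continuous_max_div hν _).continuousOn (by fun_prop)
      rw [cfc_pow_id (R := ℝ) a] at h
      rw [hH, ← h]
      exact cfc_congr fun t _ => max_eq_div_mul hν _ t
    have e4 : constSeq ω a ^ (m + m) * (x : Ultrapower B ω) ^ m = U ^ m := by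
      rw [hU, mul_assoc, ← hc.eq, ← mul_assoc, (Commute.mul_left hc hc).mul_pow,
        (Commute.refl (constSeq ω a)).mul_pow, ← pow_add]
    have e3 : constSeq ω (cfc (fun t => max 0 (t - ν)) a) *
        ((cfc (fun t => max 0 (t - μ)) x : CenI I ω) : Ultrapower B ω) =
          constSeq ω H * U ^ m * (G : Ultrapower B ω) := by
      rw [e1, e2, show constSeq ω (H * a ^ (m + m)) =
          constSeq ω H * constSeq ω a ^ (m + m) from by
            show cls ω _ = cls ω _ * cls ω _ ^ _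
            rw [← map_pow, ← map_mul]
            rfl, ← e4]
      show _ * _ * ((x : Ultrapower B ω) ^ m * (G : Ultrapower B ω)) = _
      simp only [mul_assoc]
    have hH1 : ‖constSeq ω H‖ ≤ 1 / ν ^ (m + m) :=
      (norm_constSeq_le _).trans (norm_cfc_le (by positivity) fun t ht => norm_max_div_le hν _
        (((Real.le_norm_self t).trans (spectrum.norm_le_norm_of_mem ht)).trans ha1.le) zero_le_one)
    have hG1 : ‖G‖ ≤ M / μ ^ m := by
      rcases subsingleton_or_nontrivial (CenI I ω) with hs | hs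
      · rw [Subsingleton.elim G 0, norm_zero]
        positivity
      exact norm_cfc_le (by positivity) fun t ht => norm_max_div_le hμ _
        ((Real.le_norm_self t).trans (spectrum.norm_le_norm_of_mem ht)) (norm_nonneg _)
    rw [e3]
    refine (norm_mul₃_le _ _ _).trans ?_
    have hUm : ‖U ^ m‖ ≤ ‖U‖ ^ m := by
      rcases Nat.eq_zero_or_pos m with rfl | hm
      · simp only [pow_zero]
        exact (norm_constSeq_le (1 : B)).trans norm_one.le
      · exact norm_pow_le' _ hm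
    calc ‖constSeq ω H‖ * ‖U ^ m‖ * ‖(G : Ultrapower B ω)‖
        ≤ 1 / ν ^ (m + m) * ‖U‖ ^ m * (M / μ ^ m) :=
          mul_le_mul (mul_le_mul hH1 hUm (norm_nonneg _) (by positivity)) hG1 (norm_nonneg _)
            (by positivity)
      _ = _ := by rw [div_pow, mul_pow, ← pow_mul, two_mul]; field_simp
  have hr : ‖U‖ / (ν ^ 2 * μ) < 1 := by rw [div_lt_one (by positivity)]; exact h
  exact norm_le_zero_iff.1 (ge_of_tendsto' (by
    simpa using (tendsto_pow_atTop_nhds_zero_of_lt_one (by positivity) hr).const_mul M) key)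

/-- In a simple ideal, the annihilator of a nonzero element annihilates the ideal. -/
theorem mul_eq_zero_of_simple (hI : IsSimpleIdeal I) {F : Ultrapower B ω} (hF : F ∈ CenI I ω)
    {e : B} (he : e ∈ I) (he0 : e ≠ 0) (hFe : constSeq ω e * F = 0) {d : B} (hd : d ∈ I) :
    F * constSeq ω d = 0 := by
  have hcomm := (mem_cenI hI).1 hF
  refine norm_le_zero_iff.1 (le_of_forall_pos_le_add fun η hη => ?_)
  rw [zero_add]
  obtain ⟨n, u, v, huv, hsum⟩ := hI.simple e he he0 d hd (η / (‖F‖ + 1)) (by positivity)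
  have hcs : constSeq ω (∑ i, u i * e * v i) =
      ∑ i, constSeq ω (u i) * constSeq ω e * constSeq ω (v i) := by
    simp only [constSeq, ← map_mul, ← map_sum]
    congr 1
    ext k
    simp
  have h0 : F * constSeq ω (∑ i, u i * e * v i) = 0 := by
    rw [hcs, Finset.mul_sum]
    refine Finset.sum_eq_zero fun i _ => ?_
    rw [← mul_assoc, ← mul_assoc, ← (hcomm _ (huv i).1).eq, mul_assoc (constSeq ω (u i)) F,
      ← (hcomm e he).eq, hFe, mul_zero, zero_mul]
  have h1 : F * constSeq ω d = -(F * constSeq ω ((∑ i, u i * e * v i) - d)) := by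
    rw [show constSeq ω ((∑ i, u i * e * v i) - d) =
        constSeq ω (∑ i, u i * e * v i) - constSeq ω d from map_sub (cls ω)
          (BoundedContinuousFunction.const ℕ (∑ i, u i * e * v i))
          (BoundedContinuousFunction.const ℕ d),
      mul_sub, h0, zero_sub, neg_neg]
  rw [h1, norm_neg]
  refine (norm_mul_le _ _).trans (le_trans (mul_le_mul_of_nonneg_left
    ((norm_constSeq_le _).trans hsum) (norm_nonneg F)) ?_)
  rw [← mul_div_assoc, div_le_iff₀ (by positivity)]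
  nlinarith

/-- A positive element of the ideal of norm one sees the norm modulo the annihilator. -/
theorem norm_proj_le (hI : IsSimpleIdeal I) (g : CenI I ω) {a : B} (ha : a ∈ I)
    (ha0 : 0 ≤ a) (ha1 : ‖a‖ = 1) :
    ‖relI ω hI (star g * g)‖ ≤
      ‖constSeq ω a * ((star g * g : CenI I ω) : Ultrapower B ω) * constSeq ω a‖ := by
  have hB : Nontrivial B := ⟨⟨a, 0, fun h => by simp [h] at ha1⟩⟩
  set x := star g * g with hx
  have hxs : IsSelfAdjoint x := IsSelfAdjoint.star_mul_self g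
  by_contra! hlt
  obtain ⟨μ, hLμ, hμN⟩ := exists_between hlt
  have hμ0 : 0 < μ := lt_of_le_of_lt (norm_nonneg _) hLμ
  set L := ‖constSeq ω a * (x : Ultrapower B ω) * constSeq ω a‖ with hL
  have hL0 : 0 ≤ L := norm_nonneg _
  obtain ⟨ν, hν0, hν1, hνμ⟩ : ∃ ν : ℝ, 0 < ν ∧ ν < 1 ∧ L < ν ^ 2 * μ := by
    have hd : 0 < (μ - L) / (4 * μ) := div_pos (sub_pos.2 hLμ) (by positivity)
    have hd1 : (μ - L) / (4 * μ) * μ = (μ - L) / 4 := by field_simp
    refine ⟨1 - (μ - L) / (4 * μ), ?_, by linarith, by nlinarith⟩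
    rw [sub_pos, div_lt_one (by positivity)]
    linarith
  have has : IsSelfAdjoint a := .of_nonneg ha0
  have h1s : (1 : ℝ) ∈ spectrum ℝ a := ha1 ▸ CStarAlgebra.norm_mem_spectrum_of_nonneg ha0
  set e := cfc (fun t => max 0 (t - ν)) a with he
  have he0 : e ≠ 0 := by
    intro h
    have hh : max 0 (1 - ν) ∈ spectrum ℝ e := by
      rw [he, cfc_map_spectrum (fun t => max 0 (t - ν)) a]
      exact ⟨1, h1s, rfl⟩
    have := spectrum.norm_le_norm_of_mem hh
    rw [h, norm_zero, norm_le_zero_iff, max_eq_right (by linarith)] at this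
    linarith
  have heI : e ∈ I := by
    have h := cfc_mul (fun t => max 0 (t - ν) / max ν t ^ 1) (fun t => t ^ 1) a
      (continuous_max_div hν0 1).continuousOn (by fun_prop)
    rw [cfc_pow_id (R := ℝ) a 1, pow_one] at h
    rw [he, cfc_congr (fun t _ => max_eq_div_mul hν0 1 t), h]
    exact hI.mul_mem_left _ a ha
  have hann : relI ω hI (cfc (fun t => max 0 (t - μ)) x) = 0 :=
    (relI_eq_zero_iff ω hI).2 fun d hd => mul_eq_zero_of_simple ω hI (SetLike.coe_mem _) heI he0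
      (bump_mul_eq_zero ω hI hxs ha ha0 ha1 hμ0 hν0 hνμ) hd
  have : StarOrderedRing (RelI ω hI) := CStarAlgebra.spectralOrderedRing _
  have hpx : 0 ≤ relI ω hI x := by rw [hx, map_mul, map_star]; exact star_mul_self_nonneg _
  have : Nontrivial (RelI ω hI) := nontrivial_of_ne (relI ω hI x) 0 fun h => by
    rw [h, norm_zero] at hμN
    linarith
  rw [StarAlgHomClass.map_cfc (R := ℝ) (S := ℂ) (relI ω hI) (fun t => max 0 (t - μ)) x
    (by fun_prop) (continuous_relI ω hI) hxs (IsSelfAdjoint.of_nonneg hpx)] at hann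
  have hh : max 0 (‖relI ω hI x‖ - μ) ∈
      spectrum ℝ (cfc (fun t => max 0 (t - μ)) (relI ω hI x)) := by
    rw [cfc_map_spectrum (fun t => max 0 (t - μ)) (relI ω hI x) (IsSelfAdjoint.of_nonneg hpx)]
    exact ⟨_, CStarAlgebra.norm_mem_spectrum_of_nonneg hpx, rfl⟩
  have := spectrum.norm_le_norm_of_mem hh
  rw [hann, norm_zero, norm_le_zero_iff, max_eq_right (sub_nonneg.2 hμN.le)] at this
  linarith

variable {ω}

/-- A moved asymptotically central sequence gives a positive element of the quotient almost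
orthogonal to its translate. -/
theorem exists_orth_class (Φ : B ≃⋆ₐ[ℂ] B) {z : B} (hz : Φ z ≠ z) :
    ∃ (b : B) (r : ℝ), 0 ≤ b ∧ ‖b‖ = 1 ∧ 0 ≤ r ∧ r < 1 ∧ ‖b * Φ b‖ ≤ r := by
  have hnt : Nontrivial B := ⟨⟨_, _, hz⟩⟩
  obtain ⟨y, hys, hy⟩ : ∃ y : B, IsSelfAdjoint y ∧ Φ y ≠ y := by
    by_contra! hc
    apply hz
    have h1 := hc _ (realPart z).2
    have h2 := hc _ (imaginaryPart z).2
    conv_lhs => rw [← realPart_add_I_smul_imaginaryPart z]
    rw [map_add, map_smul Φ Complex.I, h1, h2, realPart_add_I_smul_imaginaryPart]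
  set s : ℝ := (2 * ‖y‖ + 1)⁻¹ with hs
  have hs0 : 0 < s := by positivity
  set w₀ := s • (y + ‖y‖ • (1 : B)) with hw₀
  have hw0 : 0 ≤ w₀ := by
    refine smul_nonneg hs0.le ?_
    have h := (le_norm_smul_one hys.neg)
    rw [norm_neg] at h
    simpa [add_comm] using sub_nonneg.2 h
  have hw1 : ‖w₀‖ ≤ 1 := by
    rw [hw₀, norm_smul, Real.norm_eq_abs, abs_of_pos hs0, hs, inv_mul_eq_div,
      div_le_one (by positivity)]
    refine (norm_add_le _ _).trans ?_
    rw [norm_smul, norm_norm, norm_one]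
    linarith
  obtain ⟨w, hw0', hw1', hd, hmem⟩ : ∃ w : B, 0 ≤ w ∧ ‖w‖ ≤ 1 ∧ 0 < ‖Φ.symm w - w‖ ∧
      ‖Φ.symm w - w‖ ∈ spectrum ℝ (Φ.symm w - w) := by
    have hX : IsSelfAdjoint (Φ.symm w₀ - w₀) :=
      (IsSelfAdjoint.of_nonneg (map_pos Φ.symm hw0)).sub (.of_nonneg hw0)
    have hne : Φ.symm w₀ - w₀ ≠ 0 := by
      intro h
      apply hy
      have h1 : Φ w₀ = w₀ := by
        conv_lhs => rw [← sub_eq_zero.1 h]
        exact Φ.apply_symm_apply w₀
      simp only [hw₀, map_real_smul, map_add, map_one] at h1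
      exact add_right_cancel (smul_right_injective B hs0.ne' h1)
    rcases CStarAlgebra.norm_or_neg_norm_mem_spectrum hX with h | h
    · exact ⟨w₀, hw0, hw1, norm_pos_iff.2 hne, h⟩
    · have e : Φ.symm (1 - w₀) - (1 - w₀) = -(Φ.symm w₀ - w₀) := by
        rw [map_sub, map_one]; abel
      have hle : w₀ ≤ 1 := le_one_of_norm_le hw0 hw1
      refine ⟨1 - w₀, sub_nonneg.2 hle, ?_, ?_, ?_⟩
      · refine norm_le_of_between (le_trans (neg_nonpos.2 (smul_nonneg zero_le_one zero_le_one))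
          (sub_nonneg.2 hle)) ?_
        rw [one_smul]
        exact sub_le_self _ hw0
      · rw [e, norm_neg]; exact norm_pos_iff.2 hne
      · rw [e, norm_neg, ← spectrum.neg_eq, Set.mem_neg]; exact h
  set d := ‖Φ.symm w - w‖ with hddef
  obtain ⟨k, hk⟩ := exists_nat_gt (1 / (d / 16) ^ 2)
  have hk' : 1 / ((k + k : ℕ) + 1 : ℝ) ≤ (d / 16) ^ 2 := by
    rw [div_lt_iff₀ (by positivity)] at hk
    rw [div_le_iff₀ (by positivity)]
    push_cast
    nlinarith
  obtain ⟨b, l, hb0, hb1, hl0, hl1, hP, hQ⟩ := window hd (show 0 < d / 16 by positivity) w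
    (Φ.symm w) hw0' hw1' ((StarAlgEquiv.norm_map Φ.symm w).trans_le hw1')
    ((IsSelfAdjoint.of_nonneg (map_pos Φ.symm hw0')).sub (.of_nonneg hw0')) le_rfl hmem
  refine ⟨b, 1 - 1 / (8 * ((k + k : ℕ) + 1) : ℝ), hb0, hb1, ?_, sub_lt_self _ (by positivity),
    norm_mul_map_le Φ hd hk' hb0 hb1 hw1' hl0 hl1 le_rfl hP hQ⟩
  rw [sub_nonneg, div_le_one (by positivity)]
  linarith [Nat.cast_nonneg (α := ℝ) (k + k)]

/-- A sequence moved by `θ` gives a moved class. -/
theorem exists_moved [TopologicalSpace.SeparableSpace B] (hI : IsSimpleIdeal I)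
    (θ : B ≃⋆ₐ[ℂ] B) (hθ : ∀ x, x ∈ I ↔ θ x ∈ I) (h : ¬AsympFixOn I θ)
    (hω : (ω : Filter ℕ) ≤ Filter.atTop) :
    ∃ x : CenI I ω, relI ω hI (cenMap ω hI θ hθ x) ≠ relI ω hI x := by
  classical
  obtain ⟨a₀, ha₀, ε, hε, hneg⟩ : ∃ a ∈ I, ∃ ε : ℝ, 0 < ε ∧ ∀ (D : Finset B) (η : ℝ), 0 < η →
      (∀ d ∈ D, d ∈ I) → ∃ z : B, ‖z‖ ≤ 2 ∧ (∀ d ∈ D, ‖z * d - d * z‖ ≤ η) ∧
        ε < ‖(θ z - z) * a‖ := by
    simp only [AsympFixOn, not_forall, not_exists, not_and, not_le] at h
    obtain ⟨a, ha, ε, hε, h⟩ := h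
    refine ⟨a, ha, ε, hε, fun D η hη hD => ?_⟩
    obtain ⟨z, hz1, hz2, hz3⟩ := h D η hη hD
    exact ⟨z, hz1, hz2, hz3⟩
  have : Nonempty I := ⟨⟨0, hI.zero_mem⟩⟩
  have : SecondCountableTopology B := UniformSpace.secondCountable_of_separable B
  obtain ⟨ds, hds⟩ := TopologicalSpace.exists_dense_seq I
  choose z hz1 hz2 hz3 using fun n : ℕ => hneg ((Finset.range (n + 1)).image fun j => (ds j : B))
    (1 / ((n : ℝ) + 1)) (by positivity) (fun d hd => by
      obtain ⟨j, -, rfl⟩ := Finset.mem_image.1 hd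
      exact (ds j).2)
  set Z : ℕ →ᵇ B := BoundedContinuousFunction.ofNormedAddCommGroup z
    continuous_of_discreteTopology 2 hz1 with hZ
  have hcZ : ∀ j, Commute (constSeq ω (ds j : B)) (cls ω Z) := fun j => by
    refine (commute_cls_of_tendsto ω ?_).symm
    refine squeeze_zero' (Eventually.of_forall fun n => norm_nonneg _) ?_
      (tendsto_one_div_add_atTop_nhds_zero_nat.mono_left hω)
    refine Eventually.filter_mono hω ((eventually_ge_atTop j).mono fun n hn => ?_)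
    simpa [hZ] using hz2 n _ (Finset.mem_image_of_mem _ (Finset.mem_range.2 (by omega : j < n + 1)))
  have hZmem : cls ω Z ∈ CenI I ω := by
    rw [mem_cenI hI]
    intro b hb
    have hu : IsClosed {u : Ultrapower B ω | u * cls ω Z = cls ω Z * u} :=
      isClosed_eq (continuous_mul_const _) (continuous_const_mul _)
    have hcl := hu.preimage
      ((continuous_constSeq (ω := ω)).comp (continuous_subtype_val (p := fun b => b ∈ I)))
    exact closure_minimal (Set.range_subset_iff.2 hcZ) hcl (hds ⟨b, hb⟩)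
  refine ⟨⟨cls ω Z, hZmem⟩, fun h0 => ?_⟩
  rw [← sub_eq_zero, ← map_sub] at h0
  have h1 := (relI_eq_zero_iff ω hI).1 h0 a₀ ha₀
  change (mapU ω (StarAlgHomClass.toStarAlgHom θ) (cls ω Z) - cls ω Z) * constSeq ω a₀ = 0 at h1
  rw [mapU_cls, constSeq, ← map_sub, ← map_mul, ← norm_eq_zero, norm_cls] at h1
  have h2 := tendsto_limNorm ω
    ((bmap (StarAlgHomClass.toStarAlgHom θ) Z - Z) * BoundedContinuousFunction.const ℕ a₀)
  rw [h1] at h2
  have h3 : ε ≤ 0 := ge_of_tendsto' h2 fun n => by simpa [bmap_apply, hZ] using (hz3 n).le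
  linarith

/-- A nearly optimal contraction lifting a multiple of `y`. -/
theorem exists_lift_seq (hI : IsSimpleIdeal I) {y : RelI ω hI} (hy : ‖y‖ ≤ 1) {c : ℝ} (hc0 : 0 < c)
    (hc1 : c < 1) : ∃ (G : ℕ →ᵇ B) (y₁ : CenI I ω), (∀ n, ‖G n‖ ≤ 1) ∧
      cls ω G = (y₁ : Ultrapower B ω) ∧ relI ω hI y₁ = (c : ℂ) • y := by
  have hgap : 0 < 1 / c - 1 := sub_pos.2 (one_lt_one_div hc0 hc1)
  obtain ⟨y₁, hy₁, hy₁n⟩ := exists_relI_lift ω hI y (half_pos hgap)
  obtain ⟨g, hg, hgn⟩ := quot_exists_norm_lt (NullSeq B ω) (y₁ : Ultrapower B ω) (half_pos hgap)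
  refine ⟨(c : ℂ) • g, (c : ℂ) • y₁, fun n => ?_, ?_, by rw [map_smul, hy₁]⟩
  · rw [BoundedContinuousFunction.coe_smul, norm_smul, Complex.norm_real, Real.norm_eq_abs,
      abs_of_pos hc0]
    have h4 : ‖g n‖ ≤ 1 / c := by
      have : ‖(y₁ : Ultrapower B ω)‖ = ‖y₁‖ := rfl
      linarith [g.norm_coe_le_norm n]
    rw [le_div_iff₀ hc0] at h4
    linarith
  · rw [map_smul]
    exact congrArg (fun u : Ultrapower B ω => (c : ℂ) • u) hg

/-- Lifted products are small against elements of the ideal. -/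
theorem norm_mul_le_relI (hI : IsSimpleIdeal I) (T : CenI I ω) {Y : B} (hY : Y ∈ I) {δ : ℝ}
    (hδ : 0 < δ) :
    ‖constSeq ω Y * (T : Ultrapower B ω)‖ ≤ ‖Y‖ * (‖relI ω hI T‖ + δ) := by
  obtain ⟨T', hT', hT'n⟩ := exists_relI_lift ω hI (relI ω hI T) hδ
  have h5 : relI ω hI (T' - T) = 0 := by rw [map_sub, hT', sub_self]
  have h6 := (relI_eq_zero_iff ω hI).1 h5 Y hY
  have h8 := ((mem_cenI hI).1 (T' - T).2 Y hY).eq
  have h7 : constSeq ω Y * ((T' : Ultrapower B ω) - (T : Ultrapower B ω)) = 0 := h8.trans h6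
  rw [mul_sub, sub_eq_zero] at h7
  rw [← h7]
  exact (norm_mul_le _ _).trans
    (mul_le_mul (norm_constSeq_le Y) hT'n.le (norm_nonneg _) (norm_nonneg _))

/-- Almost central elements seen by every positive element of the ideal and almost orthogonal to
their translates. -/
theorem exists_small [TopologicalSpace.SeparableSpace B] (hI : IsSimpleIdeal I)
    (θ : B ≃⋆ₐ[ℂ] B) (hθ : ∀ x, x ∈ I ↔ θ x ∈ I) (h : ¬AsympFixOn I θ) :
    ∃ r : ℝ, 0 ≤ r ∧ r < 1 ∧ ∀ a ∈ I, 0 ≤ a → ‖a‖ = 1 → ∀ Y ∈ I, ∀ ζ : ℝ, 0 < ζ →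
      ∃ q : B, 0 ≤ q ∧ ‖q‖ ≤ 1 ∧ 1 - ζ ≤ ‖a * q * a‖ ∧ ‖q * Y - Y * q‖ ≤ ζ ∧
        ‖Y * (q * θ q)‖ ≤ r * ‖Y‖ + ζ := by
  set ω : Ultrafilter ℕ := Filter.hyperfilter ℕ with hω'
  obtain ⟨x₀, hx₀⟩ := exists_moved hI θ hθ h (ω := ω) Nat.hyperfilter_le_atTop
  obtain ⟨Φ, hΦ⟩ := exists_relI_equiv ω hI θ hθ
  rw [← hΦ] at hx₀
  obtain ⟨b, r, hb0, hb1, hr0, hr1, hbr⟩ := exists_orth_class Φ hx₀
  refine ⟨r, hr0, hr1, fun a ha ha0 ha1 Y hY ζ hζ => ?_⟩
  have : StarOrderedRing (RelI ω hI) := CStarAlgebra.spectralOrderedRing _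
  obtain ⟨y, hy⟩ := CStarAlgebra.nonneg_iff_eq_star_mul_self.mp hb0
  have hy1 : ‖y‖ ≤ 1 := by
    have h4 : ‖y‖ * ‖y‖ = 1 := by rw [← CStarRing.norm_star_mul_self, ← hy, hb1]
    nlinarith [norm_nonneg y]
  obtain ⟨c, hc0, hc1, hcζ⟩ : ∃ c : ℝ, 0 < c ∧ c < 1 ∧ 1 - ζ / 2 ≤ c ^ 2 := by
    refine ⟨1 - min (ζ / 4) (1 / 2), ?_, ?_, ?_⟩
    · linarith [min_le_right (ζ / 4) (1 / 2)]
    · linarith [lt_min (show 0 < ζ / 4 by positivity) (show (0 : ℝ) < 1 / 2 by norm_num)]
    · nlinarith [min_le_left (ζ / 4) (1 / 2), sq_nonneg (min (ζ / 4) (1 / 2))]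
  obtain ⟨G, y₁, hG1, hGc, hy₁⟩ := exists_lift_seq hI hy1 hc0 hc1
  set Q : ℕ →ᵇ B := star G * G with hQdef
  set Qc : CenI I ω := star y₁ * y₁ with hQc
  have hQcls : cls ω Q = (Qc : Ultrapower B ω) := by
    rw [hQdef, map_mul, ← star_cls, hGc]
    rfl
  have hPQ : relI ω hI Qc = (c ^ 2) • b := by
    rw [hQc, map_mul, map_star, hy₁, star_smul, smul_mul_assoc,
      mul_smul_comm, smul_smul, ← hy, Complex.star_def, Complex.conj_ofReal, ← Complex.ofReal_mul,
      Complex.coe_smul, sq]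
  have hlow : 1 - ζ < limNorm ω (BoundedContinuousFunction.const ℕ a * Q *
      BoundedContinuousFunction.const ℕ a) := by
    have h4 := norm_proj_le ω hI y₁ ha ha0 ha1
    rw [← hQc, hPQ, norm_smul, hb1, mul_one, Real.norm_eq_abs, abs_of_pos (pow_pos hc0 2)] at h4
    rw [← norm_cls, map_mul, map_mul, hQcls]
    exact lt_of_lt_of_le (by linarith) h4
  have hup : limNorm ω (BoundedContinuousFunction.const ℕ Y *
      (Q * bmap (StarAlgHomClass.toStarAlgHom θ) Q)) < r * ‖Y‖ + ζ := by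
    have h4 : ‖relI ω hI (Qc * cenMap ω hI θ hθ Qc)‖ ≤ r := by
      rw [map_mul, ← hΦ, hPQ, map_real_smul, smul_mul_assoc, mul_smul_comm, smul_smul,
        norm_smul, Real.norm_eq_abs, abs_of_pos (by positivity)]
      have : c ^ 2 * c ^ 2 ≤ 1 := mul_le_one₀ (pow_le_one₀ hc0.le hc1.le) (by positivity)
        (pow_le_one₀ hc0.le hc1.le)
      exact (mul_le_of_le_one_left (norm_nonneg _) this).trans hbr
    have h5 := norm_mul_le_relI hI (Qc * cenMap ω hI θ hθ Qc) hY
      (show 0 < ζ / (2 * (‖Y‖ + 1)) by positivity)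
    rw [← norm_cls, map_mul, map_mul, ← mapU_cls, hQcls]
    refine lt_of_le_of_lt h5 ?_
    refine lt_of_le_of_lt (mul_le_mul_of_nonneg_left (add_le_add h4 le_rfl) (norm_nonneg _)) ?_
    have h11 : ‖Y‖ * (ζ / (2 * (‖Y‖ + 1))) < ζ := by
      rw [mul_div_assoc', div_lt_iff₀ (by positivity)]
      nlinarith [norm_nonneg Y]
    linarith
  have hcom : Tendsto (fun n => ‖Q n * Y - Y * Q n‖) ω (𝓝 0) := by
    have h4 := (mem_cenI hI).1 Qc.2 Y hY
    rw [← hQcls] at h4
    simpa using tendsto_of_commute_cls ω h4.symm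
  obtain ⟨n, hn1, hn2, hn3⟩ := ((((tendsto_limNorm ω _).eventually (eventually_gt_nhds hlow)).and
    (((tendsto_limNorm ω _).eventually (eventually_lt_nhds hup)).and
      (hcom.eventually (eventually_le_nhds hζ)))).exists)
  simp only [BoundedContinuousFunction.coe_mul, Pi.mul_apply, BoundedContinuousFunction.const_apply,
    bmap_apply] at hn1 hn2
  refine ⟨Q n, star_mul_self_nonneg (G n), ?_, hn1.le, hn3, hn2.le⟩
  show ‖star (G n) * G n‖ ≤ 1
  rw [CStarRing.norm_star_mul_self]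
  exact mul_le_one₀ (hG1 n) (norm_nonneg _) (hG1 n)

/-- Repeated compression. -/
theorem exists_small_conj [TopologicalSpace.SeparableSpace B] (hI : IsSimpleIdeal I)
    (θ : B ≃⋆ₐ[ℂ] B) (hθ : ∀ x, x ∈ I ↔ θ x ∈ I) (h : ¬AsympFixOn I θ) {b₀ c₀ : B}
    (hc₀ : c₀ ∈ I) (hp : IsPair b₀ c₀) (x : B) {δ : ℝ} (hδ : 0 < δ) :
    ∃ a : B, 0 ≤ a ∧ ‖a‖ = 1 ∧ b₀ * a = a ∧ ‖a * x * θ a‖ ≤ δ := by
  obtain ⟨r, hr0, hr1, hq⟩ := exists_small hI θ hθ h
  set r' := (1 + r) / 2 with hr'
  have key : ∀ k : ℕ, ∃ a : B, a ∈ I ∧ 0 ≤ a ∧ ‖a‖ = 1 ∧ b₀ * a = a ∧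
      ‖a * x * θ a‖ ≤ r' ^ k * (‖x‖ + 1) := by
    intro k
    induction k with
    | zero =>
      refine ⟨c₀, hc₀, isPos_iff.1 hp.pos_c, hp.norm_c, hp.unit, ?_⟩
      refine (norm_mul₃_le _ _ _).trans ?_
      rw [StarAlgEquiv.norm_map, hp.norm_c]
      linarith
    | succ k ih =>
      obtain ⟨a, haI, ha0, ha1, hab, haY⟩ := ih
      set M := r' ^ k * (‖x‖ + 1) with hM
      have hr'0 : 0 < r' := by rw [hr']; linarith
      have hM0 : 0 < M := by positivity
      have hgap : 0 < r' - r := by rw [hr']; linarith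
      set Y := a * x * θ a with hY
      set ζ := min ((r' - r) / 8) ((r' - r) / 8 * M) with hζ
      have hζ0 : 0 < ζ := lt_min (by positivity) (by positivity)
      obtain ⟨q, hq0, hq1, hs, hqY, hqr⟩ :=
        hq a haI ha0 ha1 Y (hI.mul_mem_right _ _ (hI.mul_mem_right _ _ haI)) ζ hζ0
      set s := ‖a * q * a‖ with hsdef
      have hs0 : 0 < s := lt_of_lt_of_le (by
        have : r' ≤ 1 := by rw [hr']; linarith
        linarith [min_le_left ((r' - r) / 8) ((r' - r) / 8 * M)]) hs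
      refine ⟨s⁻¹ • (a * q * a), ?_,
        smul_nonneg (by positivity) ((IsSelfAdjoint.of_nonneg ha0).conjugate_nonneg hq0), ?_, ?_,
        ?_⟩
      · rw [← Complex.coe_smul]
        exact hI.smul_mem _ _ (hI.mul_mem_left _ _ haI)
      · rw [norm_smul, norm_inv, Real.norm_eq_abs, abs_of_pos hs0]
        exact inv_mul_cancel₀ hs0.ne'
      · rw [mul_smul_comm, ← mul_assoc, ← mul_assoc, hab]
      · have e1 : a * q * a * x * θ (a * q * a) =
            a * (Y * (q * θ q)) * θ a + a * (q * Y - Y * q) * (θ q * θ a) := by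
          simp only [map_mul, hY]
          noncomm_ring
        have h1 : ‖a * q * a * x * θ (a * q * a)‖ ≤ M * r + (r' - r) / 4 * M := by
          rw [e1]
          have h2 : ‖Y * (q * θ q)‖ ≤ M * r + ζ := by
            rw [mul_comm M]
            exact hqr.trans (add_le_add (mul_le_mul_of_nonneg_left haY hr0) le_rfl)
          have h3 : ‖θ q * θ a‖ ≤ 1 := (norm_mul_le _ _).trans (by
            rw [StarAlgEquiv.norm_map, StarAlgEquiv.norm_map, ha1, mul_one]
            exact hq1)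
          have h5 : ‖a * (Y * (q * θ q)) * θ a‖ ≤ ‖Y * (q * θ q)‖ :=
            (norm_mul₃_le _ _ _).trans_eq (by rw [StarAlgEquiv.norm_map, ha1, one_mul, mul_one])
          have h6 : ‖a * (q * Y - Y * q) * (θ q * θ a)‖ ≤ ‖q * Y - Y * q‖ := by
            refine (norm_mul₃_le _ _ _).trans ?_
            rw [ha1, one_mul]
            exact mul_le_of_le_one_right (norm_nonneg _) h3
          refine (norm_add_le _ _).trans ((add_le_add h5 h6).trans ?_)
          linarith [min_le_right ((r' - r) / 8) ((r' - r) / 8 * M)]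
        rw [map_real_smul, smul_mul_assoc, smul_mul_assoc, mul_smul_comm, norm_smul, norm_smul,
          norm_inv, Real.norm_eq_abs, abs_of_pos hs0, ← mul_assoc, ← mul_inv, inv_mul_eq_div,
          div_le_iff₀ (by positivity), pow_succ]
        refine h1.trans ?_
        have h8 : 1 - 2 * ζ ≤ s * s := by nlinarith [sq_nonneg (1 - ζ - 1)]
        calc M * r + (r' - r) / 4 * M = M * (r + (r' - r) / 4) := by ring
          _ ≤ M * (r' * (1 - 2 * ζ)) := mul_le_mul_of_nonneg_left (by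
              have : r' ≤ 1 := by rw [hr']; linarith
              have := min_le_left ((r' - r) / 8) ((r' - r) / 8 * M)
              nlinarith) hM0.le
          _ ≤ M * (r' * (s * s)) :=
              mul_le_mul_of_nonneg_left (mul_le_mul_of_nonneg_left h8 hr'0.le) hM0.le
          _ = _ := by rw [hM]; ring
  obtain ⟨k, hk⟩ := exists_pow_lt_of_lt_one (show 0 < δ / (‖x‖ + 1) by positivity)
    (show r' < 1 by rw [hr']; linarith)
  obtain ⟨a, -, h0, h1, h2, h3⟩ := key k
  exact ⟨a, h0, h1, h2, h3.trans ((lt_div_iff₀ (by positivity)).1 hk).le⟩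

end

end Quotient

/-- A pair of plateau functions below an element. -/
theorem exists_pair [Nontrivial A] {a : A} (ha0 : 0 ≤ a) (ha1 : ‖a‖ = 1) :
    ∃ b c h : A, IsPair b c ∧ b = h * a ∧ b = a * h ∧ star h = h ∧ ‖h‖ ≤ 2 := by
  have has : IsSelfAdjoint a := .of_nonneg ha0
  have h1s : (1 : ℝ) ∈ spectrum ℝ a := ha1 ▸ CStarAlgebra.norm_mem_spectrum_of_nonneg ha0
  set f : ℝ → ℝ := fun t => min 1 (max 0 (4 * t - 2)) with hf
  set g : ℝ → ℝ := fun t => max 0 (min 1 (4 * t - 3)) with hg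
  set k : ℝ → ℝ := fun t => f t / max t (1 / 2) with hk
  have hkc : Continuous k := Continuous.div₀ (by fun_prop) (by fun_prop)
    fun t => ne_of_gt (lt_of_lt_of_le (by norm_num) (le_max_right _ _))
  have hn : ∀ φ : ℝ → ℝ, Continuous φ → (∀ t, 0 ≤ φ t ∧ φ t ≤ 1) → φ 1 = 1 →
      IsPos (cfc φ a) ∧ ‖cfc φ a‖ = 1 := fun φ hc hb h1 => by
    refine ⟨isPos_iff.2 (cfc_nonneg fun t _ => (hb t).1), le_antisymm
      (norm_cfc_le zero_le_one fun t _ => ?_) ?_⟩
    · rw [Real.norm_eq_abs, abs_of_nonneg (hb t).1]; exact (hb t).2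
    · have hh : φ 1 ∈ spectrum ℝ (cfc φ a) := by
        rw [cfc_map_spectrum φ a]; exact Set.mem_image_of_mem φ h1s
      simpa [h1] using spectrum.norm_le_norm_of_mem hh
  have hf1 := hn f (by fun_prop) (fun t => ⟨le_min zero_le_one (le_max_left _ _), min_le_left _ _⟩)
    (by norm_num [hf])
  have hg1 := hn g (by fun_prop)
    (fun t => ⟨le_max_left _ _, max_le zero_le_one (min_le_left _ _)⟩) (by norm_num [hg])
  have hkeq : ∀ t, f t = k t * t := fun t => by
    by_cases ht : t ≤ 1 / 2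
    · simp [hk, hf, max_eq_left (show 4 * t - 2 ≤ 0 by linarith)]
    · rw [hk]
      simp only [max_eq_left (not_le.1 ht).le]
      rw [div_mul_cancel₀]
      linarith
  have e1 : cfc f a = cfc k a * a := by
    have h := cfc_mul k (fun t => t) a hkc.continuousOn (by fun_prop)
    rw [cfc_id' ℝ a] at h
    rw [← h]
    exact cfc_congr fun t _ => hkeq t
  have e2 : cfc f a = a * cfc k a := by
    have h := cfc_mul (fun t => t) k a (by fun_prop) hkc.continuousOn
    rw [cfc_id' ℝ a] at h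
    rw [← h]
    exact cfc_congr fun t _ => (hkeq t).trans (mul_comm _ _)
  refine ⟨cfc f a, cfc g a, cfc k a, ⟨hf1.1, hg1.1, hf1.2, hg1.2, ?_⟩, e1, e2,
    (cfc_predicate (p := IsSelfAdjoint) k a).star_eq, norm_cfc_le zero_le_two fun t _ => ?_⟩
  · rw [← cfc_mul f g a]
    refine cfc_congr fun t _ => ?_
    by_cases ht : t ≤ 3 / 4
    · simp [hg, max_eq_left (show min 1 (4 * t - 3) ≤ 0 from
        (min_le_right _ _).trans (by linarith))]
    · have : f t = 1 := by
        rw [hf]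
        exact min_eq_left (le_trans (by linarith) (le_max_right _ _))
      rw [this, one_mul]
  · have h0 : 0 ≤ f t := le_min zero_le_one (le_max_left _ _)
    rw [Real.norm_eq_abs, hk, abs_of_nonneg (div_nonneg h0
      (le_trans (by norm_num) (le_max_right _ _)))]
    rw [div_le_iff₀ (lt_of_lt_of_le (by norm_num) (le_max_right _ _))]
    linarith [min_le_left 1 (max 0 (4 * t - 2)), le_max_right t (1 / 2)]

theorem isSimpleIdeal_univ [IsSimpleRing A] : IsSimpleIdeal (Set.univ : Set A) where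
  zero_mem := trivial
  add_mem _ _ _ _ := trivial
  smul_mem _ _ _ := trivial
  mul_mem_left _ _ _ := trivial
  mul_mem_right _ _ _ := trivial
  star_mem _ _ := trivial
  closed := isClosed_univ
  simple e _ he y _ ε hε := by
    let I : TwoSidedIdeal A := TwoSidedIdeal.mk' (Vale.P101.twoSided ({e} : Set A) : Set A)
      (Submodule.zero_mem _) (fun h h' => Submodule.add_mem _ h h') (fun h => Submodule.neg_mem _ h)
      (fun h => Vale.P101.left_mem_twoSided h _) (fun h => Vale.P101.right_mem_twoSided h _)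
    have hI : I = ⊤ := (eq_bot_or_eq_top I).resolve_left fun h => he (by
      have : e ∈ I := by simp [I, Vale.P101.subset_twoSided (Set.mem_singleton e)]
      rwa [h, TwoSidedIdeal.mem_bot] at this)
    have h1 : y ∈ I := hI ▸ TwoSidedIdeal.mem_top A
    obtain ⟨n, u, s, v, hs, hsum⟩ := Vale.P101.exists_sum_of_mem (S := ({e} : Set A)) (z := y)
      (by simpa [I] using h1)
    refine ⟨n, u, v, fun i => ⟨trivial, trivial⟩, ?_⟩
    have : ∑ i, u i * e * v i = y := by
      rw [hsum]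
      exact Finset.sum_congr rfl fun i _ => by rw [show s i = e from hs i]
    rw [this, sub_self, norm_zero]
    exact hε.le

end Dicho

/-- The dichotomy relative to a simple ideal. -/
theorem isOrthOn_or_asympFixOn [TopologicalSpace.SeparableSpace A] {I : Set A}
    (hI : IsSimpleIdeal I) (θ : A ≃⋆ₐ[ℂ] A) (hθ : ∀ x, x ∈ I ↔ θ x ∈ I) :
    IsOrthOn I θ ∨ AsympFixOn I θ := by
  by_cases h : AsympFixOn I θ
  · exact Or.inr h
  refine Or.inl fun b₀ c₀ _ hc₀ hp x δ hδ => ?_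
  have : Nontrivial A := ⟨⟨c₀, 0, fun e => by simpa [e] using hp.norm_c⟩⟩
  obtain ⟨a, ha0, ha1, hab, hY⟩ :=
    Dicho.exists_small_conj hI θ hθ h hc₀ hp x (show 0 < δ / 4 by positivity)
  obtain ⟨b, c, h', hbc, e1, e2, -, hh⟩ := Dicho.exists_pair ha0 ha1
  refine ⟨b, c, hbc, by rw [e2, ← mul_assoc, hab], ?_⟩
  have e : b * x * θ b = h' * (a * x * θ a) * θ h' := by
    conv_lhs => arg 1; arg 1; rw [e1]
    rw [e2, map_mul]
    simp only [mul_assoc]
  rw [e]
  refine (Dicho.norm_mul₃_le _ _ _).trans ?_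
  rw [StarAlgEquiv.norm_map]
  calc ‖h'‖ * ‖a * x * θ a‖ * ‖h'‖ ≤ 2 * (δ / 4) * 2 := by gcongr
    _ = δ := by ring

theorem isOrth_or_asympFix [IsSimpleRing A] [TopologicalSpace.SeparableSpace A]
    (θ : A ≃⋆ₐ[ℂ] A) : IsOrth θ ∨ AsympFix θ := by
  rcases isOrthOn_or_asympFixOn Dicho.isSimpleIdeal_univ θ fun _ => Iff.rfl with h | h
  · exact Or.inl fun b₀ c₀ => h b₀ c₀ trivial trivial
  · refine Or.inr fun ε hε => ?_
    obtain ⟨D, η, hη, -, hD⟩ := h 1 trivial ε hε
    exact ⟨D, η, hη, fun z h1 h2 => by simpa using hD z h1 h2⟩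

end Vale.P095.SI
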