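import Vale.Agent.P095.SI.Pieces

/-!
# P095 (SI): exact square zero elements, almost invariant in norm

From the sequence `a` (2-norm estimates): `e` = Følner average of the translates of `e₀ = f_δ (∑ d d*)` for the translated
defects `d = α g a - a`; `b = (1 - e) a`; `x = h₋ b h₊` with `h = b* b - b b*` squares to zero exactly.
-/

open Filter Topology

namespace Vale.P095.SI

open Vale.P095.Tracial

variable {A : Type*} [CStarAlgebra A] {G : Type*} [Group G]

section LiftAux

attribute [local instance] CStarAlgebra.spectralOrder CStarAlgebra.spectralOrderedRing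

/-- A tracial state pulled back along an automorphism. -/
private noncomputable def liftPull (τ : TracialState A) (φ : A ≃⋆ₐ[ℂ] A) : TracialState A where
  toLin :=
    { toFun := fun x => τ.toLin (φ x)
      map_add' := fun x y => by rw [map_add, map_add]
      map_smul' := fun c x => by rw [map_smul, map_smul]; rfl }
  map_one := by simp [τ.map_one]
  nonneg x := by simpa [map_mul, map_star] using τ.nonneg (φ x)
  tracial x y := by simp [map_mul, τ.tracial]

private theorem lift_real_one (τ : TracialState A) : τ.toTraceFun.real 1 = 1 := by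
  simp [TraceFun.real_apply, TracialState.toTraceFun, τ.map_one]

private theorem lift_real_pull (τ : TracialState A) (φ : A ≃⋆ₐ[ℂ] A) (x : A) :
    (liftPull τ φ).toTraceFun.real x = τ.toTraceFun.real (φ x) := rfl

variable {t : A →ₗ[ℝ] ℝ}

/-- The square of the trace two-norm. -/
private noncomputable def liftQ (t : A →ₗ[ℝ] ℝ) (y : A) : ℝ := t (star y * y)

private theorem liftQ_add (ht : IsTrace t) (x y : A) :
    liftQ t (x + y) ≤ 2 * liftQ t x + 2 * liftQ t y :=
  ht.add_mul_self_le x y

private theorem liftQ_star (ht : IsTrace t) (y : A) : liftQ t (star y) = liftQ t y := by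
  rw [liftQ, star_star, ht.comm]; rfl

private theorem liftQ_mul_left (ht : IsTrace t) (u y : A) :
    liftQ t (u * y) ≤ ‖u‖ ^ 2 * liftQ t y := by
  have h := ht.conj_le (IsSelfAdjoint.star_mul_self u) y
  rwa [CStarRing.norm_star_mul_self, ← pow_two, ← mul_assoc, mul_assoc (star y * star u),
    ← star_mul] at h

private theorem liftQ_mul_right (ht : IsTrace t) (y w : A) :
    liftQ t (y * w) ≤ ‖w‖ ^ 2 * liftQ t y := by
  rw [← liftQ_star ht, star_mul, ← liftQ_star ht y, ← norm_star w]
  exact liftQ_mul_left ht _ _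

private theorem liftQ_mul_left_one (ht : IsTrace t) {u : A} (hu : ‖u‖ ≤ 1) (y : A) :
    liftQ t (u * y) ≤ liftQ t y :=
  (liftQ_mul_left ht u y).trans (mul_le_of_le_one_left (ht.nonneg y)
    (pow_le_one₀ (norm_nonneg u) hu))

private theorem liftQ_mul_right_one (ht : IsTrace t) (y : A) {w : A} (hw : ‖w‖ ≤ 1) :
    liftQ t (y * w) ≤ liftQ t y :=
  (liftQ_mul_right ht y w).trans (mul_le_of_le_one_left (ht.nonneg y)
    (pow_le_one₀ (norm_nonneg w) hw))

private theorem liftQ_le_one (ht : IsTrace t) (h1 : t 1 = 1) {u : A} (hu : ‖u‖ ≤ 1) :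
    liftQ t u ≤ 1 := by
  have h := liftQ_mul_left_one ht hu 1
  have e : liftQ t 1 = 1 := by rw [liftQ, star_one, mul_one, h1]
  rwa [mul_one, e] at h

private theorem lift_abs_le {x : A} {r : ℝ} (hr : r ∈ spectrum ℝ x) : |r| ≤ ‖x‖ := by
  rcases subsingleton_or_nontrivial A with hA | hA
  · simp [spectrum.of_subsingleton] at hr
  · simpa using spectrum.norm_le_norm_of_mem hr

/-- The positive part of the spectrum. -/
private noncomputable def liftPos (h : A) : A := cfc (fun r : ℝ => max 0 r) h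

/-- The negative part of the spectrum. -/
private noncomputable def liftNeg (h : A) : A := cfc (fun r : ℝ => max 0 (-r)) h

private theorem liftNeg_mul_liftPos (h : A) (hh : IsSelfAdjoint h) :
    liftPos h * liftNeg h = 0 := by
  rw [liftPos, liftNeg, ← cfc_mul (fun r : ℝ => max 0 r) (fun r : ℝ => max 0 (-r)) h]
  have : cfc (fun r : ℝ => max 0 r * max 0 (-r)) h = cfc (fun _ : ℝ => (0 : ℝ)) h :=
    cfc_congr fun r _ => by
      rcases le_total 0 r with hr | hr
      · simp [max_eq_left (neg_nonpos.2 hr)]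
      · simp [max_eq_left hr]
  rw [this, cfc_const_zero]

private theorem liftPos_sub_liftNeg (h : A) (hh : IsSelfAdjoint h) :
    liftPos h - liftNeg h = h := by
  rw [liftPos, liftNeg, ← cfc_sub (fun r : ℝ => max 0 r) (fun r : ℝ => max 0 (-r)) h]
  conv_rhs => rw [← cfc_id' ℝ h]
  exact cfc_congr fun r _ => by
    rcases le_total 0 r with hr | hr
    · simp [max_eq_left (neg_nonpos.2 hr), max_eq_right hr]
    · simp [max_eq_left hr, max_eq_right (neg_nonneg.2 hr)]

private theorem norm_liftPos_le {h : A} (hh : IsSelfAdjoint h) (h1 : ‖h‖ ≤ 1) :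
    ‖liftPos h‖ ≤ 1 ∧ ‖liftNeg h‖ ≤ 1 := by
  constructor <;> refine norm_cfc_le zero_le_one fun r hr => ?_
  all_goals
    have h3 : |r| ≤ 1 := (lift_abs_le hr).trans h1
    rw [abs_le] at h3
    rw [Real.norm_eq_abs, abs_of_nonneg (le_max_left _ _)]
    exact max_le zero_le_one (by linarith)

/-- The square zero element built from `b`. -/
private noncomputable def liftX (b : A) : A :=
  liftNeg (star b * b - b * star b) * b * liftPos (star b * b - b * star b)

private theorem lift_h_props {b : A} (hb : ‖b‖ ≤ 1) :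
    IsSelfAdjoint (star b * b - b * star b) ∧ ‖star b * b - b * star b‖ ≤ 1 := by
  refine ⟨(IsSelfAdjoint.star_mul_self b).sub (IsSelfAdjoint.mul_star_self b), ?_⟩
  set p := star b * b
  set q := b * star b
  have hp0 : 0 ≤ p := star_mul_self_nonneg b
  have hq0 : 0 ≤ q := mul_star_self_nonneg b
  have hp1 : ‖p‖ ≤ 1 := by
    rw [CStarRing.norm_star_mul_self]; exact mul_le_one₀ hb (norm_nonneg _) hb
  have hq1 : ‖q‖ ≤ 1 := by
    rw [CStarRing.norm_self_mul_star]; exact mul_le_one₀ hb (norm_nonneg _) hb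
  rcases subsingleton_or_nontrivial A with hA | hA
  · simp [Subsingleton.elim (p - q) 0]
  have hpa : p ≤ algebraMap ℝ A 1 := hp0.isSelfAdjoint.le_algebraMap_norm_self.trans
    (algebraMap_le_algebraMap.2 hp1 |>.trans le_rfl)
  have hqa : q ≤ algebraMap ℝ A 1 := hq0.isSelfAdjoint.le_algebraMap_norm_self.trans
    (algebraMap_le_algebraMap.2 hq1 |>.trans le_rfl)
  have hsa : IsSelfAdjoint (p - q) := hp0.isSelfAdjoint.sub hq0.isSelfAdjoint
  have h2 : ∀ r ∈ spectrum ℝ (p - q), |r| ≤ 1 := by
    intro r hr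
    have u1 : p - q ≤ algebraMap ℝ A 1 := (sub_le_self p hq0).trans hpa
    have u2 : algebraMap ℝ A (-1) ≤ p - q := by
      rw [map_neg, neg_le, neg_sub]
      exact (sub_le_self q hp0).trans hqa
    exact abs_le.2 ⟨(algebraMap_le_iff_le_spectrum hsa).1 u2 r hr,
      (le_algebraMap_iff_spectrum_le hsa).1 u1 r hr⟩
  have := norm_cfc_le (a := p - q) (f := fun r : ℝ => r) zero_le_one
    (fun r hr => by rw [Real.norm_eq_abs]; exact h2 r hr)
  rwa [cfc_id' ℝ (p - q)] at this

private theorem liftX_sq {b : A} (hb : ‖b‖ ≤ 1) : liftX b * liftX b = 0 := by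
  have e := liftNeg_mul_liftPos _ (lift_h_props hb).1
  simp only [liftX, mul_assoc]
  rw [← mul_assoc (liftPos _) (liftNeg _), e, zero_mul, mul_zero, mul_zero]

private theorem norm_liftX_le {b : A} (hb : ‖b‖ ≤ 1) : ‖liftX b‖ ≤ 1 := by
  obtain ⟨hh, h1⟩ := lift_h_props hb
  obtain ⟨hP, hN⟩ := norm_liftPos_le hh h1
  calc ‖liftX b‖ ≤ ‖liftNeg (star b * b - b * star b)‖ * ‖b‖ *
        ‖liftPos (star b * b - b * star b)‖ := norm_mul₃_le
    _ ≤ 1 := mul_le_one₀ (mul_le_one₀ hN (norm_nonneg _) hb) (norm_nonneg _) hP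

/-- In two-norm the square zero element is close to `b`. -/
private theorem liftQ_liftX_sub (ht : IsTrace t) {b : A} (hb : ‖b‖ ≤ 1) :
    liftQ t (liftX b - b) ≤
      128 * (liftQ t (star b * b + b * star b - 1) + liftQ t (b * b)) := by
  obtain ⟨hh, hh1⟩ := lift_h_props hb
  have hb' : ‖star b‖ ≤ 1 := by rwa [norm_star]
  rw [liftX]
  set h := star b * b - b * star b with hh0
  set p := star b * b with hp0
  set q := b * star b with hq0
  have hp : ‖p‖ ≤ 1 := (norm_mul_le _ _).trans (mul_le_one₀ hb' (norm_nonneg _) hb)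
  have hq : ‖q‖ ≤ 1 := (norm_mul_le _ _).trans (mul_le_one₀ hb (norm_nonneg _) hb')
  obtain ⟨hP, hM⟩ := norm_liftPos_le hh hh1
  set P := liftPos h with hP0
  set M := liftNeg h with hM0
  set d := liftQ t (p + q - 1) with hd
  set s := liftQ t (b * b) with hs
  have hd0 : 0 ≤ d := ht.nonneg _
  have hs0 : 0 ≤ s := ht.nonneg _
  have hpq : liftQ t (p * q) ≤ s := by
    have e : p * q = star b * (b * b) * star b := by simp only [hp0, hq0, mul_assoc]
    rw [e]
    exact (liftQ_mul_right_one ht _ hb').trans (liftQ_mul_left_one ht hb' _)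
  have hqp : liftQ t (q * p) ≤ s := by
    have e : q * p = b * star (b * b) * b := by simp only [hp0, hq0, star_mul, mul_assoc]
    rw [e]
    exact ((liftQ_mul_right_one ht _ hb).trans (liftQ_mul_left_one ht hb _)).trans
      (liftQ_star ht _).le
  have hscal : ∀ (c : ℝ) (y : A), liftQ t (c • y) = c ^ 2 * liftQ t y := fun c y => by
    simp only [liftQ, star_smul, star_trivial, smul_mul_assoc, mul_smul_comm, map_smul, smul_eq_mul]
    ring
  have hh2 : liftQ t (h * h - 1) ≤ 18 * d + 32 * s := by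
    have e : h * h - 1 = (p + q - 1) * (p + q + 1) + (-2 : ℝ) • (p * q + q * p) := by
      simp only [hh0, sub_mul, mul_sub, add_mul, mul_add, mul_one, one_mul]
      module
    have h3 : liftQ t ((p + q - 1) * (p + q + 1)) ≤ 9 * d := by
      refine (liftQ_mul_right ht _ _).trans (mul_le_mul_of_nonneg_right ?_ hd0)
      have : ‖p + q + 1‖ ≤ 3 := by
        rcases subsingleton_or_nontrivial A with hA | hA
        · simp [Subsingleton.elim (p + q + 1) 0]
        · have := norm_add₃_le (a := p) (b := q) (c := (1 : A))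
          rw [norm_one] at this
          linarith
      nlinarith [norm_nonneg (p + q + 1)]
    have h4 := liftQ_add ht ((p + q - 1) * (p + q + 1)) ((-2 : ℝ) • (p * q + q * p))
    have h5 := liftQ_add ht (p * q) (q * p)
    rw [hscal] at h4
    rw [e]
    linarith
  have habs : liftQ t (P + M - 1) ≤ liftQ t (h * h - 1) := by
    have e1 : P + M - 1 = cfc (fun r : ℝ => max 0 r + max 0 (-r) - 1) h := by
      rw [cfc_sub (fun r : ℝ => max 0 r + max 0 (-r)) (fun _ => 1) h, cfc_const_one ℝ h,
        cfc_add h (fun r : ℝ => max 0 r) (fun r : ℝ => max 0 (-r))]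
      rfl
    have e2 : h * h - 1 = cfc (fun r : ℝ => r * r - 1) h := by
      rw [cfc_sub (fun r : ℝ => r * r) (fun _ => 1) h, cfc_const_one ℝ h,
        cfc_mul (fun r : ℝ => r) (fun r : ℝ => r) h, cfc_id' ℝ h]
    have s1 : IsSelfAdjoint (cfc (fun r : ℝ => max 0 r + max 0 (-r) - 1) h) := cfc_predicate _ h
    have s2 : IsSelfAdjoint (cfc (fun r : ℝ => r * r - 1) h) := cfc_predicate _ h
    rw [liftQ, liftQ, e1, e2, s1.star_eq, s2.star_eq,
      ← cfc_mul (fun r : ℝ => max 0 r + max 0 (-r) - 1) (fun r : ℝ => max 0 r + max 0 (-r) - 1) h,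
      ← cfc_mul (fun r : ℝ => r * r - 1) (fun r : ℝ => r * r - 1) h]
    refine ht.cfc_le (by fun_prop) (by fun_prop) fun r _ => ?_
    rcases le_total 0 r with hr | hr
    · rw [max_eq_left (neg_nonpos.2 hr), max_eq_right hr]
      nlinarith [mul_nonneg (mul_self_nonneg (r - 1)) (by nlinarith : (0:ℝ) ≤ r * (r + 2))]
    · rw [max_eq_left hr, max_eq_right (neg_nonneg.2 hr)]
      nlinarith [mul_nonneg (mul_self_nonneg (r + 1)) (by nlinarith : (0:ℝ) ≤ r * (r - 2))]
  have hsub : P - M = h := liftPos_sub_liftNeg h hh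
  have hPp : liftQ t (P - p) ≤ 16 * (d + s) := by
    have e : P - p = (1 / 2 : ℝ) • (P + M - 1) + (-(1 / 2) : ℝ) • (p + q - 1) := by
      have : p - q = P - M := hsub.symm
      linear_combination (norm := module) (-(1 / 2) : ℝ) • this
    have := liftQ_add ht ((1 / 2 : ℝ) • (P + M - 1)) ((-(1 / 2) : ℝ) • (p + q - 1))
    rw [← e, hscal, hscal] at this
    linarith
  have hMq : liftQ t (M - q) ≤ 16 * (d + s) := by
    have e : M - q = (1 / 2 : ℝ) • (P + M - 1) + (-(1 / 2) : ℝ) • (p + q - 1) := by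
      have : p - q = P - M := hsub.symm
      linear_combination (norm := module) (1 / 2 : ℝ) • this
    have := liftQ_add ht ((1 / 2 : ℝ) • (P + M - 1)) ((-(1 / 2) : ℝ) • (p + q - 1))
    rw [← e, hscal, hscal] at this
    linarith
  have hbp : liftQ t (b * p - b) ≤ 2 * d + 2 * s := by
    have e : b * p - b = b * (p + q - 1) + -(b * b * star b) := by
      simp only [hp0, hq0, mul_sub, mul_add, mul_one, mul_assoc]; abel
    have h3 : liftQ t (-(b * b * star b)) = liftQ t (b * b * star b) := by simp [liftQ]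
    have h4 := liftQ_add ht (b * (p + q - 1)) (-(b * b * star b))
    have h5 := liftQ_mul_left_one ht hb (p + q - 1)
    have h6 := liftQ_mul_right_one ht (b * b) hb'
    rw [e]
    linarith
  have hqb : liftQ t (q * b - b) ≤ 2 * d + 2 * s := by
    have e : q * b - b = (p + q - 1) * b + -(star b * (b * b)) := by
      simp only [hp0, hq0, sub_mul, add_mul, one_mul, mul_assoc]; abel
    have h3 : liftQ t (-(star b * (b * b))) = liftQ t (star b * (b * b)) := by simp [liftQ]
    have h4 := liftQ_add ht ((p + q - 1) * b) (-(star b * (b * b)))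
    have h5 := liftQ_mul_right_one ht (p + q - 1) hb
    have h6 := liftQ_mul_left_one ht hb' (b * b)
    rw [e]
    linarith
  have e : M * b * P - b = (M - q) * b * P + (q * b * (P - p) + ((q * b - b) * p + (b * p - b))) := by
    noncomm_ring
  rw [e]
  have h1 := liftQ_add ht ((M - q) * b * P) (q * b * (P - p) + ((q * b - b) * p + (b * p - b)))
  have h2 := liftQ_add ht (q * b * (P - p)) ((q * b - b) * p + (b * p - b))
  have h3 := liftQ_add ht ((q * b - b) * p) (b * p - b)
  have h4 := (liftQ_mul_right_one ht ((M - q) * b) hP).trans (liftQ_mul_right_one ht _ hb)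
  have h5 := liftQ_mul_left_one ht ((norm_mul_le q b).trans (mul_le_one₀ hq (norm_nonneg _) hb))
    (P - p)
  have h6 := liftQ_mul_right_one ht (q * b - b) hp
  linarith

/-- The trace of `x*x + xx*`. -/
private theorem lift_trace_bound (ht : IsTrace t) (h1 : t 1 = 1) {a e : A} (ha : ‖a‖ ≤ 1)
    (he : ‖1 - e‖ ≤ 1) {σ : ℝ} (hd : liftQ t (star a * a + a * star a - 1) ≤ σ)
    (hs : liftQ t (a * a) ≤ σ) (hr : liftQ t e ≤ σ) :
    1 - 500 * √σ ≤
      t (star (liftX ((1 - e) * a)) * liftX ((1 - e) * a) +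
        liftX ((1 - e) * a) * star (liftX ((1 - e) * a))) := by
  set b := (1 - e) * a with hb0
  have hb : ‖b‖ ≤ 1 := (norm_mul_le _ _).trans (mul_le_one₀ he (norm_nonneg _) ha)
  have hX := norm_liftX_le hb
  have hσ : 0 ≤ σ := (ht.nonneg _).trans hs
  have ha' : ‖star a‖ ≤ 1 := by rwa [norm_star]
  have hb' : ‖star b‖ ≤ 1 := by rwa [norm_star]
  have hneg : ∀ y : A, liftQ t (-y) = liftQ t y := fun y => by simp [liftQ]
  have hba : liftQ t (b - a) ≤ σ := by
    have e1 : b - a = -(e * a) := by rw [hb0, sub_mul, one_mul]; abel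
    rw [e1, hneg]
    exact (liftQ_mul_right_one ht e ha).trans hr
  have hba' : liftQ t (star (b - a)) ≤ σ := (liftQ_star ht _).trans_le hba
  have hbb : liftQ t (b * b - a * a) ≤ 4 * σ := by
    have e1 : b * b - a * a = b * (b - a) + (b - a) * a := by noncomm_ring
    have h3 := liftQ_add ht (b * (b - a)) ((b - a) * a)
    have h4 := liftQ_mul_left_one ht hb (b - a)
    have h5 := liftQ_mul_right_one ht (b - a) ha
    rw [e1]; linarith
  have hpp : liftQ t (star b * b - star a * a) ≤ 4 * σ := by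
    have e1 : star b * b - star a * a = star b * (b - a) + star (b - a) * a := by
      simp only [star_sub]; noncomm_ring
    have h3 := liftQ_add ht (star b * (b - a)) (star (b - a) * a)
    have h4 := liftQ_mul_left_one ht hb' (b - a)
    have h5 := liftQ_mul_right_one ht (star (b - a)) ha
    rw [e1]; linarith
  have hqq : liftQ t (b * star b - a * star a) ≤ 4 * σ := by
    have e1 : b * star b - a * star a = b * star (b - a) + (b - a) * star a := by
      simp only [star_sub]; noncomm_ring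
    have h3 := liftQ_add ht (b * star (b - a)) ((b - a) * star a)
    have h4 := liftQ_mul_left_one ht hb (star (b - a))
    have h5 := liftQ_mul_right_one ht (b - a) ha'
    rw [e1]; linarith
  have hsb : liftQ t (b * b) ≤ 10 * σ := by
    have h3 := liftQ_add ht (a * a) (b * b - a * a)
    rw [add_sub_cancel] at h3
    linarith
  have hdb : liftQ t (star b * b + b * star b - 1) ≤ 34 * σ := by
    have h3 := liftQ_add ht (star a * a + a * star a - 1)
      ((star b * b - star a * a) + (b * star b - a * star a))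
    have h4 := liftQ_add ht (star b * b - star a * a) (b * star b - a * star a)
    rw [show star a * a + a * star a - 1 + (star b * b - star a * a + (b * star b - a * star a)) =
      star b * b + b * star b - 1 by abel] at h3
    linarith
  have hXb := liftQ_liftX_sub ht hb
  set X := liftX b with hX0
  have hXa : liftQ t (X - a) ≤ 12000 * σ := by
    have h3 := liftQ_add ht (X - b) (b - a)
    rw [sub_add_sub_cancel] at h3
    linarith
  have hcs : ∀ u y : A, liftQ t u ≤ 1 → |t (star u * y)| ≤ √(liftQ t y) := fun u y hu => by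
    refine Real.abs_le_sqrt ((ht.cauchy_schwarz u y).trans ?_)
    exact mul_le_of_le_one_left (ht.nonneg y) hu
  have k1 := hcs X (X - a) (liftQ_le_one ht h1 hX)
  have k2 := hcs a (X - a) (liftQ_le_one ht h1 ha)
  have k3 := hcs 1 (star a * a + a * star a - 1)
    (by rw [liftQ, star_one, mul_one, h1])
  rw [star_one, one_mul, map_sub, map_add, h1] at k3
  have e2 : t (star (X - a) * a) = t (star a * (X - a)) := by
    rw [← ht.map_star (star a * (X - a))]; simp [star_mul]
  have e3 : t (star X * X) - t (star a * a) = t (star X * (X - a)) + t (star a * (X - a)) := by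
    rw [← e2, ← map_sub, ← map_add]
    congr 1
    simp only [star_sub]; noncomm_ring
  have r1 : √(liftQ t (X - a)) ≤ 120 * √σ := by
    calc √(liftQ t (X - a)) ≤ √(120 ^ 2 * σ) := Real.sqrt_le_sqrt (by linarith)
      _ = 120 * √σ := by rw [Real.sqrt_mul (by norm_num), Real.sqrt_sq (by norm_num)]
  have r2 : √(liftQ t (star a * a + a * star a - 1)) ≤ √σ := Real.sqrt_le_sqrt hd
  rw [map_add, ht.comm X (star X)]
  rw [ht.comm a (star a)] at k3
  have := abs_le.1 k1
  have := abs_le.1 k2
  have := abs_le.1 k3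
  linarith [Real.sqrt_nonneg σ]

/-- Polynomials are Lipschitz for commutators and automorphisms on the unit ball. -/
private theorem lift_poly (p : Polynomial ℝ) : ∃ K : ℝ, 0 ≤ K ∧ ∀ h : A, ‖h‖ ≤ 1 →
    (∀ a : A, ‖Polynomial.aeval h p * a - a * Polynomial.aeval h p‖ ≤ K * ‖h * a - a * h‖) ∧
    ∀ φ : A ≃⋆ₐ[ℂ] A, ‖φ (Polynomial.aeval h p) - Polynomial.aeval h p‖ ≤ K * ‖φ h - h‖ := by
  induction p using Polynomial.induction_on' with
  | add p q hp hq =>
    obtain ⟨K, hK, hp⟩ := hp
    obtain ⟨L, hL, hq⟩ := hq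
    refine ⟨K + L, by positivity, fun h hh => ⟨fun a => ?_, fun φ => ?_⟩⟩
    · rw [map_add, add_mul, mul_add, add_sub_add_comm, add_mul K]
      exact (norm_add_le _ _).trans (add_le_add ((hp h hh).1 a) ((hq h hh).1 a))
    · rw [map_add, map_add, add_sub_add_comm, add_mul]
      exact (norm_add_le _ _).trans (add_le_add ((hp h hh).2 φ) ((hq h hh).2 φ))
  | monomial n c =>
    refine ⟨|c| * n, by positivity, fun h hh => ?_⟩
    rcases subsingleton_or_nontrivial A with hA | hA
    · exact ⟨fun a => by simp [Subsingleton.elim _ (0 : A)],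
        fun φ => by simp [Subsingleton.elim _ (0 : A)]⟩
    have hpow : ∀ k : ℕ, ‖h ^ k‖ ≤ 1 := fun k => (norm_pow_le h k).trans (pow_le_one₀ (norm_nonneg _) hh)
    have hc : ∀ (a : A) (k : ℕ), ‖h ^ k * a - a * h ^ k‖ ≤ k * ‖h * a - a * h‖ := by
      intro a k
      induction k with
      | zero => simp
      | succ k ih =>
        have e : h ^ (k + 1) * a - a * h ^ (k + 1) =
            h ^ k * (h * a - a * h) + (h ^ k * a - a * h ^ k) * h := by
          rw [pow_succ]; noncomm_ring
        rw [e, Nat.cast_succ, add_one_mul (k : ℝ), add_comm (_ * _)]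
        refine (norm_add_le _ _).trans (add_le_add ?_ ?_)
        · exact (norm_mul_le _ _).trans (mul_le_of_le_one_right (norm_nonneg _) hh) |>.trans ih
        · exact (norm_mul_le _ _).trans (mul_le_of_le_one_left (norm_nonneg _) (hpow k))
    have hm : ∀ (φ : A ≃⋆ₐ[ℂ] A) (k : ℕ), ‖φ (h ^ k) - h ^ k‖ ≤ k * ‖φ h - h‖ := by
      intro φ k
      induction k with
      | zero => simp
      | succ k ih =>
        have e : φ (h ^ (k + 1)) - h ^ (k + 1) =
            (φ (h ^ k) - h ^ k) * φ h + h ^ k * (φ h - h) := by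
          rw [pow_succ, map_mul]; noncomm_ring
        rw [e, Nat.cast_succ, add_one_mul (k : ℝ)]
        refine (norm_add_le _ _).trans (add_le_add ?_ ?_)
        · exact ((norm_mul_le _ _).trans (mul_le_of_le_one_right (norm_nonneg _)
            ((NonUnitalStarAlgHom.norm_apply_le φ h).trans hh))).trans ih
        · exact (norm_mul_le _ _).trans (mul_le_of_le_one_left (norm_nonneg _) (hpow k))
    rw [Polynomial.aeval_monomial]
    simp only [Algebra.algebraMap_eq_smul_one, smul_mul_assoc, one_mul, mul_smul_comm]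
    refine ⟨fun a => ?_, fun φ => ?_⟩
    · rw [← smul_sub, norm_smul, Real.norm_eq_abs, mul_assoc]
      exact mul_le_mul_of_nonneg_left (hc a n) (abs_nonneg _)
    · have e : φ (c • h ^ n) = c • φ (h ^ n) := by
        rw [← Complex.coe_smul, ← Complex.coe_smul, map_smul]
      rw [e, ← smul_sub, norm_smul, Real.norm_eq_abs, mul_assoc]
      exact mul_le_mul_of_nonneg_left (hm φ n) (abs_nonneg _)

/-- Uniform continuity of the functional calculus for commutators and automorphisms. -/
private theorem lift_cfc_unif {f : ℝ → ℝ} (hf : Continuous f) (C : ℝ) {η : ℝ} (hη : 0 < η) :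
    ∃ δ > (0 : ℝ), ∀ h : A, IsSelfAdjoint h → ‖h‖ ≤ 1 →
      (∀ a : A, ‖a‖ ≤ C → ‖h * a - a * h‖ ≤ δ → ‖cfc f h * a - a * cfc f h‖ ≤ η) ∧
      ∀ φ : A ≃⋆ₐ[ℂ] A, ‖φ h - h‖ ≤ δ → ‖φ (cfc f h) - cfc f h‖ ≤ η := by
  set μ := η / (4 * (|C| + 1)) with hμ
  have hμ0 : 0 < μ := by positivity
  obtain ⟨p, hp⟩ := exists_polynomial_near_of_continuousOn (-1) 1 f hf.continuousOn μ hμ0
  obtain ⟨K, hK, hKp⟩ := lift_poly (A := A) p
  refine ⟨η / (2 * (K + 1)), by positivity, fun h hh h1 => ?_⟩
  have hK2 : ∀ r : ℝ, r ≤ η / (2 * (K + 1)) → K * r ≤ η / 2 := fun r hr =>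
    (mul_le_mul_of_nonneg_left hr hK).trans (by
      rw [mul_div_assoc', div_le_div_iff₀ (by positivity) two_pos]
      nlinarith)
  have hμC : μ * (|C| + 1) = η / 4 := by rw [hμ]; field_simp
  have hμ4 : μ ≤ η / 4 := hμC ▸ le_mul_of_one_le_right hμ0.le (by linarith [abs_nonneg C])
  set P := Polynomial.aeval h p with hP
  have hPn : ‖cfc f h - P‖ ≤ μ := by
    rw [hP, ← cfc_polynomial p h, ← cfc_sub f (fun r => p.eval r) h]
    refine norm_cfc_le hμ0.le fun r hr => ?_
    have hr1 : |r| ≤ 1 := (lift_abs_le hr).trans h1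
    rw [Real.norm_eq_abs, abs_sub_comm]
    exact (hp r (Set.mem_Icc.2 (abs_le.1 hr1))).le
  refine ⟨fun a ha hc => ?_, fun φ hc => ?_⟩
  · have e : cfc f h * a - a * cfc f h = (P * a - a * P) + ((cfc f h - P) * a - a * (cfc f h - P)) := by
      noncomm_ring
    rw [e]
    have h4 := ((hKp h h1).1 a).trans (hK2 _ hc)
    have h5 : ‖a‖ ≤ |C| + 1 := by linarith [le_abs_self C]
    have h6 : ‖(cfc f h - P) * a‖ ≤ η / 4 :=
      hμC ▸ (norm_mul_le _ _).trans (mul_le_mul hPn h5 (norm_nonneg _) hμ0.le)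
    have h7 : ‖a * (cfc f h - P)‖ ≤ η / 4 := by
      refine (norm_mul_le _ _).trans ?_
      rw [← hμC, mul_comm μ]
      exact mul_le_mul h5 hPn (norm_nonneg _) (by positivity)
    have := norm_add_le (P * a - a * P) ((cfc f h - P) * a - a * (cfc f h - P))
    have := norm_sub_le ((cfc f h - P) * a) (a * (cfc f h - P))
    linarith
  · have e : φ (cfc f h) - cfc f h = (φ P - P) + (φ (cfc f h - P) - (cfc f h - P)) := by
      rw [map_sub]; abel
    rw [e]
    have h4 := ((hKp h h1).2 φ).trans (hK2 _ hc)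
    have h6 := (NonUnitalStarAlgHom.norm_apply_le φ (cfc f h - P)).trans hPn
    have := norm_add_le (φ P - P) (φ (cfc f h - P) - (cfc f h - P))
    have := norm_sub_le (φ (cfc f h - P)) (cfc f h - P)
    linarith

/-- The unit ball version of the defect killer: `e₀ = f_δ (∑ dᵢ dᵢ* / 4M)`. -/
private theorem lift_exists_cut (M : ℕ) {δ C η : ℝ} (hδ : 0 < δ) (hη : 0 < η) :
    ∃ γ > (0 : ℝ), ∀ (ι : Type*) [Fintype ι], Fintype.card ι < M → ∀ d : ι → A,
      (∀ i, ‖d i‖ ≤ 2) → ∃ e : A, 0 ≤ e ∧ e ≤ 1 ∧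
        (∀ i, ‖(1 - e) * d i‖ ^ 2 ≤ 4 * M * δ) ∧
        (∀ t : A →ₗ[ℝ] ℝ, IsTrace t → ∀ s : ℝ, 0 ≤ s → (∀ i, liftQ t (d i) ≤ s) → t e ≤ s / δ) ∧
        ∀ a : A, ‖a‖ ≤ C → (∀ i, ‖d i * a - a * d i‖ ≤ γ ∧
          ‖star (d i) * a - a * star (d i)‖ ≤ γ) → ‖e * a - a * e‖ ≤ η := by
  let f : ℝ → ℝ := fun r => max 0 (min 1 (r / δ))
  have hf : Continuous f := by fun_prop
  obtain ⟨γ, hγ, hγf⟩ := lift_cfc_unif (A := A) hf C hη
  refine ⟨γ, hγ, fun ι _ hM d hd => ?_⟩
  have hM0 : (0 : ℝ) < M := by exact_mod_cast (by omega : 0 < M)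
  set c : ℝ := 1 / (4 * M) with hc
  have hc0 : 0 < c := by positivity
  have hcM : c * (4 * M) = 1 := by rw [hc]; field_simp
  have hι : (Fintype.card ι : ℝ) ≤ M := by exact_mod_cast hM.le
  set P : A := c • ∑ i, d i * star (d i) with hP
  have hP0 : 0 ≤ P := smul_nonneg hc0.le (Finset.sum_nonneg fun i _ => mul_star_self_nonneg _)
  have hP1 : ‖P‖ ≤ 1 := by
    rw [hP, norm_smul, Real.norm_of_nonneg hc0.le, ← hcM]
    refine mul_le_mul_of_nonneg_left ((norm_sum_le _ _).trans ?_) hc0.le
    refine (Finset.sum_le_card_nsmul _ _ 4 fun i _ => ?_).trans ?_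
    · rw [CStarRing.norm_self_mul_star]
      nlinarith [hd i, norm_nonneg (d i)]
    · rw [Finset.card_univ, nsmul_eq_mul]
      linarith
  have hPs := hP0.isSelfAdjoint
  set e := cfc f P with he
  have hf0 : ∀ r, 0 ≤ f r ∧ f r ≤ 1 := fun r =>
    ⟨le_max_left _ _, max_le zero_le_one (min_le_left _ _)⟩
  refine ⟨e, cfc_nonneg fun r _ => (hf0 r).1, cfc_le_one f P fun r _ => (hf0 r).2,
    fun i => ?_, fun t ht s hs hti => ?_, fun a ha hcom => ?_⟩
  · have es : star (1 - e) = 1 - e := by rw [star_sub, star_one, (cfc_predicate f P).star_eq]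
    rw [pow_two, ← CStarRing.norm_self_mul_star, star_mul, es, mul_assoc, ← mul_assoc (d i),
      ← mul_assoc (1 - e)]
    have hle : d i * star (d i) ≤ (4 * M : ℝ) • P := by
      rw [hP, smul_smul, mul_comm, hcM, one_smul]
      exact Finset.single_le_sum (fun j _ => mul_star_self_nonneg (d j)) (Finset.mem_univ i)
    have h2 : (1 - e) * (d i * star (d i)) * (1 - e) ≤
        (4 * M : ℝ) • ((1 - e) * P * (1 - e)) := by
      have := star_left_conjugate_le_conjugate hle (1 - e)
      rwa [es, mul_smul_comm, smul_mul_assoc] at this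
    have h3 : (0 : A) ≤ (1 - e) * (d i * star (d i)) * (1 - e) := by
      have := star_left_conjugate_nonneg (mul_star_self_nonneg (d i)) (1 - e)
      rwa [es] at this
    refine (CStarAlgebra.norm_le_norm_of_nonneg_of_le h3 h2).trans ?_
    rw [norm_smul, Real.norm_of_nonneg (by positivity)]
    refine mul_le_mul_of_nonneg_left ?_ (by positivity)
    have e1 : (1 - e) * P * (1 - e) = cfc (fun r => (1 - f r) * r * (1 - f r)) P := by
      have c0 : Continuous fun r => 1 - f r := continuous_const.sub hf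
      have c1 : Continuous fun r => (1 - f r) * r := c0.mul continuous_id
      rw [cfc_mul (fun r => (1 - f r) * r) (fun r => 1 - f r) P c1.continuousOn c0.continuousOn,
        cfc_mul (fun r => 1 - f r) (fun r : ℝ => r) P c0.continuousOn continuousOn_id,
        cfc_id' ℝ P, cfc_sub (fun _ => 1) f P continuousOn_const hf.continuousOn,
        cfc_const_one ℝ P]
    rw [e1]
    refine norm_cfc_le hδ.le fun r hr => ?_
    have hr0 : 0 ≤ r := spectrum_nonneg_of_nonneg hP0 hr
    have := hf0 r
    rw [Real.norm_eq_abs,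
      abs_of_nonneg (mul_nonneg (mul_nonneg (by linarith) hr0) (by linarith))]
    rcases le_total δ r with h4 | h4
    · have : f r = 1 := by simp [f, (one_le_div hδ).2 h4]
      rw [this]; simp [hδ.le]
    · have h5 : (1 - f r) * r ≤ 1 * δ := mul_le_mul (by linarith) h4 hr0 zero_le_one
      have h6 := mul_le_mul h5 (by linarith : 1 - f r ≤ 1) (by linarith) (by linarith : (0 : ℝ) ≤ 1 * δ)
      linarith
  · have h1 : t e ≤ t ((1 / δ) • P) := by
      have h2 : e ≤ cfc (fun r : ℝ => 1 / δ * r) P := by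
        refine cfc_mono (fun r hr => ?_) hf.continuousOn (by fun_prop)
        have hr0 : 0 ≤ r := spectrum_nonneg_of_nonneg hP0 hr
        refine max_le (by positivity) ((min_le_right _ _).trans (le_of_eq ?_))
        ring
      rw [cfc_const_mul _ (fun r : ℝ => r) P, cfc_id' ℝ P] at h2
      exact ht.mono h2
    refine h1.trans ?_
    rw [map_smul, smul_eq_mul, hP, map_smul, map_sum, smul_eq_mul]
    have h2 : ∑ i, t (d i * star (d i)) ≤ M * s := by
      refine (Finset.sum_le_card_nsmul _ _ s fun i _ => ?_).trans ?_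
      · rw [ht.comm]; exact hti i
      · rw [Finset.card_univ, nsmul_eq_mul]
        exact mul_le_mul_of_nonneg_right hι hs
    calc 1 / δ * (c * ∑ i, t (d i * star (d i))) ≤ 1 / δ * (c * (M * s)) := by gcongr
      _ ≤ 1 / δ * s := by
        refine mul_le_mul_of_nonneg_left ?_ (by positivity)
        nlinarith [mul_nonneg hs hc0.le]
      _ = s / δ := by ring
  · refine (hγf P hPs hP1).1 a ha ?_
    rw [hP, smul_mul_assoc, mul_smul_comm, ← smul_sub, norm_smul, Real.norm_of_nonneg hc0.le,
      Finset.sum_mul, Finset.mul_sum, ← Finset.sum_sub_distrib]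
    calc c * ‖∑ i, (d i * star (d i) * a - a * (d i * star (d i)))‖
        ≤ c * (M * (4 * γ)) := by
          refine mul_le_mul_of_nonneg_left ((norm_sum_le _ _).trans
            ((Finset.sum_le_card_nsmul _ _ (4 * γ) fun i _ => ?_).trans ?_)) hc0.le
          · have e1 : d i * star (d i) * a - a * (d i * star (d i)) =
                d i * (star (d i) * a - a * star (d i)) + (d i * a - a * d i) * star (d i) := by
              noncomm_ring
            rw [e1]
            refine (norm_add_le _ _).trans ?_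
            have h2 := (norm_mul_le (d i) _).trans
              (mul_le_mul (hd i) (hcom i).2 (norm_nonneg _) zero_le_two)
            have h3 := (norm_mul_le (d i * a - a * d i) (star (d i))).trans
              (mul_le_mul (hcom i).1 ((norm_star _).le.trans (hd i)) (norm_nonneg _) hγ.le)
            linarith
          · rw [Finset.card_univ, nsmul_eq_mul]
            exact mul_le_mul_of_nonneg_right hι (by linarith)
      _ = γ := by rw [hc]; field_simp

/-- The Følner average of the translates of `e₀`. -/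
private noncomputable def liftAvg (α : G →* (A ≃⋆ₐ[ℂ] A)) (F : Finset G) (e₀ : A) : A :=
  (1 / (F.card : ℝ)) • ∑ f ∈ F, α f e₀

private theorem liftAvg_mem {α : G →* (A ≃⋆ₐ[ℂ] A)} {F : Finset G} (hF : F.Nonempty) {e₀ : A}
    (h0 : 0 ≤ e₀) (h1 : e₀ ≤ 1) :
    0 ≤ liftAvg α F e₀ ∧ liftAvg α F e₀ ≤ 1 ∧
      1 - liftAvg α F e₀ = (1 / (F.card : ℝ)) • ∑ f ∈ F, (1 - α f e₀) := by
  have hc : (0 : ℝ) < F.card := by exact_mod_cast hF.card_pos
  have hpos : ∀ (f : G) (x : A), 0 ≤ x → 0 ≤ α f x := fun f x hx => by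
    obtain ⟨y, rfl⟩ := CStarAlgebra.nonneg_iff_eq_star_mul_self.mp hx
    rw [map_mul, map_star]
    exact star_mul_self_nonneg _
  have e : 1 - liftAvg α F e₀ = (1 / (F.card : ℝ)) • ∑ f ∈ F, (1 - α f e₀) := by
    rw [Finset.sum_sub_distrib, smul_sub, Finset.sum_const, ← Nat.cast_smul_eq_nsmul ℝ, smul_smul,
      one_div_mul_cancel hc.ne', one_smul]
    rfl
  refine ⟨smul_nonneg (by positivity) (Finset.sum_nonneg fun f _ => hpos f _ h0), ?_, e⟩
  rw [← sub_nonneg, e]
  refine smul_nonneg (by positivity) (Finset.sum_nonneg fun f _ => ?_)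
  have := hpos f _ (sub_nonneg.2 h1)
  rwa [map_sub, map_one] at this

private theorem norm_le_one_of_mem {x : A} (h0 : 0 ≤ x) (h1 : x ≤ 1) : ‖x‖ ≤ 1 := by
  rcases subsingleton_or_nontrivial A with hA | hA
  · simp [Subsingleton.elim x 0]
  · exact (CStarAlgebra.norm_le_norm_of_nonneg_of_le h0 h1).trans norm_one.le

/-- An average is bounded by a common bound. -/
private theorem norm_avg_le {ι : Type*} (F : Finset ι) (v : ι → A) {r : ℝ} (hF : F.Nonempty)
    (h : ∀ i ∈ F, ‖v i‖ ≤ r) : ‖(1 / (F.card : ℝ)) • ∑ i ∈ F, v i‖ ≤ r := by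
  have hc : (0 : ℝ) < F.card := by exact_mod_cast hF.card_pos
  rw [norm_smul, Real.norm_of_nonneg (by positivity), div_mul_eq_mul_div, one_mul, div_le_iff₀ hc]
  refine (norm_sum_le _ _).trans ((Finset.sum_le_card_nsmul _ _ r h).trans (le_of_eq ?_))
  rw [nsmul_eq_mul, mul_comm]

private theorem liftAvg_inv (α : G →* (A ≃⋆ₐ[ℂ] A)) {F : Finset G} (hF : F.Nonempty) {e₀ : A}
    (he : ‖e₀‖ ≤ 1) (g : G) {ρ : ℝ} [DecidableEq G]
    (hg : (((F.image (g * ·)) \ F).card : ℝ) ≤ ρ * F.card) :
    ‖α g (liftAvg α F e₀) - liftAvg α F e₀‖ ≤ 2 * ρ := by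
  have hc : (0 : ℝ) < F.card := by exact_mod_cast hF.card_pos
  set v : G → A := fun f => α f e₀ with hv0
  have hv : ∀ f, ‖v f‖ ≤ 1 := fun f => (NonUnitalStarAlgHom.norm_apply_le (α f) e₀).trans he
  set F' := F.image (g * ·) with hF'
  have hcard : F'.card = F.card := Finset.card_image_of_injective _ (mul_right_injective g)
  have e1 : α g (liftAvg α F e₀) = (1 / (F.card : ℝ)) • ∑ f ∈ F', v f := by
    rw [hF', Finset.sum_image fun a _ b _ h => mul_left_cancel h, liftAvg, ← Complex.coe_smul,
      map_smul, Complex.coe_smul, map_sum]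
    simp only [hv0, map_mul]
    rfl
  have e2 : ∑ f ∈ F', v f - ∑ f ∈ F, v f = ∑ f ∈ F' \ F, v f - ∑ f ∈ F \ F', v f := by
    rw [← Finset.sum_inter_add_sum_sdiff F' F, ← Finset.sum_inter_add_sum_sdiff F F',
      Finset.inter_comm F F']
    abel
  have e3 : (F \ F').card = (F' \ F).card := (Finset.card_sdiff_comm hcard).symm
  rw [e1, liftAvg, ← smul_sub, e2, norm_smul, Real.norm_of_nonneg (by positivity),
    div_mul_eq_mul_div, one_mul, div_le_iff₀ hc]
  refine (norm_sub_le _ _).trans ?_
  have b1 := (norm_sum_le (F' \ F) v).trans (Finset.sum_le_card_nsmul _ _ 1 fun f _ => hv f)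
  have b2 := (norm_sum_le (F \ F') v).trans (Finset.sum_le_card_nsmul _ _ 1 fun f _ => hv f)
  rw [nsmul_eq_mul, mul_one] at b1 b2
  rw [e3] at b2
  nlinarith

end LiftAux

theorem invSquareZero_of_sequence [Countable G] [TopologicalSpace.SeparableSpace A]
    (hG : IsFolner G) (α : G →* (A ≃⋆ₐ[ℂ] A)) {x : ℕ → A} (hn : ∀ n, ‖x n‖ ≤ 1)
    (hc : ∀ a, Tendsto (fun n => ‖x n * a - a * x n‖) atTop (𝓝 0))
    (hsq : ∀ ε : ℝ, 0 < ε → ∀ᶠ n in atTop, ∀ τ : TracialState A,
      (τ.toLin (star (x n * x n) * (x n * x n))).re ≤ ε)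
    (hun : ∀ ε : ℝ, 0 < ε → ∀ᶠ n in atTop, ∀ τ : TracialState A,
      (τ.toLin ((star (x n) * x n + x n * star (x n) - 1) *
        (star (x n) * x n + x n * star (x n) - 1))).re ≤ ε)
    (hinv : ∀ g, ∀ ε : ℝ, 0 < ε → ∀ᶠ n in atTop, ∀ τ : TracialState A,
      (τ.toLin (star (α g (x n) - x n) * (α g (x n) - x n))).re ≤ ε) :
    InvSquareZero α := by
  letI := CStarAlgebra.spectralOrder A
  haveI := CStarAlgebra.spectralOrderedRing A
  classical
  intro D S ε hε
  -- constants
  set D' := D ∪ D.image star with hD'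
  obtain ⟨C, hC0, hC⟩ : ∃ C : ℝ, 0 ≤ C ∧ ∀ c ∈ D', ‖c‖ ≤ C :=
    ⟨∑ c ∈ D', ‖c‖, Finset.sum_nonneg fun _ _ => norm_nonneg _,
      fun c hc => Finset.single_le_sum (f := fun c : A => ‖c‖) (fun _ _ => norm_nonneg _) hc⟩
  obtain ⟨δp, hδp, hp⟩ := lift_cfc_unif (A := A) (f := fun r : ℝ => max 0 r) (by fun_prop) C
    (show (0 : ℝ) < ε / 3 by linarith)
  obtain ⟨δm, hδm, hm⟩ := lift_cfc_unif (A := A) (f := fun r : ℝ => max 0 (-r)) (by fun_prop) C
    (show (0 : ℝ) < ε / 3 by linarith)
  set β := min (ε / 3) (min (δp / 4) (δm / 4)) with hβ0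
  have hβ : 0 < β := lt_min (by linarith) (lt_min (by linarith) (by linarith))
  have hβ1 : β ≤ ε / 3 := min_le_left _ _
  have hβ2 : 4 * β ≤ δp := by
    have := (min_le_right (ε / 3) (min (δp / 4) (δm / 4))).trans (min_le_left _ _)
    linarith
  have hβ3 : 4 * β ≤ δm := by
    have := (min_le_right (ε / 3) (min (δp / 4) (δm / 4))).trans (min_le_right _ _)
    linarith
  obtain ⟨F, hF, hFS⟩ := hG S (β / 12) (by linarith)
  set M := F.card * S.card + 1 with hM
  have hMpos : (0 : ℝ) < M := by positivity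
  set δ := β ^ 2 / (16 * M) with hδ0
  have hδ : 0 < δ := by positivity
  obtain ⟨γ, hγ, hcut⟩ := lift_exists_cut (A := A) M hδ (C := C) (η := β / 2) (by linarith)
  set σ := (ε / 500) ^ 2 with hσ0
  have hσ : 0 < σ := by positivity
  set T : Finset A := D' ∪ (F ×ˢ F ×ˢ D' ×ˢ insert 1 S).image
    (fun q => α (q.2.2.2⁻¹ * (q.1 * q.2.1⁻¹)) q.2.2.1) with hT
  -- one good index
  have hev : ∀ᶠ n in atTop,
      (∀ c ∈ T, ‖x n * c - c * x n‖ ≤ min (γ / 2) (β / 2) ∧
        ‖x n * star c - star c * x n‖ ≤ min (γ / 2) (β / 2)) ∧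
      (∀ τ : TracialState A, (τ.toLin (star (x n * x n) * (x n * x n))).re ≤ σ) ∧
      (∀ τ : TracialState A, (τ.toLin ((star (x n) * x n + x n * star (x n) - 1) *
        (star (x n) * x n + x n * star (x n) - 1))).re ≤ σ) ∧
      ∀ g ∈ S, ∀ τ : TracialState A,
        (τ.toLin (star (α g (x n) - x n) * (α g (x n) - x n))).re ≤ σ * δ := by
    have hm0 : (0 : ℝ) < min (γ / 2) (β / 2) := lt_min (by linarith) (by linarith)
    refine Filter.Eventually.and ?_ ((hsq σ hσ).and ((hun σ hσ).and ?_))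
    · rw [eventually_all_finset]
      exact fun c _ => ((hc c).eventually (eventually_le_nhds hm0)).and
        ((hc (star c)).eventually (eventually_le_nhds hm0))
    · rw [eventually_all_finset]
      exact fun g _ => hinv g (σ * δ) (mul_pos hσ hδ)
  obtain ⟨n, hcn, hsn, hdn, hgn⟩ := hev.exists
  set a := x n with ha0
  have ha : ‖a‖ ≤ 1 := hn n
  -- the cut
  let d : ↥(F ×ˢ S) → A := fun q => α q.1.1⁻¹ (α q.1.2 a - a)
  have hd2 : ∀ q, ‖d q‖ ≤ 2 := fun q => by
    refine (NonUnitalStarAlgHom.norm_apply_le _ _).trans ((norm_sub_le _ _).trans ?_)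
    linarith [(NonUnitalStarAlgHom.norm_apply_le (α q.1.2) a).trans ha]
  obtain ⟨e₀, he0, he1, hkill, htr, hcom⟩ :=
    hcut ↥(F ×ˢ S) (by rw [Fintype.card_coe, Finset.card_product]; omega) d hd2
  set e := liftAvg α F e₀ with he
  obtain ⟨h0, h1, hone⟩ := liftAvg_mem (α := α) hF he0 he1
  have hne : ‖e‖ ≤ 1 := norm_le_one_of_mem h0 h1
  have hne' : ‖1 - e‖ ≤ 1 := norm_le_one_of_mem (sub_nonneg.2 h1) (sub_le_self 1 h0)
  have hne0 : ‖e₀‖ ≤ 1 := norm_le_one_of_mem he0 he1
  set b := (1 - e) * a with hb0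
  have hb : ‖b‖ ≤ 1 := (norm_mul_le _ _).trans (mul_le_one₀ hne' (norm_nonneg _) ha)
  have hiso : ∀ (g : G) (y : A), α g (α g⁻¹ y) = y := fun g y => by
    rw [← StarAlgEquiv.mul_apply, ← map_mul, mul_inv_cancel, map_one]; rfl
  -- invariance of `b`
  have hbinv : ∀ g ∈ S, ‖α g b - b‖ ≤ β := by
    intro g hg
    have hρ := liftAvg_inv α hF hne0 g (hFS g hg)
    rw [← he] at hρ
    have hed : ‖(1 - e) * (α g a - a)‖ ≤ β / 2 := by
      rw [he, hone, smul_mul_assoc, Finset.sum_mul]
      refine norm_avg_le F _ hF fun f hf => ?_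
      have e1 : (1 - α f e₀) * (α g a - a) = α f ((1 - e₀) * d ⟨(f, g), Finset.mem_product.2 ⟨hf, hg⟩⟩) := by
        simp only [d, map_mul, map_sub, map_one, hiso]
      rw [e1]
      refine (NonUnitalStarAlgHom.norm_apply_le _ _).trans ?_
      have h2 := hkill ⟨(f, g), Finset.mem_product.2 ⟨hf, hg⟩⟩
      have h3 : 4 * (M : ℝ) * δ = (β / 2) ^ 2 := by rw [hδ0]; field_simp; ring
      rw [h3] at h2
      exact (pow_le_pow_iff_left₀ (norm_nonneg _) (by linarith) two_ne_zero).1 h2
    have e1 : α g b - b = ((1 - e) * (α g a - a) + (e - α g e) * (α g a - a)) + (e - α g e) * a := by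
      simp only [hb0, map_mul, map_sub, map_one]; noncomm_ring
    rw [e1]
    have hga : ‖α g a - a‖ ≤ 2 := (norm_sub_le _ _).trans
      (by linarith [(NonUnitalStarAlgHom.norm_apply_le (α g) a).trans ha])
    rw [norm_sub_rev] at hρ
    have h4 := (norm_mul_le (e - α g e) (α g a - a)).trans
      (mul_le_mul hρ hga (norm_nonneg _) (by linarith))
    have h5 := (norm_mul_le (e - α g e) a).trans (mul_le_mul hρ ha (norm_nonneg _) (by linarith))
    refine (norm_add₃_le).trans ?_
    linarith
  -- centrality of `b`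
  have hαc : ∀ (g : G) (y c : A), ‖α g y * c - c * α g y‖ = ‖y * α g⁻¹ c - α g⁻¹ c * y‖ := by
    intro g y c
    rw [← NonUnitalStarAlgHom.norm_map (α g) (EquivLike.injective (α g))
      (y * α g⁻¹ c - α g⁻¹ c * y), map_sub, map_mul, map_mul, hiso]
  have hecom : ∀ c ∈ D', ‖e * c - c * e‖ ≤ β / 2 := by
    intro c hc
    rw [he, liftAvg, smul_mul_assoc, mul_smul_comm, ← smul_sub, Finset.sum_mul, Finset.mul_sum,
      ← Finset.sum_sub_distrib]
    refine norm_avg_le F _ hF fun f hf => ?_
    rw [hαc]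
    refine hcom _ ((NonUnitalStarAlgHom.norm_apply_le _ _).trans (hC c hc)) fun q => ?_
    obtain ⟨hq1, hq2⟩ := Finset.mem_product.1 q.2
    have main : ∀ z : A, ‖α q.1.1⁻¹ z * α f⁻¹ c - α f⁻¹ c * α q.1.1⁻¹ z‖ =
        ‖z * α (q.1.1 * f⁻¹) c - α (q.1.1 * f⁻¹) c * z‖ := fun z => by
      rw [hαc, inv_inv, map_mul α, StarAlgEquiv.mul_apply]
    have hmemT : ∀ g ∈ insert (1 : G) S, α (g⁻¹ * (q.1.1 * f⁻¹)) c ∈ T :=
      fun g hg => Finset.mem_union_right _ (Finset.mem_image.2
        ⟨(q.1.1, f, c, g), by simp [hq1, hf, hc, hg], rfl⟩)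
    have bd : ∀ z : A, (z = a ∨ z = star a) → ∀ g ∈ insert (1 : G) S,
        ‖α g z * α (q.1.1 * f⁻¹) c - α (q.1.1 * f⁻¹) c * α g z‖ ≤ γ / 2 := by
      intro z hz g hg
      rw [hαc, ← StarAlgEquiv.mul_apply, ← map_mul]
      obtain ⟨h2, h3⟩ := hcn _ (hmemT g hg)
      rcases hz with rfl | rfl
      · exact h2.trans (min_le_left _ _)
      · rw [← norm_star] at h3
        simp only [star_sub, star_mul, star_star] at h3
        rw [norm_sub_rev] at h3
        exact h3.trans (min_le_left _ _)
    have dbd : ∀ z : A, (z = a ∨ z = star a) →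
        ‖α q.1.1⁻¹ (α q.1.2 z - z) * α f⁻¹ c - α f⁻¹ c * α q.1.1⁻¹ (α q.1.2 z - z)‖ ≤ γ := by
      intro z hz
      rw [main]
      have h2 := bd z hz q.1.2 (Finset.mem_insert_of_mem hq2)
      have h3 := bd z hz 1 (Finset.mem_insert_self _ _)
      rw [map_one α, StarAlgEquiv.one_apply] at h3
      rw [sub_mul, mul_sub, sub_sub_sub_comm]
      exact (norm_sub_le _ _).trans (by linarith)
    refine ⟨dbd a (Or.inl rfl), ?_⟩
    simp only [d, map_star, map_sub, star_sub]
    simpa [map_star, map_sub] using dbd (star a) (Or.inr rfl)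
  have hbcom : ∀ c ∈ D', ‖b * c - c * b‖ ≤ β := by
    intro c hc
    have e1 : b * c - c * b = (1 - e) * (a * c - c * a) - (e * c - c * e) * a := by
      simp only [hb0]; noncomm_ring
    rw [e1]
    refine (norm_sub_le _ _).trans ?_
    have h2 := ((hcn c (Finset.mem_union_left _ hc)).1).trans (min_le_right _ _)
    have h3 := (norm_mul_le (1 - e) (a * c - c * a)).trans
      (mul_le_of_le_one_left (norm_nonneg _) hne')
    have h4 := (norm_mul_le (e * c - c * e) a).trans (mul_le_of_le_one_right (norm_nonneg _) ha)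
    linarith [hecom c hc]
  -- the element
  obtain ⟨hh, hh1⟩ := lift_h_props hb
  obtain ⟨hPn, hMn⟩ := norm_liftPos_le hh hh1
  set h := star b * b - b * star b with hh0
  have hbs : ‖star b‖ ≤ 1 := by rwa [norm_star]
  refine ⟨liftX b, norm_liftX_le hb, liftX_sq hb, fun c hc => ?_, fun g hg => ?_, fun τ => ?_⟩
  · have hc' : c ∈ D' := Finset.mem_union_left _ hc
    have k1 := hbcom c hc'
    have k2 : ‖star b * c - c * star b‖ ≤ β := by
      have := hbcom (star c) (Finset.mem_union_right _ (Finset.mem_image_of_mem _ hc))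
      rw [← norm_star] at this
      simp only [star_sub, star_mul, star_star] at this
      rwa [norm_sub_rev] at this
    have hhc : ‖h * c - c * h‖ ≤ 4 * β := by
      have e1 : h * c - c * h = (star b * (b * c - c * b) + (star b * c - c * star b) * b) -
          (b * (star b * c - c * star b) + (b * c - c * b) * star b) := by
        simp only [hh0]; noncomm_ring
      rw [e1]
      refine (norm_sub_le _ _).trans ((add_le_add (norm_add_le _ _) (norm_add_le _ _)).trans ?_)
      have := (norm_mul_le (star b) (b * c - c * b)).trans (mul_le_of_le_one_left (norm_nonneg _) hbs)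
      have := (norm_mul_le (star b * c - c * star b) b).trans (mul_le_of_le_one_right (norm_nonneg _) hb)
      have := (norm_mul_le b (star b * c - c * star b)).trans (mul_le_of_le_one_left (norm_nonneg _) hb)
      have := (norm_mul_le (b * c - c * b) (star b)).trans (mul_le_of_le_one_right (norm_nonneg _) hbs)
      linarith
    have k3 : ‖liftPos h * c - c * liftPos h‖ ≤ ε / 3 :=
      (hp h hh hh1).1 c (hC c hc') (hhc.trans hβ2)
    have k4 : ‖liftNeg h * c - c * liftNeg h‖ ≤ ε / 3 :=
      (hm h hh hh1).1 c (hC c hc') (hhc.trans hβ3)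
    rw [liftX, ← hh0]
    have e1 : liftNeg h * b * liftPos h * c - c * (liftNeg h * b * liftPos h) =
        (liftNeg h * b * (liftPos h * c - c * liftPos h) +
          liftNeg h * (b * c - c * b) * liftPos h) +
        (liftNeg h * c - c * liftNeg h) * b * liftPos h := by noncomm_ring
    rw [e1]
    refine norm_add₃_le.trans ?_
    have j1 := (norm_mul_le (liftNeg h * b) (liftPos h * c - c * liftPos h)).trans
      (mul_le_of_le_one_left (norm_nonneg _)
        ((norm_mul_le _ _).trans (mul_le_one₀ hMn (norm_nonneg _) hb)))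
    have j2 := (norm_mul_le (liftNeg h * (b * c - c * b)) (liftPos h)).trans
      ((mul_le_of_le_one_right (norm_nonneg _) hPn).trans
        ((norm_mul_le _ _).trans (mul_le_of_le_one_left (norm_nonneg _) hMn)))
    have j3 := (norm_mul_le ((liftNeg h * c - c * liftNeg h) * b) (liftPos h)).trans
      ((mul_le_of_le_one_right (norm_nonneg _) hPn).trans
        ((norm_mul_le _ _).trans (mul_le_of_le_one_right (norm_nonneg _) hb)))
    linarith
  · have k1 := hbinv g hg
    have hgb : ‖α g b‖ ≤ 1 := (NonUnitalStarAlgHom.norm_apply_le (α g) b).trans hb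
    have hgh : ‖α g h - h‖ ≤ 4 * β := by
      have e1 : α g h - h = (star (α g b - b) * α g b + star b * (α g b - b)) -
          ((α g b - b) * star (α g b) + b * star (α g b - b)) := by
        simp only [hh0, map_sub, map_mul, map_star, star_sub]; noncomm_ring
      rw [e1]
      refine (norm_sub_le _ _).trans ((add_le_add (norm_add_le _ _) (norm_add_le _ _)).trans ?_)
      have hs : ‖star (α g b - b)‖ = ‖α g b - b‖ := norm_star _
      have := (norm_mul_le (star (α g b - b)) (α g b)).trans (mul_le_of_le_one_right (norm_nonneg _) hgb)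
      have := (norm_mul_le (star b) (α g b - b)).trans (mul_le_of_le_one_left (norm_nonneg _) hbs)
      have := (norm_mul_le (α g b - b) (star (α g b))).trans
        (mul_le_of_le_one_right (norm_nonneg _) ((norm_star _).trans_le hgb))
      have := (norm_mul_le b (star (α g b - b))).trans (mul_le_of_le_one_left (norm_nonneg _) hb)
      linarith
    have k3 : ‖α g (liftPos h) - liftPos h‖ ≤ ε / 3 := (hp h hh hh1).2 (α g) (hgh.trans hβ2)
    have k4 : ‖α g (liftNeg h) - liftNeg h‖ ≤ ε / 3 := (hm h hh hh1).2 (α g) (hgh.trans hβ3)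
    have hgP : ‖α g (liftPos h)‖ ≤ 1 := (NonUnitalStarAlgHom.norm_apply_le _ _).trans hPn
    rw [liftX, ← hh0]
    have e1 : α g (liftNeg h * b * liftPos h) - liftNeg h * b * liftPos h =
        ((α g (liftNeg h) - liftNeg h) * α g b * α g (liftPos h) +
          liftNeg h * (α g b - b) * α g (liftPos h)) +
        liftNeg h * b * (α g (liftPos h) - liftPos h) := by
      simp only [map_mul]; noncomm_ring
    rw [e1]
    refine norm_add₃_le.trans ?_
    have j1 := (norm_mul_le ((α g (liftNeg h) - liftNeg h) * α g b) (α g (liftPos h))).trans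
      ((mul_le_of_le_one_right (norm_nonneg _) hgP).trans
        ((norm_mul_le _ _).trans (mul_le_of_le_one_right (norm_nonneg _) hgb)))
    have j2 := (norm_mul_le (liftNeg h * (α g b - b)) (α g (liftPos h))).trans
      ((mul_le_of_le_one_right (norm_nonneg _) hgP).trans
        ((norm_mul_le _ _).trans (mul_le_of_le_one_left (norm_nonneg _) hMn)))
    have j3 := (norm_mul_le (liftNeg h * b) (α g (liftPos h) - liftPos h)).trans
      (mul_le_of_le_one_left (norm_nonneg _)
        ((norm_mul_le _ _).trans (mul_le_one₀ hMn (norm_nonneg _) hb)))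
    linarith
  · set t := τ.toTraceFun.real with ht0
    have ht : IsTrace t := τ.toTraceFun.isTrace_real
    have hte : t e ≤ σ := by
      rw [he, liftAvg, map_smul, map_sum, smul_eq_mul, one_div_mul_eq_div,
        div_le_iff₀ (by exact_mod_cast hF.card_pos : (0 : ℝ) < F.card)]
      refine (Finset.sum_le_card_nsmul _ _ σ fun f _ => ?_).trans
        (le_of_eq (by rw [nsmul_eq_mul, mul_comm]))
      rw [ht0, ← lift_real_pull]
      refine (htr _ (liftPull τ (α f)).toTraceFun.isTrace_real (σ * δ) (by positivity) fun q => ?_).trans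
        (le_of_eq (mul_div_cancel_right₀ σ hδ.ne'))
      rw [liftQ, ← map_star, ← map_mul, lift_real_pull, ← StarAlgEquiv.mul_apply, ← map_mul,
        ← lift_real_pull]
      simpa [TraceFun.real_apply, TracialState.toTraceFun] using
        hgn q.1.2 (Finset.mem_product.1 q.2).2 (liftPull τ (α (f * q.1.1⁻¹)))
    have hQe : liftQ t e ≤ σ := by
      have h2 : star e * e ≤ e := by
        have hes := h0.isSelfAdjoint
        rw [hes.star_eq]
        have e1 : e * e = cfc (fun r : ℝ => r * r) e := by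
          rw [cfc_mul (fun r : ℝ => r) (fun r : ℝ => r) e, cfc_id' ℝ e]
        rw [e1]
        conv_rhs => rw [← cfc_id' ℝ e]
        refine cfc_mono (fun r hr => ?_) (by fun_prop) (by fun_prop)
        have := spectrum_nonneg_of_nonneg h0 hr
        have h3 := lift_abs_le hr
        rw [abs_of_nonneg this] at h3
        nlinarith [h3.trans hne]
      exact (ht.mono h2).trans hte
    have hd' : liftQ t (star a * a + a * star a - 1) ≤ σ := by
      have es : star (star a * a + a * star a - 1) = star a * a + a * star a - 1 := by simp [star_mul]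
      rw [liftQ, es]
      exact hdn τ
    have hfin := lift_trace_bound ht (lift_real_one τ) ha hne' hd' (hsn τ) hQe
    rw [← hb0, hσ0, Real.sqrt_sq (by positivity)] at hfin
    show 1 - ε ≤ t _
    linarith

end Vale.P095.SI
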