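import Vale.Agent.P095.SI.Relative

/-!
# P095 (SI): the identity as a sum of compressions by one state

For a completely positive approximation `a ≈ ψ (ρ a)` on a simple ideal `I`: the Choi matrix of `ψ`
gives `ψ (E i j) = ∑ k, star (Z k i) * Z k j`, and the functional `(a i j) ↦ ρ (a i j) i j` on
`M_N (I)` is, on a finite set, a limit of sums of `(a i j) ↦ φ (star (c i) * a i j * c j)`:
otherwise finite-dimensional separation gives a self-adjoint matrix `S` over `I` on which these are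
all nonnegative and `ρ` is negative; but such a matrix is of the form `star Y * Y`, since
`φ (star (a * y) * (a * y)) = 0` for all `y ∈ I` forces `a = 0` in a simple ideal.
-/

open Filter Topology
open scoped ComplexConjugate

namespace Vale.P095.SI

/-! ### Functional calculus inside a closed right ideal -/

section Calculus

variable {C : Type*} [CStarAlgebra C]

theorem nuc_cfc_mem {J : Set C} (hJ : IsClosed J) (hmul : ∀ x ∈ J, ∀ c : C, x * c ∈ J)
    {x : C} (hx : x ∈ J) (hsa : IsSelfAdjoint x) {f : ℝ → ℝ} (hf : Continuous f)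
    (hf0 : f 0 = 0) : cfc f x ∈ J := by
  have hden : ∀ (n : ℕ) (t : ℝ), ((n : ℝ) + 1) * t ^ 2 + 1 ≠ 0 := fun n t => by positivity
  let g : ℕ → ℝ → ℝ := fun n t => t * (f t * (((n : ℝ) + 1) * t) / (((n : ℝ) + 1) * t ^ 2 + 1))
  have hgc : ∀ n, Continuous (g n) := fun n => by
    refine continuous_id.mul (Continuous.div (by fun_prop) (by fun_prop) (hden n))
  have hgJ : ∀ n, cfc (g n) x ∈ J := fun n => by
    have hc : Continuous fun t : ℝ => f t * (((n : ℝ) + 1) * t) / (((n : ℝ) + 1) * t ^ 2 + 1) :=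
      Continuous.div (by fun_prop) (by fun_prop) (hden n)
    rw [cfc_mul (fun t : ℝ => t) _ x continuousOn_id hc.continuousOn, cfc_id' ℝ x]
    exact hmul _ hx _
  have hunif : TendstoUniformlyOn g f atTop (spectrum ℝ x) := by
    rw [Metric.tendstoUniformlyOn_iff]
    intro ε hε
    obtain ⟨δ, hδ, hδf⟩ := Metric.continuousAt_iff.1 (hf.continuousAt (x := (0 : ℝ))) ε hε
    obtain ⟨K, hK⟩ := (ContinuousFunctionalCalculus.isCompact_spectrum (R := ℝ) x
      ).exists_bound_of_continuousOn hf.continuousOn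
    obtain ⟨n₀, hn₀⟩ := exists_nat_gt (K / (δ ^ 2 * ε))
    filter_upwards [eventually_ge_atTop n₀] with n hn t ht
    have hd : 0 < ((n : ℝ) + 1) * t ^ 2 + 1 := by positivity
    have e : f t - g n t = f t / (((n : ℝ) + 1) * t ^ 2 + 1) := by
      simp only [g]
      field_simp
      ring
    rw [Real.dist_eq, e, abs_div, abs_of_pos hd, div_lt_iff₀ hd]
    rcases lt_or_ge |t| δ with h | h
    · have h1 : dist (f t) (f 0) < ε := hδf (by simpa [Real.dist_eq] using h)
      rw [hf0, Real.dist_eq, sub_zero] at h1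
      nlinarith [sq_nonneg t, mul_nonneg (mul_nonneg hε.le (sq_nonneg t))
        (by positivity : (0 : ℝ) ≤ (n : ℝ) + 1)]
    · have h1 : δ ^ 2 ≤ t ^ 2 := by nlinarith [sq_abs t]
      have h2 : |f t| ≤ K := by simpa [Real.norm_eq_abs] using hK t ht
      have h3 : K < (n₀ : ℝ) * (δ ^ 2 * ε) := (div_lt_iff₀ (by positivity)).1 hn₀
      have h4 : (n₀ : ℝ) ≤ n := Nat.cast_le.2 hn
      have h5 : (n₀ : ℝ) * (δ ^ 2 * ε) ≤ (n : ℝ) * (t ^ 2 * ε) := by gcongr
      nlinarith [mul_nonneg hε.le (sq_nonneg t)]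
  exact hJ.mem_of_tendsto
    (tendsto_cfc_fun hunif (Eventually.of_forall fun n => (hgc n).continuousOn))
    (Eventually.of_forall hgJ)

/-- The negative part, packaged for the positivity test. -/
theorem nuc_negPart {J : Set C} (hJ : IsClosed J) (hmul : ∀ x ∈ J, ∀ c : C, x * c ∈ J)
    {x : C} (hx : x ∈ J) (hsa : IsSelfAdjoint x) :
    ∃ R W : C, R ∈ J ∧ IsSelfAdjoint R ∧ W ∈ J ∧ IsSelfAdjoint W ∧ W * x * W = -(R * R) ∧
      (R = 0 → ∃ Y ∈ J, x = star Y * Y) := by
  have hg : Continuous fun t : ℝ => max (-t) 0 := by fun_prop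
  have hr : Continuous fun t : ℝ => max (-t) 0 * Real.sqrt (max (-t) 0) := by fun_prop
  have hs : Continuous fun t : ℝ => Real.sqrt (max t 0) := by fun_prop
  refine ⟨cfc (fun t : ℝ => max (-t) 0 * Real.sqrt (max (-t) 0)) x,
    cfc (fun t : ℝ => max (-t) 0) x, nuc_cfc_mem hJ hmul hx hsa hr (by simp),
    IsSelfAdjoint.cfc, nuc_cfc_mem hJ hmul hx hsa hg (by simp), IsSelfAdjoint.cfc, ?_, ?_⟩
  · conv_lhs => arg 1; arg 2; rw [← cfc_id' ℝ x]
    rw [← cfc_mul (fun t : ℝ => max (-t) 0) (fun t : ℝ => t) x,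
      ← cfc_mul (fun t : ℝ => max (-t) 0 * t) (fun t : ℝ => max (-t) 0) x,
      ← cfc_mul _ _ x hr.continuousOn hr.continuousOn, ← cfc_neg]
    refine cfc_congr fun t _ => ?_
    have h := Real.mul_self_sqrt (le_max_right (-t) 0)
    rcases le_total t 0 with ht | ht
    · simp only [max_eq_left (neg_nonneg.2 ht)] at h ⊢
      linear_combination (t ^ 2) * h
    · simp [max_eq_right (neg_nonpos.2 ht)]
  · intro h0
    refine ⟨cfc (fun t : ℝ => Real.sqrt (max t 0)) x, nuc_cfc_mem hJ hmul hx hsa hs (by simp), ?_⟩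
    rw [← cfc_zero ℝ x] at h0
    have hpos : ∀ t ∈ spectrum ℝ x, 0 ≤ t := fun t ht => by
      by_contra hneg
      have hneg' : 0 < -t := by linarith [not_le.1 hneg]
      have h1 := (eqOn_of_cfc_eq_cfc h0 hr.continuousOn continuousOn_const hsa) ht
      change max (-t) 0 * Real.sqrt (max (-t) 0) = 0 at h1
      rw [max_eq_left hneg'.le] at h1
      exact (mul_pos hneg' (Real.sqrt_pos.2 hneg')).ne' h1
    rw [(IsSelfAdjoint.cfc (f := fun t : ℝ => Real.sqrt (max t 0)) (a := x)).star_eq,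
      ← cfc_mul _ _ x hs.continuousOn hs.continuousOn]
    conv_lhs => rw [← cfc_id' ℝ x]
    refine cfc_congr fun t ht => ?_
    rw [max_eq_left (hpos t ht)]
    exact (Real.mul_self_sqrt (hpos t ht)).symm

end Calculus

variable {B : Type*} [CStarAlgebra B]

/-! ### The state -/

theorem nuc_apply_selfAdjoint (φ : B →ₗ[ℂ] ℂ)
    (hφ : ∀ x, 0 ≤ (φ (star x * x)).re ∧ (φ (star x * x)).im = 0) {h : B}
    (hh : IsSelfAdjoint h) : (φ h).im = 0 ∧ |(φ h).re| ≤ ‖h‖ * (φ 1).re := by
  letI := CStarAlgebra.spectralOrder B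
  haveI := CStarAlgebra.spectralOrderedRing B
  obtain ⟨b, hb⟩ := CStarAlgebra.nonneg_iff_eq_star_mul_self.mp
    (sub_nonneg.2 hh.le_algebraMap_norm_self)
  obtain ⟨b', hb'⟩ := CStarAlgebra.nonneg_iff_eq_star_mul_self.mp
    (sub_nonneg.2 hh.neg.le_algebraMap_norm_self)
  have h1 := hφ b
  have h2 := hφ b'
  have h3 := hφ 1
  rw [← hb] at h1
  rw [← hb'] at h2
  simp only [map_sub, map_neg, norm_neg, Algebra.algebraMap_eq_smul_one,
    LinearMap.map_smul_of_tower, Complex.sub_re, Complex.sub_im, Complex.neg_re, Complex.neg_im,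
    Complex.smul_re, Complex.smul_im, smul_eq_mul, star_one, mul_one] at h1 h2 h3
  rw [h3.2] at h1
  exact ⟨by linarith [h1.2], abs_le.2 ⟨by linarith [h2.1], by linarith [h1.1]⟩⟩

theorem nuc_norm_apply_le (φ : B →ₗ[ℂ] ℂ)
    (hφ : ∀ x, 0 ≤ (φ (star x * x)).re ∧ (φ (star x * x)).im = 0) (x : B) :
    ‖φ x‖ ≤ 2 * (φ 1).re * ‖x‖ := by
  have h0 : 0 ≤ (φ 1).re := by simpa using (hφ 1).1
  have key : ∀ h : B, IsSelfAdjoint h → ‖h‖ ≤ ‖x‖ → ‖φ h‖ ≤ (φ 1).re * ‖x‖ := fun h hh hn => by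
    obtain ⟨h1, h2⟩ := nuc_apply_selfAdjoint φ hφ hh
    calc ‖φ h‖ ≤ |(φ h).re| + |(φ h).im| := Complex.norm_le_abs_re_add_abs_im _
      _ ≤ ‖h‖ * (φ 1).re + 0 := add_le_add h2 (by simp [h1])
      _ ≤ ‖x‖ * (φ 1).re + 0 := by gcongr
      _ = _ := by ring
  have hx : x = (realPart x : B) + Complex.I • (imaginaryPart x : B) :=
    (realPart_add_I_smul_imaginaryPart x).symm
  calc ‖φ x‖ ≤ ‖φ (realPart x : B)‖ + ‖φ (imaginaryPart x : B)‖ := by
        conv_lhs => rw [hx, map_add, map_smul]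
        exact (norm_add_le _ _).trans (by simp)
    _ ≤ (φ 1).re * ‖x‖ + (φ 1).re * ‖x‖ :=
        add_le_add (key _ (realPart x).2 (realPart.norm_le x))
          (key _ (imaginaryPart x).2 (imaginaryPart.norm_le x))
    _ = _ := by ring

theorem nuc_apply_star (φ : B →ₗ[ℂ] ℂ)
    (hφ : ∀ x, 0 ≤ (φ (star x * x)).re ∧ (φ (star x * x)).im = 0) (x : B) :
    φ (star x) = conj (φ x) := by
  have key : ∀ h : B, IsSelfAdjoint h → conj (φ h) = φ h := fun h hh =>
    Complex.conj_eq_iff_im.2 (nuc_apply_selfAdjoint φ hφ hh).1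
  conv_rhs => rw [← realPart_add_I_smul_imaginaryPart x]
  conv_lhs => rw [← realPart_add_I_smul_imaginaryPart x]
  simp only [star_add, star_smul, (realPart x).2.star_eq, (imaginaryPart x).2.star_eq, map_add,
    map_smul, smul_eq_mul, map_mul, key _ (realPart x).2, key _ (imaginaryPart x).2,
    Complex.star_def]

/-- The null space of a state is a left ideal, in the form needed. -/
theorem nuc_apply_mul_eq_zero (φ : B →ₗ[ℂ] ℂ)
    (hφ : ∀ x, 0 ≤ (φ (star x * x)).re ∧ (φ (star x * x)).im = 0) {u : B}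
    (hu : φ (star u * u) = 0) (v : B) : φ (star u * v) = 0 := by
  have key : ∀ t : ℂ, φ (star (v + t • u) * (v + t • u))
      = φ (star v * v) + t * φ (star v * u) + conj t * φ (star u * v) := fun t => by
    simp only [star_add, star_smul, add_mul, mul_add, smul_mul_assoc, mul_smul_comm, map_add,
      map_smul, smul_eq_mul, hu, mul_zero, Complex.star_def]
    ring
  have hvu : φ (star v * u) = conj (φ (star u * v)) := by
    rw [← nuc_apply_star φ hφ, star_mul, star_star]
  set z := φ (star u * v) with hz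
  have hz0 : z = 0 := by
    by_contra hne
    have hn : 0 < Complex.normSq z := Complex.normSq_pos.2 hne
    set r : ℝ := -(((φ (star v * v)).re + 1) / (2 * Complex.normSq z)) with hr
    have h := (hφ (v + ((r : ℂ) * z) • u)).1
    rw [key, hvu, map_mul (starRingEnd ℂ), Complex.conj_ofReal] at h
    simp only [Complex.add_re, Complex.mul_re, Complex.mul_im, Complex.conj_re, Complex.conj_im,
      Complex.ofReal_re, Complex.ofReal_im] at h
    have e : r * (2 * Complex.normSq z) = -((φ (star v * v)).re + 1) := by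
      rw [hr]; field_simp
    rw [Complex.normSq_apply] at e
    nlinarith
  exact hz0

/-! ### The ideal -/

theorem nuc_sum_mem {I : Set B} (hI : IsSimpleIdeal I) {ι : Type*} (s : Finset ι) (f : ι → B)
    (h : ∀ i ∈ s, f i ∈ I) : ∑ i ∈ s, f i ∈ I :=
  Finset.sum_induction f (· ∈ I) (fun a b ha hb => hI.add_mem a ha b hb) hI.zero_mem h

/-- In a simple ideal a nonzero positive functional detects every element. -/
theorem nuc_eq_zero {I : Set B} (hI : IsSimpleIdeal I) (φ : B →ₗ[ℂ] ℂ)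
    (hφ : ∀ x, 0 ≤ (φ (star x * x)).re ∧ (φ (star x * x)).im = 0) (hne : ∃ x ∈ I, φ x ≠ 0)
    {a : B} (ha : a ∈ I) (h : ∀ y ∈ I, φ (star (a * y) * (a * y)) = 0) : a = 0 := by
  by_contra ha0
  obtain ⟨x₀, hx₀, hφx₀⟩ := hne
  refine hφx₀ (norm_le_zero_iff.1 (le_of_forall_pos_le_add fun ε hε => ?_))
  have hK : 0 ≤ (φ 1).re := by simpa using (hφ 1).1
  have hδ : 0 < ε / (2 * (φ 1).re + 1) := by positivity
  obtain ⟨n, p, q, hpq, hn⟩ :=
    hI.simple (star a) (hI.star_mem a ha) (star_ne_zero.2 ha0) x₀ hx₀ _ hδ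
  have hz : φ (∑ i, p i * star a * q i) = 0 := by
    rw [map_sum]
    refine Finset.sum_eq_zero fun i _ => ?_
    have := nuc_apply_mul_eq_zero φ hφ (h _ (hI.star_mem _ (hpq i).1)) (q i)
    rwa [star_mul, star_star] at this
  have h2 := nuc_norm_apply_le φ hφ ((∑ i, p i * star a * q i) - x₀)
  rw [map_sub, hz, zero_sub, norm_neg] at h2
  have h3 : 2 * (φ 1).re * (ε / (2 * (φ 1).re + 1)) ≤ ε := by
    rw [mul_div_assoc', div_le_iff₀ (by positivity)]
    nlinarith
  have h4 : 2 * (φ 1).re * ‖(∑ i, p i * star a * q i) - x₀‖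
      ≤ 2 * (φ 1).re * (ε / (2 * (φ 1).re + 1)) := by gcongr
  linarith

/-! ### Matrices -/

section Matrices

attribute [local instance] CStarAlgebra.spectralOrder CStarAlgebra.spectralOrderedRing

theorem nuc_of_apply {R : Type*} {N : ℕ} (f : Fin N → Fin N → R) (i j : Fin N) :
    CStarMatrix.ofMatrix f i j = f i j := rfl

theorem nuc_matrix_sum_apply {R : Type*} [AddCommMonoid R] {N : ℕ} {ι : Type*} (s : Finset ι)
    (M : ι → CStarMatrix (Fin N) (Fin N) R) (i j : Fin N) :
    (∑ x ∈ s, M x) i j = ∑ x ∈ s, M x i j :=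
  map_sum ({ toFun := fun M' : CStarMatrix (Fin N) (Fin N) R => M' i j
             map_zero' := rfl
             map_add' := fun _ _ => rfl } : CStarMatrix (Fin N) (Fin N) R →+ R) M s

theorem nuc_star_mul_apply {R : Type*} [NonUnitalSemiring R] [StarRing R] {N : ℕ}
    (M M' : CStarMatrix (Fin N) (Fin N) R) (i j : Fin N) :
    (star M * M') i j = ∑ l, star (M l i) * M' l j := by
  simp [CStarMatrix.mul_apply, CStarMatrix.star_apply]

/-- A self-adjoint matrix over the ideal which is positive on all compressed states is positive. -/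
theorem nuc_positive {I : Set B} (hI : IsSimpleIdeal I) (φ : B →ₗ[ℂ] ℂ)
    (hφ : ∀ x, 0 ≤ (φ (star x * x)).re ∧ (φ (star x * x)).im = 0) (hne : ∃ x ∈ I, φ x ≠ 0)
    {N : ℕ} (S : CStarMatrix (Fin N) (Fin N) B) (hS : ∀ i j, S i j ∈ I) (hsa : IsSelfAdjoint S)
    (hpos : ∀ c : Fin N → B, (∀ i, c i ∈ I) →
      0 ≤ (∑ i, ∑ j, φ (star (c i) * S i j * c j)).re) :
    ∃ Y : CStarMatrix (Fin N) (Fin N) B, (∀ i j, Y i j ∈ I) ∧ S = star Y * Y := by
  set J : Set (CStarMatrix (Fin N) (Fin N) B) := {M | ∀ i j, M i j ∈ I} with hJ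
  have hJc : IsClosed J := by
    simp only [hJ, Set.ofPred_forall]
    exact isClosed_iInter fun i => isClosed_iInter fun j =>
      hI.closed.preimage ((continuous_apply j).comp (continuous_apply i))
  have hJm : ∀ x ∈ J, ∀ c, x * c ∈ J := fun x hx c i j => by
    rw [CStarMatrix.mul_apply]
    exact nuc_sum_mem hI _ _ fun l _ => hI.mul_mem_right _ _ (hx i l)
  obtain ⟨R, W, hR, hRs, hW, hWs, hWSW, hR0⟩ := nuc_negPart hJc hJm (show S ∈ J from hS) hsa
  refine hR0 (CStarMatrix.ext fun l k => nuc_eq_zero hI φ hφ hne (hR l k) fun y hy => ?_)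
  let V : CStarMatrix (Fin N) (Fin N) B :=
    CStarMatrix.ofMatrix fun a b => if a = k ∧ b = k then y else 0
  have hV : ∀ a b, V a b ∈ I := fun a b => by
    change (if a = k ∧ b = k then y else 0) ∈ I
    split_ifs
    exacts [hy, hI.zero_mem]
  have hc : ∀ i, (W * V) i k ∈ I := fun i => by
    rw [CStarMatrix.mul_apply]
    exact nuc_sum_mem hI _ _ fun m _ => hI.mul_mem_left _ _ (hV m k)
  have h1 := hpos (fun i => (W * V) i k) hc
  have e1 : (star (W * V) * S * (W * V)) k k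
      = ∑ i, ∑ j, star ((W * V) i k) * S i j * (W * V) j k := by
    simp only [mul_assoc, nuc_star_mul_apply]
    simp only [CStarMatrix.mul_apply, Finset.mul_sum]
  have e2 : star (W * V) * S * (W * V) = -(star (R * V) * (R * V)) := by
    rw [star_mul, star_mul, hWs.star_eq, hRs.star_eq]
    calc star V * W * S * (W * V) = star V * (W * S * W) * V := by simp only [mul_assoc]
      _ = _ := by rw [hWSW]; simp only [mul_neg, neg_mul, mul_assoc]
  rw [e2, CStarMatrix.neg_apply, nuc_star_mul_apply] at e1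
  have e3 : (∑ i, ∑ j, φ (star ((W * V) i k) * S i j * (W * V) j k))
      = -∑ m, φ (star ((R * V) m k) * (R * V) m k) := by
    simp only [← map_sum, ← map_neg, e1]
  rw [e3, Complex.neg_re, Complex.re_sum] at h1
  have h2 : ∀ m ∈ Finset.univ, (φ (star ((R * V) m k) * (R * V) m k)).re = 0 :=
    (Finset.sum_eq_zero_iff_of_nonneg fun m _ => (hφ _).1).1
      (le_antisymm (by linarith) (Finset.sum_nonneg fun m _ => (hφ _).1))
  have e4 : (R * V) l k = R l k * y := by
    rw [CStarMatrix.mul_apply, Finset.sum_eq_single k]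
    · simp [V, nuc_of_apply]
    · intro b _ hb
      simp [V, hb, nuc_of_apply]
    · simp
  rw [← e4]
  exact Complex.ext (h2 l (Finset.mem_univ l)) (hφ _).2

variable {I : Set B} (hI : IsSimpleIdeal I) {N : ℕ}
  (ρ : B →ₗ[ℂ] CStarMatrix (Fin N) (Fin N) ℂ) (hρ : IsCPOn I ρ)
include hI hρ

theorem nuc_cp_map_star {x : B} (hx : x ∈ I) : ρ (star x) = star (ρ x) := by
  have h1 : ∀ y ∈ I, IsSelfAdjoint (ρ (star y * y)) := fun y hy => by
    obtain ⟨Z, hZ⟩ := hρ 1 (CStarMatrix.ofMatrix fun _ _ => y) (fun _ _ => hy)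
    have h := CStarMatrix.ext_iff.2 hZ 0 0
    simp only [CStarMatrix.map_apply, nuc_star_mul_apply, Fin.sum_univ_one, nuc_of_apply] at h
    rw [h]
    exact IsSelfAdjoint.star_mul_self _
  have h2 : ∀ h ∈ I, IsSelfAdjoint h → IsSelfAdjoint (ρ h) := fun h hh hsa => by
    have hc : Continuous fun t : ℝ => Real.sqrt (max t 0) := by fun_prop
    have hc' : Continuous fun t : ℝ => Real.sqrt (max (-t) 0) := by fun_prop
    set p := cfc (fun t : ℝ => Real.sqrt (max t 0)) h with hp
    set q := cfc (fun t : ℝ => Real.sqrt (max (-t) 0)) h with hq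
    have hps : IsSelfAdjoint p := IsSelfAdjoint.cfc
    have hqs : IsSelfAdjoint q := IsSelfAdjoint.cfc
    have e : h = star p * p - star q * q := by
      rw [hps.star_eq, hqs.star_eq, hp, hq, ← cfc_mul _ _ h hc.continuousOn hc.continuousOn,
        ← cfc_mul _ _ h hc'.continuousOn hc'.continuousOn, ← cfc_sub (fun t : ℝ => Real.sqrt (max t 0) * Real.sqrt (max t 0))
          (fun t : ℝ => Real.sqrt (max (-t) 0) * Real.sqrt (max (-t) 0)) h]
      conv_lhs => rw [← cfc_id' ℝ h]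
      refine cfc_congr fun t _ => ?_
      rw [Real.mul_self_sqrt (le_max_right t 0), Real.mul_self_sqrt (le_max_right (-t) 0)]
      rcases le_total t 0 with ht | ht
      · rw [max_eq_right ht, max_eq_left (neg_nonneg.2 ht)]; ring
      · rw [max_eq_left ht, max_eq_right (neg_nonpos.2 ht)]; ring
    have hmul : ∀ x ∈ I, ∀ c : B, x * c ∈ I := fun x hx c => hI.mul_mem_right c x hx
    rw [e, map_sub]
    exact (h1 p (nuc_cfc_mem hI.closed hmul hh hsa hc (by simp))).sub
      (h1 q (nuc_cfc_mem hI.closed hmul hh hsa hc' (by simp)))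
  have hre : (realPart x : B) ∈ I := by
    rw [realPart_apply_coe]
    have := hI.smul_mem ((2 : ℝ)⁻¹ : ℝ) _ (hI.add_mem x hx _ (hI.star_mem x hx))
    rwa [Complex.coe_smul] at this
  have him : (imaginaryPart x : B) ∈ I := by
    have e : (imaginaryPart x : B) = (-Complex.I) • (x + (-1 : ℂ) • (realPart x : B)) := by
      conv_rhs => rw [← realPart_add_I_smul_imaginaryPart x]
      simp [smul_smul]
    rw [e]
    exact hI.smul_mem _ _ (hI.add_mem _ hx _ (hI.smul_mem _ _ hre))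
  conv_lhs => rw [← realPart_add_I_smul_imaginaryPart x]
  conv_rhs => rw [← realPart_add_I_smul_imaginaryPart x]
  simp only [star_add, star_smul, (realPart x).2.star_eq, (imaginaryPart x).2.star_eq, map_add,
    map_smul, (h2 _ hre (realPart x).2).star_eq, (h2 _ him (imaginaryPart x).2).star_eq]

/-- On a finite set, a completely positive map is a limit of sums of compressed states. -/
theorem nuc_approx_cp (φ : B →ₗ[ℂ] ℂ)
    (hφ : ∀ x, 0 ≤ (φ (star x * x)).re ∧ (φ (star x * x)).im = 0) (hne : ∃ x ∈ I, φ x ≠ 0)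
    (D : Finset B) (hD : ∀ a ∈ D, a ∈ I) {η : ℝ} (hη : 0 < η) :
    ∃ (L : ℕ) (c : Fin L → Fin N → B), (∀ p i, c p i ∈ I) ∧ ∀ a ∈ D, ∀ i j,
      ‖ρ a i j - ∑ p, φ (star (c p i) * a * c p j)‖ ≤ η := by
  classical
  let r : {a // a ∈ D} × Fin N × Fin N → ℂ := fun x => ρ x.1 x.2.1 x.2.2
  let v : (Fin N → B) → ({a // a ∈ D} × Fin N × Fin N → ℂ) :=
    fun c x => φ (star (c x.2.1) * x.1 * c x.2.2)
  let K : Set ({a // a ∈ D} × Fin N × Fin N → ℂ) :=
    {w | ∃ (L : ℕ) (c : Fin L → Fin N → B), (∀ p i, c p i ∈ I) ∧ w = ∑ p, v (c p)}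
  by_cases hr : r ∈ closure K
  · obtain ⟨w, ⟨L, c, hc, rfl⟩, hw⟩ := Metric.mem_closure_iff.1 hr η hη
    refine ⟨L, c, hc, fun a ha i j => ?_⟩
    have h := (dist_le_pi_dist r (∑ p, v (c p)) (⟨a, ha⟩, i, j)).trans hw.le
    rw [dist_eq_norm, Finset.sum_apply] at h
    exact h
  exfalso
  have hscale : ∀ w ∈ K, ∀ t : ℝ, 0 ≤ t → t • w ∈ K := by
    rintro _ ⟨L, c, hc, rfl⟩ t ht
    refine ⟨L, fun p i => (Real.sqrt t : ℂ) • c p i, fun p i => hI.smul_mem _ _ (hc p i), ?_⟩
    rw [Finset.smul_sum]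
    refine Finset.sum_congr rfl fun p _ => funext fun x => ?_
    simp only [v, Pi.smul_apply, star_smul, smul_mul_assoc, mul_smul_comm, map_smul,
      Complex.real_smul, smul_eq_mul, Complex.star_def, Complex.conj_ofReal]
    rw [← mul_assoc, ← Complex.ofReal_mul, Real.mul_self_sqrt ht]
  have hadd : ∀ w ∈ K, ∀ w' ∈ K, w + w' ∈ K := by
    rintro _ ⟨L, c, hc, rfl⟩ _ ⟨L', c', hc', rfl⟩
    refine ⟨L + L', Fin.append c c', fun p => ?_, ?_⟩
    · refine Fin.addCases (fun q => ?_) (fun q => ?_) p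
      · intro i; simpa using hc q i
      · intro i; simpa using hc' q i
    · rw [Fin.sum_univ_add]; simp
  have hzero : (0 : {a // a ∈ D} × Fin N × Fin N → ℂ) ∈ K :=
    ⟨0, Fin.elim0, fun p => p.elim0, by simp⟩
  have hconv : Convex ℝ K := fun x hx y hy a b ha hb _ =>
    hadd _ (hscale x hx a ha) _ (hscale y hy b hb)
  obtain ⟨f, u, hfr, hfK⟩ := geometric_hahn_banach_point_closed hconv.closure isClosed_closure hr
  have hu : u < 0 := by simpa using hfK 0 (subset_closure hzero)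
  have hfpos : ∀ w ∈ K, 0 ≤ f w := fun w hw => by
    by_contra hlt
    rw [not_le] at hlt
    have h := hfK _ (subset_closure (hscale w hw (u / f w) (div_pos_of_neg_of_neg hu hlt).le))
    rw [map_smul, smul_eq_mul, div_mul_cancel₀ u hlt.ne] at h
    exact lt_irrefl u h
  let lam : {a // a ∈ D} × Fin N × Fin N → ℂ := fun x =>
    (f (Pi.single x 1) : ℂ) - Complex.I * (f (Pi.single x Complex.I) : ℂ)
  have hf : ∀ w, f w = (∑ x, lam x * w x).re := fun w => by
    have e : w = ∑ x, ((w x).re • (Pi.single x 1 : {a // a ∈ D} × Fin N × Fin N → ℂ) +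
        (w x).im • (Pi.single x Complex.I : {a // a ∈ D} × Fin N × Fin N → ℂ)) := by
      funext y
      simp [Finset.sum_apply, Pi.single_apply, Finset.sum_add_distrib, Complex.re_add_im]
    conv_lhs => rw [e]
    simp only [map_sum, map_add, map_smul, smul_eq_mul, Complex.re_sum]
    refine Finset.sum_congr rfl fun x _ => ?_
    simp [lam, Complex.mul_re, mul_comm]
  let T : Fin N → Fin N → B := fun i j => ∑ a, lam (a, i, j) • (a : B)
  have hT : ∀ i j, T i j ∈ I := fun i j =>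
    nuc_sum_mem hI _ _ fun a _ => hI.smul_mem _ _ (hD _ a.2)
  have hLT : ∀ G : Fin N → Fin N → B →ₗ[ℂ] ℂ,
      ∑ x, lam x * G x.2.1 x.2.2 x.1 = ∑ i, ∑ j, G i j (T i j) := fun G => by
    rw [Fintype.sum_prod_type, Finset.sum_comm, Fintype.sum_prod_type]
    simp [T, map_sum]
  let S : CStarMatrix (Fin N) (Fin N) B :=
    CStarMatrix.ofMatrix fun i j => (1 / 2 : ℂ) • (T i j + star (T j i))
  have hSI : ∀ i j, S i j ∈ I := fun i j =>
    hI.smul_mem _ _ (hI.add_mem _ (hT i j) _ (hI.star_mem _ (hT j i)))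
  have hSsa : IsSelfAdjoint S := CStarMatrix.ext fun i j => by
    simp [S, CStarMatrix.star_apply, nuc_of_apply, add_comm]
  -- symmetrising does not change real parts of hermitian forms
  have hsym : ∀ G : Fin N → Fin N → B →ₗ[ℂ] ℂ,
      (∀ i j, G i j (star (T j i)) = conj (G j i (T j i))) →
      (∑ i, ∑ j, G i j (S i j)).re = (∑ i, ∑ j, G i j (T i j)).re := fun G hG => by
    have e : ∀ i j, (G i j (S i j)).re = (1 / 2) * ((G i j (T i j)).re + (G j i (T j i)).re) :=
      fun i j => by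
        simp [S, nuc_of_apply, hG, map_smul, map_add, Complex.mul_re, mul_add]
    simp only [Complex.re_sum, e, ← Finset.mul_sum, Finset.sum_add_distrib]
    rw [Finset.sum_comm (f := fun i j => (G j i (T j i)).re)]
    ring
  have hpos : ∀ c : Fin N → B, (∀ i, c i ∈ I) →
      0 ≤ (∑ i, ∑ j, φ (star (c i) * S i j * c j)).re := fun c hc => by
    let G : Fin N → Fin N → B →ₗ[ℂ] ℂ := fun i j =>
      φ.comp ((LinearMap.mulRight ℂ (c j)).comp (LinearMap.mulLeft ℂ (star (c i))))
    have hG : ∀ i j b, G i j b = φ (star (c i) * b * c j) := fun i j b => rfl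
    have h1 := hsym G fun i j => by
      rw [hG, hG, ← nuc_apply_star φ hφ]
      simp [star_mul, mul_assoc]
    simp only [hG] at h1
    rw [h1]
    have h2 := hfpos _ (show v c ∈ K from ⟨1, fun _ => c, fun _ => hc, by simp⟩)
    rw [hf] at h2
    have h3 := hLT G
    simp only [hG] at h3
    rw [← h3]
    exact h2
  obtain ⟨Y, hY, hSY⟩ := nuc_positive hI φ hφ hne S hSI hSsa hpos
  obtain ⟨Z, hZ⟩ := hρ N Y hY
  rw [← hSY] at hZ
  let G : Fin N → Fin N → B →ₗ[ℂ] ℂ := fun i j =>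
    { toFun := fun b => ρ b i j
      map_add' := fun b b' => by simp
      map_smul' := fun t b => by simp }
  have h1 := hsym G fun i j => by
    change ρ (star (T j i)) i j = conj (ρ (T j i) j i)
    rw [nuc_cp_map_star hI ρ hρ (hT j i), CStarMatrix.star_apply]
    rfl
  have h2 : 0 ≤ (∑ i, ∑ j, G i j (S i j)).re := by
    have e : ∀ i j, G i j (S i j) = ∑ k, ∑ l, conj (Z k i l i) * Z k j l j := fun i j => by
      change ρ (S i j) i j = _
      have h := CStarMatrix.ext_iff.2 hZ i j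
      rw [CStarMatrix.map_apply, nuc_star_mul_apply] at h
      rw [h, nuc_matrix_sum_apply]
      simp [nuc_star_mul_apply]
    have e2 : ∑ i, ∑ j, G i j (S i j)
        = ∑ k, ∑ l, conj (∑ i, Z k i l i) * ∑ j, Z k j l j := by
      simp only [e, map_sum, Finset.sum_mul]
      simp only [Finset.mul_sum]
      calc ∑ i, ∑ j, ∑ k, ∑ l, conj (Z k i l i) * Z k j l j
          = ∑ i, ∑ k, ∑ l, ∑ j, conj (Z k i l i) * Z k j l j :=
            Finset.sum_congr rfl fun i _ => by
              rw [Finset.sum_comm]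
              exact Finset.sum_congr rfl fun k _ => Finset.sum_comm
        _ = _ := by
              rw [Finset.sum_comm]
              exact Finset.sum_congr rfl fun k _ => Finset.sum_comm
    rw [e2, Complex.re_sum]
    refine Finset.sum_nonneg fun k _ => ?_
    rw [Complex.re_sum]
    refine Finset.sum_nonneg fun l _ => ?_
    rw [← Complex.normSq_eq_conj_mul_self, Complex.ofReal_re]
    exact Complex.normSq_nonneg _
  rw [h1, ← hLT G, show (fun x => lam x * G x.2.1 x.2.2 x.1) = fun x => lam x * r x from rfl,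
    ← hf r] at h2
  linarith

omit hρ

/-- An almost unit of the ideal for a finite set. -/
theorem nuc_almost_unit (D : Finset B) (hD : ∀ a ∈ D, a ∈ I) {s : ℝ} (hs : 0 < s) :
    ∃ e : B, IsSelfAdjoint e ∧ e ∈ I ∧ ‖e‖ ≤ 1 ∧ ∀ a ∈ D, ‖e * a * e - a‖ ≤ 2 * s := by
  set h : B := ∑ a ∈ D, (star a * a + a * star a) with hh
  have h0 : 0 ≤ h := Finset.sum_nonneg fun a _ =>
    add_nonneg (star_mul_self_nonneg a) (mul_star_self_nonneg a)
  have hI' : h ∈ I := nuc_sum_mem hI _ _ fun a ha =>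
    hI.add_mem _ (hI.mul_mem_left _ _ (hD a ha)) _ (hI.mul_mem_right _ _ (hD a ha))
  have hsa : IsSelfAdjoint h := IsSelfAdjoint.of_nonneg h0
  set g : ℝ → ℝ := fun t => max 0 (min 1 (t / s ^ 2)) with hg
  have hgc : Continuous g := by fun_prop
  have hs2 : 0 < s ^ 2 := by positivity
  refine ⟨cfc g h, IsSelfAdjoint.cfc,
    nuc_cfc_mem hI.closed (fun x hx c => hI.mul_mem_right c x hx) hI' hsa hgc (by simp [hg]),
    norm_cfc_le zero_le_one fun t _ => ?_, fun a ha => ?_⟩
  · rw [Real.norm_eq_abs, abs_of_nonneg (le_max_left _ _)]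
    exact max_le zero_le_one (min_le_left _ _)
  set u := 1 - cfc g h with hu
  have hus : IsSelfAdjoint u := (IsSelfAdjoint.one B).sub IsSelfAdjoint.cfc
  have hb : ‖star u * h * u‖ ≤ s ^ 2 := by
    have e : u = cfc (fun t => 1 - g t) h := by
      rw [cfc_sub (fun _ : ℝ => (1 : ℝ)) g h continuousOn_const hgc.continuousOn, cfc_const_one ℝ h]
    rw [hus.star_eq, e]
    conv_lhs => arg 1; arg 1; arg 2; rw [← cfc_id' ℝ h]
    have hc1 : Continuous fun t => 1 - g t := by fun_prop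
    rw [← cfc_mul (fun t : ℝ => 1 - g t) (fun t : ℝ => t) h hc1.continuousOn continuousOn_id,
      ← cfc_mul (fun t : ℝ => (1 - g t) * t) (fun t : ℝ => 1 - g t) h
        (hc1.mul continuous_id).continuousOn hc1.continuousOn]
    refine norm_cfc_le hs2.le fun t ht => ?_
    have ht0 : 0 ≤ t := spectrum_nonneg_of_nonneg h0 ht
    simp only [hg, Real.norm_eq_abs]
    rcases le_total t (s ^ 2) with h1 | h1
    · have h2 : t / s ^ 2 ≤ 1 := (div_le_one hs2).2 h1
      rw [min_eq_right h2, max_eq_right (by positivity)]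
      have h3 : 0 ≤ t / s ^ 2 := by positivity
      rw [abs_of_nonneg (mul_nonneg (mul_nonneg (by linarith) ht0) (by linarith))]
      nlinarith [mul_le_mul_of_nonneg_left (show (1 - t / s ^ 2) * (1 - t / s ^ 2) ≤ 1 by nlinarith)
        ht0]
    · rw [min_eq_left ((one_le_div hs2).2 h1), max_eq_right zero_le_one]
      simp [hs2.le]
  have hle : ∀ b : B, star b * b ≤ h → ‖b * u‖ ≤ s := fun b hbh => by
    have h1 : ‖star (b * u) * (b * u)‖ ≤ s ^ 2 := by
      refine le_trans (CStarAlgebra.norm_le_norm_of_nonneg_of_le (star_mul_self_nonneg _) ?_) hb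
      have := star_left_conjugate_le_conjugate hbh u
      simpa only [star_mul, mul_assoc] using this
    rw [CStarRing.norm_star_mul_self, ← pow_two] at h1
    exact (pow_le_pow_iff_left₀ (norm_nonneg _) hs.le two_ne_zero).1 h1
  have hda : star a * a + a * star a ≤ h := Finset.single_le_sum
    (fun a _ => add_nonneg (star_mul_self_nonneg a) (mul_star_self_nonneg a)) ha
  have h1 : ‖a * u‖ ≤ s := hle a (le_trans (le_add_of_nonneg_right (mul_star_self_nonneg a)) hda)
  have h2 : ‖u * a‖ ≤ s := by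
    have := hle (star a) (by
      rw [star_star]
      exact le_trans (le_add_of_nonneg_left (star_mul_self_nonneg a)) hda)
    have e : star (star a * u) = u * a := by rw [star_mul, star_star, hus.star_eq]
    rwa [← norm_star, e] at this
  have he : ‖cfc g h‖ ≤ 1 := norm_cfc_le zero_le_one fun t _ => by
    rw [Real.norm_eq_abs, abs_of_nonneg (le_max_left _ _)]
    exact max_le zero_le_one (min_le_left _ _)
  calc ‖cfc g h * a * cfc g h - a‖ = ‖-(cfc g h * (a * u)) - u * a‖ := by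
        rw [hu]; congr 1; noncomm_ring
    _ ≤ ‖cfc g h‖ * ‖a * u‖ + ‖u * a‖ := by
        refine (norm_sub_le _ _).trans (add_le_add ?_ le_rfl)
        rw [norm_neg]
        exact norm_mul_le _ _
    _ ≤ 1 * s + s := by gcongr
    _ = _ := by ring

end Matrices

section Main

attribute [local instance] CStarAlgebra.spectralOrder CStarAlgebra.spectralOrderedRing

/-- The Choi matrix of a completely positive map out of a matrix algebra. -/
theorem nuc_choi {N : ℕ} (ψ : CStarMatrix (Fin N) (Fin N) ℂ →ₗ[ℂ] B) (hψ : IsCP ψ) :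
    ∃ Z : Fin N → Fin N → B, ∀ X : CStarMatrix (Fin N) (Fin N) ℂ,
      ψ X = ∑ i, ∑ j, X i j • ∑ k, star (Z k i) * Z k j := by
  let E : Fin N → Fin N → CStarMatrix (Fin N) (Fin N) ℂ := fun a b =>
    CStarMatrix.ofMatrix fun x y => if x = a ∧ y = b then 1 else 0
  obtain ⟨Z, hZ⟩ := hψ N (CStarMatrix.ofMatrix fun k j => if (k : ℕ) = 0 then E k j else 0)
  refine ⟨fun k i => Z k i, fun X => ?_⟩
  have hE : ∀ i j, ψ (E i j) = ∑ k, star (Z k i) * Z k j := fun i j => by
    have h := CStarMatrix.ext_iff.2 hZ i j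
    rw [CStarMatrix.map_apply, nuc_star_mul_apply, nuc_star_mul_apply] at h
    rw [← h, Finset.sum_eq_single (⟨0, i.pos⟩ : Fin N)]
    · congr 1
      ext x y
      simp [E, nuc_star_mul_apply, nuc_of_apply, ite_and]
      split_ifs <;> rfl
    · intro b _ hb
      have : (b : ℕ) ≠ 0 := fun hb0 => hb (Fin.ext hb0)
      simp [nuc_of_apply, this]
    · simp
  have hX : X = ∑ i, ∑ j, X i j • E i j := by
    ext x y
    simp [nuc_matrix_sum_apply, E, nuc_of_apply, ite_and]
  conv_lhs => rw [hX]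
  simp only [map_sum, map_smul, hE]

/-- Decomposition relative to a simple ideal. -/
theorem exists_decompositionOn {I : Set B} (hI : IsSimpleIdeal I) (hA : HasCPAPOn I)
    (φ : B →ₗ[ℂ] ℂ) (hφ : ∀ x, 0 ≤ (φ (star x * x)).re ∧ (φ (star x * x)).im = 0)
    (hne : ∃ x ∈ I, φ x ≠ 0) (D : Finset B) (hD : ∀ a ∈ D, a ∈ I) {ε : ℝ} (hε : 0 < ε) :
    ∃ (L N : ℕ) (c d : Fin L → Fin N → B), (∀ p i, c p i ∈ I ∧ d p i ∈ I) ∧ ∀ a ∈ D,
      ‖∑ p, ∑ i, ∑ j, φ (star (c p i) * a * c p j) • (star (d p i) * d p j) - a‖ ≤ ε := by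
  obtain ⟨e, hes, heI, hen, he⟩ := nuc_almost_unit hI D hD (show 0 < ε / 8 by positivity)
  obtain ⟨N, ρ, ψ, hρ, hψ, happ⟩ := hA D hD (ε / 4) (by positivity)
  obtain ⟨Z, hZ⟩ := nuc_choi ψ hψ
  set P : Fin N → Fin N → B := fun i j => ∑ k, star (Z k i * e) * (Z k j * e) with hP
  set K : ℝ := ∑ i, ∑ j, ‖P i j‖ with hK
  have hK0 : 0 ≤ K := by positivity
  obtain ⟨Q, c, hc, hca⟩ := nuc_approx_cp hI ρ hρ φ hφ hne D hD
    (show 0 < ε / (4 * (K + 1)) by positivity)
  refine ⟨Q * N, N, fun p i => c (finProdFinEquiv.symm p).1 i,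
    fun p i => Z (finProdFinEquiv.symm p).2 i * e,
    fun p i => ⟨hc _ i, hI.mul_mem_left _ _ heI⟩, fun a ha => ?_⟩
  have e1 : ∑ p : Fin (Q * N), ∑ i, ∑ j,
      φ (star (c (finProdFinEquiv.symm p).1 i) * a * c (finProdFinEquiv.symm p).1 j) •
        (star (Z (finProdFinEquiv.symm p).2 i * e) * (Z (finProdFinEquiv.symm p).2 j * e))
      = ∑ i, ∑ j, (∑ q, φ (star (c q i) * a * c q j)) • P i j := by
    rw [← finProdFinEquiv.sum_comp]
    simp only [Equiv.symm_apply_apply, hP, Finset.sum_smul, Finset.smul_sum]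
    rw [Finset.sum_comm]
    refine Finset.sum_congr rfl fun i _ => ?_
    rw [Finset.sum_comm]
    refine Finset.sum_congr rfl fun j _ => ?_
    rw [Fintype.sum_prod_type, Finset.sum_comm]
  have e2 : e * ψ (ρ a) * e = ∑ i, ∑ j, ρ a i j • P i j := by
    simp only [hZ (ρ a), hP, Finset.mul_sum, Finset.sum_mul, Finset.smul_sum, mul_smul_comm,
      smul_mul_assoc, star_mul, hes.star_eq, mul_assoc]
  have h1 : ‖∑ i, ∑ j, (∑ q, φ (star (c q i) * a * c q j)) • P i j - e * ψ (ρ a) * e‖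
      ≤ ε / (4 * (K + 1)) * K := by
    rw [e2, ← Finset.sum_sub_distrib, hK, Finset.mul_sum]
    refine norm_sum_le_of_le _ fun i _ => ?_
    rw [← Finset.sum_sub_distrib, Finset.mul_sum]
    refine norm_sum_le_of_le _ fun j _ => ?_
    rw [← sub_smul, norm_smul, norm_sub_rev]
    exact mul_le_mul_of_nonneg_right (hca a ha i j) (norm_nonneg _)
  have h2 : ‖e * ψ (ρ a) * e - e * a * e‖ ≤ ε / 4 := by
    rw [← sub_mul, ← mul_sub]
    calc ‖e * (ψ (ρ a) - a) * e‖ ≤ ‖e‖ * ‖ψ (ρ a) - a‖ * ‖e‖ :=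
          (norm_mul_le _ _).trans (by gcongr; exact norm_mul_le _ _)
      _ ≤ 1 * (ε / 4) * 1 := by gcongr; exact happ a ha
      _ = _ := by ring
  have h3 : ε / (4 * (K + 1)) * K ≤ ε / 4 := by
    rw [div_mul_eq_mul_div, div_le_div_iff₀ (by positivity) (by norm_num)]
    nlinarith
  rw [e1]
  refine (norm_sub_le_norm_sub_add_norm_sub _ (e * ψ (ρ a) * e) _).trans ?_
  refine (add_le_add (h1.trans h3)
    ((norm_sub_le_norm_sub_add_norm_sub _ (e * a * e) _).trans (add_le_add h2 (he a ha)))).trans ?_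
  linarith

/-- A unital simple algebra is a simple ideal of itself. -/
theorem nuc_isSimpleIdeal_univ {A : Type*} [CStarAlgebra A] [IsSimpleRing A] :
    IsSimpleIdeal (Set.univ : Set A) where
  zero_mem := trivial
  add_mem _ _ _ _ := trivial
  smul_mem _ _ _ := trivial
  mul_mem_left _ _ _ := trivial
  mul_mem_right _ _ _ := trivial
  star_mem _ _ := trivial
  closed := isClosed_univ
  simple x _ hx y _ ε hε := by
    let S : Set A := {z | ∃ (n : ℕ) (a c : Fin n → A), ∑ i, a i * x * c i = z}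
    have hadd : ∀ {p q}, p ∈ S → q ∈ S → p + q ∈ S := by
      rintro _ _ ⟨n, a, c, rfl⟩ ⟨m, a', c', rfl⟩
      exact ⟨n + m, Fin.append a a', Fin.append c c', by simp [Fin.sum_univ_add]⟩
    let J : TwoSidedIdeal A := TwoSidedIdeal.mk' S ⟨0, Fin.elim0, Fin.elim0, by simp⟩ hadd
      (by rintro _ ⟨n, a, c, rfl⟩; exact ⟨n, fun i => -a i, c, by simp⟩)
      (by rintro b _ ⟨n, a, c, rfl⟩
          exact ⟨n, fun i => b * a i, c, by simp [Finset.mul_sum, mul_assoc]⟩)
      (by rintro _ b ⟨n, a, c, rfl⟩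
          exact ⟨n, a, fun i => c i * b, by simp [Finset.sum_mul, mul_assoc]⟩)
    have hxJ : x ∈ J := by
      rw [TwoSidedIdeal.mem_mk']
      exact ⟨1, fun _ => 1, fun _ => 1, by simp⟩
    have hJ : J = ⊤ := (eq_bot_or_eq_top J).resolve_left fun h => hx (by
      rw [h] at hxJ; simpa [TwoSidedIdeal.mem_bot] using hxJ)
    have hy : y ∈ J := by rw [hJ]; trivial
    rw [TwoSidedIdeal.mem_mk'] at hy
    obtain ⟨n, a, c, h⟩ := hy
    exact ⟨n, a, c, fun _ => ⟨trivial, trivial⟩, by simp [h, hε.le]⟩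

/-- The identity as a sum of compressions by one state. -/
theorem exists_decomposition {A : Type*} [CStarAlgebra A] [IsSimpleRing A] (hA : HasCPAP A)
    (φ : A →ₗ[ℂ] ℂ) (h1 : φ 1 = 1)
    (hφ : ∀ x, 0 ≤ (φ (star x * x)).re ∧ (φ (star x * x)).im = 0) (D : Finset A) {ε : ℝ}
    (hε : 0 < ε) :
    ∃ (L N : ℕ) (c d : Fin L → Fin N → A), ∀ a ∈ D,
      ‖∑ p, ∑ i, ∑ j, φ (star (c p i) * a * c p j) • (star (d p i) * d p j) - a‖ ≤ ε := by
  have hA' : HasCPAPOn (Set.univ : Set A) := fun D' _ δ hδ => by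
    obtain ⟨N, ρ, ψ, hρ, hψ, h⟩ := hA D' δ hδ
    exact ⟨N, ρ, ψ, fun k Y _ => hρ k Y, hψ, h⟩
  obtain ⟨L, N, c, d, -, h⟩ := exists_decompositionOn nuc_isSimpleIdeal_univ hA' φ hφ
    ⟨1, trivial, by simp [h1]⟩ D (fun _ _ => trivial) hε
  exact ⟨L, N, c, d, h⟩

end Main

end Vale.P095.SI
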