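import Vale.Agent.P095.SI.Excise
import Vale.Agent.P095.SI.Nuclear
import Vale.Agent.P101.Basic

/-!
# P095 (SI): the local form of property (SI) with orthogonality to translates (owner: helper19)

Decompose the identity on `D ∪ a* a ∪ {1}` as compressions by an excised state `φ`, fix a pair
`(b, c₀)` excising the coefficients, and let `u p = c₀ (q p) (t p)` with
`(u p)* (u p) ≈ e`: lossy comparison against `a = q c₀² q`, whose trace is bounded below by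
simplicity and centrality.  Then `s = ∑ c (u p) d`: cross terms die by `q p * q p' ≈ 0`, translates by
`b x θ b ≈ 0`, and `s* a s ≈ e a` gives centrality.
-/

namespace Vale.P095.SI

open Vale.P095.Tracial

variable {A : Type*} [CStarAlgebra A]

section Prelim

attribute [local instance] CStarAlgebra.spectralOrder CStarAlgebra.spectralOrderedRing

theorem loc_nonneg {a : A} (h : IsPos a) : 0 ≤ a := by
  obtain ⟨y, rfl⟩ := h
  exact star_mul_self_nonneg y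

theorem loc_isPos {a : A} (h : 0 ≤ a) : IsPos a :=
  CStarAlgebra.nonneg_iff_eq_star_mul_self.1 h

/-- The real part of a tracial state. -/
noncomputable def locTr (τ : TracialState A) : A →ₗ[ℝ] ℝ := τ.toTraceFun.real

theorem locTr_trace (τ : TracialState A) : IsTrace (locTr τ) := τ.toTraceFun.isTrace_real

theorem locTr_one (τ : TracialState A) : locTr τ 1 = 1 := by
  show (τ.toLin 1).re = 1
  simp [τ.map_one]

theorem abs_locTr_le (τ : TracialState A) (z : A) : |locTr τ z| ≤ 2 * ‖z‖ :=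
  (Complex.abs_re_le_norm _).trans (τ.norm_apply_le z)

theorem loc_exists_sum [IsSimpleRing A] {c : A} (hc : c ≠ 0) :
    ∃ (n : ℕ) (x y : Fin n → A), ∑ i, x i * c * y i = 1 := by
  let I : TwoSidedIdeal A := TwoSidedIdeal.mk' (Vale.P101.twoSided ({c} : Set A) : Set A)
    (zero_mem _) (fun h h' => add_mem h h') (fun h => neg_mem h)
    (fun h => Vale.P101.left_mem_twoSided h _) (fun h => Vale.P101.right_mem_twoSided h _)
  have h1 : (1 : A) ∈ I := IsSimpleRing.one_mem_of_ne_zero_mem I hc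
    ((TwoSidedIdeal.mem_mk' ..).2 (Vale.P101.subset_twoSided (Set.mem_singleton c)))
  obtain ⟨n, u, s, v, hs, hsum⟩ := Vale.P101.Full.exists_sum
    (show Vale.P101.Full ({c} : Set A) from (TwoSidedIdeal.mem_mk' ..).1 h1)
  simp only [Set.mem_singleton_iff] at hs
  simp only [hs] at hsum
  exact ⟨n, u, v, hsum⟩

theorem locTr_le_dimFn (τ : TracialState A) {a : A} (ha : 0 ≤ a) (ha1 : ‖a‖ ≤ 1) :
    locTr τ a ≤ dimFn τ a := by
  have hle : ∀ m : ℕ, cfc (fun r : ℝ => max 0 (min 1 ((m + 1) * r))) a ≤ 1 := fun m =>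
    cfc_le_one _ _ fun r _ => max_le zero_le_one (min_le_left _ _)
  have hbdd : BddAbove (Set.range fun m : ℕ =>
      (τ.toLin (cfc (fun r : ℝ => max 0 (min 1 ((m + 1) * r))) a)).re) := by
    refine ⟨1, ?_⟩
    rintro _ ⟨m, rfl⟩
    exact ((locTr_trace τ).mono (hle m)).trans (locTr_one τ).le
  refine le_trans (le_of_eq ?_) (le_ciSup hbdd 0)
  rcases subsingleton_or_nontrivial A with h | h
  · exact congrArg (fun z => locTr τ z) (Subsingleton.elim _ _)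
  show locTr τ a = locTr τ _
  congr 1
  conv_lhs => rw [← cfc_id' ℝ a ha.isSelfAdjoint]
  refine cfc_congr fun r hr => ?_
  have h0 : 0 ≤ r := spectrum_nonneg_of_nonneg ha hr
  have h1 : r ≤ 1 := ((le_abs_self r).trans
    (Real.norm_eq_abs r ▸ spectrum.norm_le_norm_of_mem hr)).trans ha1
  simp only [CharP.cast_eq_zero, zero_add, one_mul]
  rw [min_eq_right h1, max_eq_right h0]

theorem dimFn_cut_le (τ : TracialState A) {e : A} (he : 0 ≤ e) {r₀ : ℝ} (hr : 0 < r₀) :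
    dimFn τ (cfc (fun r : ℝ => max 0 (r - r₀)) e) ≤ locTr τ e / r₀ := by
  refine ciSup_le fun m => ?_
  rw [← cfc_comp' (fun r : ℝ => max 0 (min 1 ((m + 1) * r))) (fun r : ℝ => max 0 (r - r₀)) e
    (by fun_prop) (by fun_prop) he.isSelfAdjoint]
  have h : cfc (fun r : ℝ => max 0 (min 1 ((m + 1) * max 0 (r - r₀)))) e ≤ r₀⁻¹ • e := by
    rw [← cfc_const_mul_id r₀⁻¹ e he.isSelfAdjoint]
    refine cfc_mono (fun r hr' => ?_) (by fun_prop) (by fun_prop)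
    have h0 : 0 ≤ r := spectrum_nonneg_of_nonneg he hr'
    rcases le_total r r₀ with h | h
    · rw [max_eq_left (sub_nonpos.2 h), mul_zero, min_eq_right zero_le_one, max_self]
      positivity
    · refine max_le (by positivity) ((min_le_left _ _).trans ?_)
      rw [le_inv_mul_iff₀ hr, mul_one]
      exact h
  have := (locTr_trace τ).mono h
  rw [map_smul, smul_eq_mul] at this
  rw [div_eq_inv_mul]
  exact this

/-- A cut subequivalence has a bounded implementing element. -/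
theorem loc_cut {e a : A} (he : 0 ≤ e) (he1 : ‖e‖ ≤ 1) (ha : 0 ≤ a) {δ ε' : ℝ} (hδ : 0 < δ)
    (hε' : 0 < ε') (hle : CuntzLE (cfc (fun r : ℝ => max 0 (r - ε')) e)
      (cfc (fun r : ℝ => max 0 (r - δ)) a)) :
    ∃ t : A, ‖star t * a * t - e‖ ≤ 2 * ε' ∧ ‖t‖ ^ 2 ≤ (1 + 2 * ε') / δ := by
  set a₁ : A := cfc (fun r : ℝ => max 0 (r - δ)) a with hadef
  set e₁ : A := cfc (fun r : ℝ => max 0 (r - ε')) e with hedef
  obtain ⟨w, hw⟩ := hle ε' hε'
  have hee : ‖e₁ - e‖ ≤ ε' := by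
    rw [hedef]
    conv_lhs => arg 1; arg 2; rw [← cfc_id' ℝ e he.isSelfAdjoint]
    rw [← cfc_sub _ _ e (by fun_prop) (by fun_prop)]
    refine norm_cfc_le hε'.le fun r hr => ?_
    have h0 := spectrum_nonneg_of_nonneg he hr
    rw [Real.norm_eq_abs, abs_le]
    rcases le_total r ε' with h1 | h1
    · rw [max_eq_left (sub_nonpos.2 h1)]
      constructor <;> linarith
    · rw [max_eq_right (sub_nonneg.2 h1)]
      constructor <;> linarith
  have hwe : ‖star w * a₁ * w - e‖ ≤ 2 * ε' := by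
    have := norm_sub_le_norm_sub_add_norm_sub (star w * a₁ * w) e₁ e
    linarith
  set m : ℝ → ℝ := fun r => √(max 0 (r - δ) / max r δ) with hm
  have hmc : Continuous m := Real.continuous_sqrt.comp ((continuous_const.max
    (continuous_id.sub continuous_const)).div (continuous_id.max continuous_const)
      fun r => (lt_max_of_lt_right hδ).ne')
  have hmon := hmc.continuousOn (s := spectrum ℝ a)
  have hms : star (cfc m a) = cfc m a := (cfc_predicate m a : IsSelfAdjoint _).star_eq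
  refine ⟨cfc m a * w, ?_, ?_⟩
  · have e1 : star (cfc m a * w) * a * (cfc m a * w) = star w * a₁ * w := by
      rw [star_mul, hms]
      have e2 : cfc m a * a * cfc m a = a₁ := by
        conv_lhs => arg 1; arg 2; rw [← cfc_id' ℝ a ha.isSelfAdjoint]
        rw [← cfc_mul m (fun r => r) a hmon continuousOn_id,
          ← cfc_mul (fun r => m r * r) m a (hmon.mul continuousOn_id) hmon]
        refine cfc_congr fun r hr => ?_
        simp only [hm]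
        rw [mul_right_comm, Real.mul_self_sqrt (div_nonneg (le_max_left _ _)
          (le_max_of_le_right hδ.le))]
        rcases le_total r δ with h1 | h1
        · rw [max_eq_left (sub_nonpos.2 h1), zero_div, zero_mul]
        · rw [max_eq_left h1, div_mul_cancel₀ _ (hδ.trans_le h1).ne']
      rw [← e2]
      simp only [mul_assoc]
    rw [e1]
    exact hwe
  · have hle : cfc m a * cfc m a ≤ δ⁻¹ • a₁ := by
      rw [← cfc_mul m m a hmon hmon, hadef, ← cfc_const_mul δ⁻¹ _ a (by fun_prop)]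
      refine cfc_mono (fun r hr => ?_) (hmon.mul hmon) (by fun_prop)
      simp only [hm]
      rw [Real.mul_self_sqrt (div_nonneg (le_max_left _ _) (le_max_of_le_right hδ.le)),
        div_eq_inv_mul]
      exact mul_le_mul_of_nonneg_right (inv_anti₀ hδ (le_max_right _ _)) (le_max_left _ _)
    have h1 := star_left_conjugate_le_conjugate hle w
    rw [mul_smul_comm, smul_mul_assoc] at h1
    have hP : 0 ≤ star w * (cfc m a * cfc m a) * w :=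
      star_left_conjugate_nonneg (by rw [← cfc_mul m m a hmon hmon]
                                     exact cfc_nonneg fun r _ => mul_self_nonneg _) w
    have hnorm := CStarAlgebra.norm_le_norm_of_nonneg_of_le hP h1
    rw [show star w * (cfc m a * cfc m a) * w = star (cfc m a * w) * (cfc m a * w) by
        rw [star_mul, hms]; simp only [mul_assoc],
      CStarRing.norm_star_mul_self, norm_smul, Real.norm_eq_abs, abs_of_pos (inv_pos.2 hδ)] at hnorm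
    rw [sq, div_eq_inv_mul]
    refine hnorm.trans (mul_le_mul_of_nonneg_left ?_ (inv_nonneg.2 hδ.le))
    have := norm_sub_norm_le (star w * a₁ * w) e
    linarith

/-- `θ` is a threshold for `δ` and `ε`. -/
def LossyAt (A : Type*) [CStarAlgebra A] (δ ε θ : ℝ) : Prop :=
  ∀ e a : A, IsPos e → ‖e‖ ≤ 1 → IsPos a → ‖a‖ ≤ 1 →
    (∀ τ : TracialState A, (τ.toLin e).re < θ) → (∀ τ : TracialState A, δ ≤ (τ.toLin a).re) →
    CuntzLE (cfc (fun r : ℝ => max 0 (r - ε)) e) a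

/-- Comparison, with a bounded implementing element. -/
theorem loc_compare {e a : A}
    (he : 0 ≤ e) (he1 : ‖e‖ ≤ 1) (ha : 0 ≤ a) (ha1 : ‖a‖ ≤ 1) {δ ε' θ : ℝ} (hδ : 0 < δ)
    (hε' : 0 < ε') (hθ : LossyAt A δ ε' θ) (h : ∀ τ, locTr τ e < θ) (h' : ∀ τ, 2 * δ ≤ locTr τ a) :
    ∃ t : A, ‖star t * a * t - e‖ ≤ 2 * ε' ∧ ‖t‖ ^ 2 ≤ (1 + 2 * ε') / δ := by
  set a₁ : A := cfc (fun r : ℝ => max 0 (r - δ)) a with hadef
  set e₁ : A := cfc (fun r : ℝ => max 0 (r - ε')) e with hedef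
  have hspec : ∀ r ∈ spectrum ℝ a, 0 ≤ r ∧ r ≤ 1 := fun r hr =>
    ⟨spectrum_nonneg_of_nonneg ha hr, by
      rcases subsingleton_or_nontrivial A with hs | hs
      · simp [spectrum.of_subsingleton] at hr
      exact ((le_abs_self r).trans
        (Real.norm_eq_abs r ▸ spectrum.norm_le_norm_of_mem hr)).trans ha1⟩
  have ha₁ : 0 ≤ a₁ := cfc_nonneg fun r _ => le_max_left _ _
  have ha₁' : ‖a₁‖ ≤ 1 := norm_cfc_le zero_le_one fun r hr => by
    rw [Real.norm_eq_abs, abs_of_nonneg (le_max_left _ _)]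
    exact max_le zero_le_one (by linarith [(hspec r hr).2])
  have hlow : ∀ τ, δ ≤ locTr τ a₁ := fun τ => by
    have hle : a - δ • 1 ≤ a₁ := by
      rw [hadef, show a - δ • (1 : A) = cfc (fun r : ℝ => r - δ) a by
        rw [cfc_sub (fun r : ℝ => r) (fun _ => δ) a continuousOn_id continuousOn_const,
          cfc_id' ℝ a ha.isSelfAdjoint, cfc_const δ a ha.isSelfAdjoint,
          Algebra.algebraMap_eq_smul_one]]
      exact cfc_mono (fun r _ => le_max_right _ _) (by fun_prop) (by fun_prop)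
    have := (locTr_trace τ).mono hle
    rw [map_sub, map_smul, smul_eq_mul, locTr_one, mul_one] at this
    linarith [h' τ]
  exact loc_cut he he1 ha hδ hε' (hθ e a₁ (loc_isPos he) he1
    (loc_isPos ha₁) ha₁' h hlow)

theorem loc_norm_mul_le {a b : A} {r s : ℝ} (ha : ‖a‖ ≤ r) (hb : ‖b‖ ≤ s) : ‖a * b‖ ≤ r * s :=
  (norm_mul_le a b).trans (mul_le_mul ha hb (norm_nonneg _) ((norm_nonneg _).trans ha))

/-- Simplicity and centrality bound the trace of `q c² q` from below. -/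
theorem loc_trace_lower (τ : TracialState A) {q c : A} (hq : 0 ≤ q) (hq1 : ‖q‖ ≤ 1)
    (hc : IsSelfAdjoint c) (hc1 : ‖c‖ ≤ 1) {n : ℕ} (x y : Fin n → A)
    (hxy : ∑ i, x i * c * y i = 1) {η κ : ℝ} (hκ : 0 ≤ κ) (_hη : 0 ≤ η)
    (hx : ∀ i, ‖q * x i - x i * q‖ ≤ η ∧ ‖q * y i - y i * q‖ ≤ η) (hqκ : κ ≤ locTr τ q)
    (hηκ : 4 * η * (∑ i, (‖x i‖ + ‖y i‖)) ≤ κ ^ 2) :
    κ ^ 4 ≤ 16 * (1 + ∑ i, ‖y i * x i‖) ^ 2 * locTr τ (q * (c * c) * q) := by
  have ht := locTr_trace τ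
  have hqs := hq.isSelfAdjoint
  have h1 : κ ^ 2 ≤ locTr τ (q * q) := by
    have := ht.cauchy_schwarz_sa (IsSelfAdjoint.one A) hqs
    rw [one_mul, one_mul, locTr_one, one_mul] at this
    exact (pow_le_pow_left₀ hκ hqκ 2).trans this
  set b : A := q * c * q with hb
  set a : A := q * (c * c) * q with ha
  have hbs : IsSelfAdjoint b := by
    rw [IsSelfAdjoint, hb, star_mul, star_mul, hqs.star_eq, hc.star_eq, mul_assoc]
  have hqq : q * q ≤ 1 := by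
    refine (CStarAlgebra.norm_le_one_iff_of_nonneg _ ?_).1 ?_
    · simpa [hqs.star_eq] using star_mul_self_nonneg q
    · simpa using loc_norm_mul_le hq1 hq1
  have hbb : locTr τ (b * b) ≤ locTr τ a := by
    refine ht.mono ?_
    have := star_left_conjugate_le_conjugate hqq (c * q)
    simpa [hb, ha, star_mul, hqs.star_eq, hc.star_eq, mul_assoc] using this
  have hb0 : 0 ≤ locTr τ a := (ht.sq_nonneg hbs).trans hbb
  have hterm : ∀ i, locTr τ (q * (x i * c * y i) * q) ≤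
      √(locTr τ a) * (2 * ‖y i * x i‖) + 2 * (η * (‖x i‖ + ‖y i‖)) := by
    intro i
    have herr : ‖q * (x i * c * y i) * q - x i * b * y i‖ ≤ η * (‖x i‖ + ‖y i‖) := by
      have e : q * (x i * c * y i) * q - x i * b * y i =
          (q * x i - x i * q) * (c * (y i * q)) - x i * (q * (c * (q * y i - y i * q))) := by
        rw [hb]; noncomm_ring
      rw [e]
      refine (norm_sub_le _ _).trans ?_
      have b1 : ‖c * (y i * q)‖ ≤ ‖y i‖ := by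
        simpa using loc_norm_mul_le hc1 (loc_norm_mul_le (le_refl ‖y i‖) hq1)
      have b2 : ‖q * (c * (q * y i - y i * q))‖ ≤ η := by
        simpa using loc_norm_mul_le hq1 (loc_norm_mul_le hc1 (hx i).2)
      have b3 := loc_norm_mul_le (hx i).1 b1
      have b4 := loc_norm_mul_le (le_refl ‖x i‖) b2
      linarith
    have h2 : |locTr τ (b * (y i * x i))| ≤ √(locTr τ a) * (2 * ‖y i * x i‖) := by
      have hcs := ht.cauchy_schwarz b (y i * x i)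
      rw [hbs.star_eq] at hcs
      have h3 : locTr τ (star (y i * x i) * (y i * x i)) ≤ (2 * ‖y i * x i‖) ^ 2 := by
        refine ((le_abs_self _).trans (abs_locTr_le τ _)).trans ?_
        rw [CStarRing.norm_star_mul_self]
        nlinarith [norm_nonneg (y i * x i)]
      refine abs_le_of_sq_le_sq ?_ (by positivity)
      rw [mul_pow, Real.sq_sqrt hb0]
      exact hcs.trans (mul_le_mul hbb h3 (ht.nonneg _) hb0)
    have h4 := (le_abs_self _).trans ((abs_locTr_le τ _).trans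
      (mul_le_mul_of_nonneg_left herr zero_le_two))
    rw [map_sub, mul_assoc (x i) b, ht.comm (x i), mul_assoc b] at h4
    linarith [le_abs_self (locTr τ (b * (y i * x i)))]
  have hsum : locTr τ (q * q) ≤ √(locTr τ a) * (2 * ∑ i, ‖y i * x i‖) +
      2 * (η * ∑ i, (‖x i‖ + ‖y i‖)) := by
    calc locTr τ (q * q) = ∑ i, locTr τ (q * (x i * c * y i) * q) := by
          rw [← map_sum, ← Finset.sum_mul, ← Finset.mul_sum, hxy, mul_one]
      _ ≤ _ := Finset.sum_le_sum fun i _ => hterm i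
      _ = _ := by rw [Finset.sum_add_distrib, Finset.mul_sum, Finset.mul_sum, Finset.mul_sum,
            Finset.mul_sum]
  have hs := Real.sqrt_nonneg (locTr τ a)
  set K := ∑ i, ‖y i * x i‖ with hK
  have hK0 : 0 ≤ K := Finset.sum_nonneg fun i _ => norm_nonneg _
  have h5 : κ ^ 2 ≤ 4 * (√(locTr τ a) * K) := by nlinarith
  calc κ ^ 4 = (κ ^ 2) ^ 2 := by ring
    _ ≤ (4 * (√(locTr τ a) * K)) ^ 2 := pow_le_pow_left₀ (by positivity) h5 2
    _ = 16 * K ^ 2 * locTr τ a := by rw [mul_pow, mul_pow, Real.sq_sqrt hb0]; ring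
    _ ≤ _ := by gcongr; linarith

theorem loc_norm_sum_le {P : Type*} [Fintype P] (d e : P → A) (B : P → P → A) (r : ℝ)
    (h : ∀ i j, ‖B i j‖ ≤ r) :
    ‖∑ i, ∑ j, star (d i) * B i j * e j‖ ≤ (∑ i, ‖d i‖) * r * ∑ j, ‖e j‖ := by
  rw [Finset.sum_mul, Finset.sum_mul]
  refine (norm_sum_le _ _).trans (Finset.sum_le_sum fun i _ => ?_)
  rw [Finset.mul_sum]
  refine (norm_sum_le _ _).trans (Finset.sum_le_sum fun j _ => ?_)
  have h0 : 0 ≤ r := (norm_nonneg _).trans (h i j)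
  refine (norm_mul_le _ _).trans (mul_le_mul_of_nonneg_right ?_ (norm_nonneg _))
  simpa using loc_norm_mul_le (le_refl ‖star (d i)‖) (h i j)

end Prelim

section Main

attribute [local instance] CStarAlgebra.spectralOrder CStarAlgebra.spectralOrderedRing

theorem loc_expand {P : Type*} [Fintype P] (c d : P → A) (u : P → A) (a : A) :
    star (∑ i, c i * u i * d i) * a * (∑ j, c j * u j * d j) =
      ∑ i, ∑ j, star (d i) * (star (u i) * (star (c i) * a * c j) * u j) * d j := by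
  rw [star_sum, Finset.sum_mul, Finset.sum_mul]
  refine Finset.sum_congr rfl fun i _ => ?_
  rw [Finset.mul_sum]
  refine Finset.sum_congr rfl fun j _ => ?_
  simp only [star_mul, mul_assoc]

/-- One piece. -/
theorem loc_piece {e q c₀ : A}
    (he : 0 ≤ e) (he1 : ‖e‖ ≤ 1) (hq : 0 ≤ q) (hq1 : ‖q‖ ≤ 1) (hc : IsSelfAdjoint c₀)
    (hc1 : ‖c₀‖ ≤ 1) {n : ℕ} (x y : Fin n → A) (hxy : ∑ i, x i * c₀ * y i = 1)
    {η κ ε' δ θ : ℝ} (hκ : 0 < κ) (hη : 0 ≤ η) (hε' : 0 < ε') (hδ : 0 < δ)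
    (hθ : LossyAt A δ ε' θ)
    (hδκ : 32 * (1 + ∑ i, ‖y i * x i‖) ^ 2 * δ ≤ κ ^ 4) (hηδ : η < θ)
    (hηκ : 4 * η * ∑ i, (‖x i‖ + ‖y i‖) ≤ κ ^ 2)
    (hx : ∀ i, ‖q * x i - x i * q‖ ≤ η ∧ ‖q * y i - y i * q‖ ≤ η)
    (htr : ∀ τ : TracialState A, locTr τ e ≤ η ∧ κ ≤ locTr τ q) :
    ∃ t : A, ‖star (c₀ * q * t) * (c₀ * q * t) - e‖ ≤ 2 * ε' ∧ ‖t‖ ^ 2 ≤ (1 + 2 * ε') / δ := by
  have ha : 0 ≤ q * (c₀ * c₀) * q := by
    refine hq.isSelfAdjoint.conjugate_nonneg ?_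
    simpa [hc.star_eq] using star_mul_self_nonneg c₀
  have ha1 : ‖q * (c₀ * c₀) * q‖ ≤ 1 := by
    simpa using loc_norm_mul_le (loc_norm_mul_le hq1 (loc_norm_mul_le hc1 hc1)) hq1
  obtain ⟨t, h1, h2⟩ := loc_compare he he1 ha ha1 hδ hε' hθ
    (fun τ => (htr τ).1.trans_lt hηδ) fun τ => by
      have h := hδκ.trans (loc_trace_lower τ hq hq1 hc hc1 x y hxy hκ.le hη hx (htr τ).2 hηκ)
      have hK : 0 ≤ ∑ i, ‖y i * x i‖ := Finset.sum_nonneg fun i _ => norm_nonneg _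
      have hKp : (0 : ℝ) < 16 * (1 + ∑ i, ‖y i * x i‖) ^ 2 := by positivity
      nlinarith
  refine ⟨t, ?_, h2⟩
  have e1 : star (c₀ * q * t) * (c₀ * q * t) = star t * (q * (c₀ * c₀) * q) * t := by
    simp only [star_mul, hq.isSelfAdjoint.star_eq, hc.star_eq, mul_assoc]
  rw [e1]
  exact h1

/-- Different pieces are orthogonal. -/
theorem loc_cross {q q' c₀ t t' z : A} {η R : ℝ} (hq : IsSelfAdjoint q) (hc : IsSelfAdjoint c₀)
    (hq' : ‖q'‖ ≤ 1) (ht : ‖t‖ ≤ R) (ht' : ‖t'‖ ≤ R) (hqq : ‖q * q'‖ ≤ η)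
    (hz : ‖q * (c₀ * z * c₀) - c₀ * z * c₀ * q‖ ≤ η) :
    ‖star (c₀ * q * t) * z * (c₀ * q' * t')‖ ≤ η * (1 + ‖c₀ * z * c₀‖) * R ^ 2 := by
  set Y : A := c₀ * z * c₀ with hY
  have e1 : star (c₀ * q * t) * z * (c₀ * q' * t') =
      star t * ((q * Y - Y * q) * q' + Y * (q * q')) * t' := by
    rw [show (q * Y - Y * q) * q' + Y * (q * q') = q * Y * q' by noncomm_ring]
    simp only [hY, star_mul, hq.star_eq, hc.star_eq, mul_assoc]
  rw [e1]
  have h := loc_norm_mul_le (loc_norm_mul_le ((norm_star t).trans_le ht)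
    ((norm_add_le _ _).trans (add_le_add (loc_norm_mul_le hz hq')
      (loc_norm_mul_le (le_refl ‖Y‖) hqq)))) ht'
  linarith

/-- The compressions add up. -/
theorem loc_compress {L N : ℕ} (c d : Fin L → Fin N → A) (u : Fin L → A) (φ : A →ₗ[ℂ] ℂ)
    {a e : A} {ε₀ η₁ η Φ : ℝ} (he1 : ‖e‖ ≤ 1) (_hη : 0 ≤ η) (hΦ : 0 ≤ Φ)
    (hmat : ∀ P Q : Fin L × Fin N, ‖star (u P.1) * (star (c P.1 P.2) * a * c Q.1 Q.2) * u Q.1 -
      (if P.1 = Q.1 then φ (star (c P.1 P.2) * a * c Q.1 Q.2) • e else 0)‖ ≤ η₁)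
    (hφ : ∀ P Q : Fin L × Fin N, ‖φ (star (c P.1 P.2) * a * c Q.1 Q.2)‖ ≤ Φ)
    (hcomm : ∀ P : Fin L × Fin N, ‖e * star (d P.1 P.2) - star (d P.1 P.2) * e‖ ≤ η)
    (hdec : ‖∑ p, ∑ i, ∑ j, φ (star (c p i) * a * c p j) • (star (d p i) * d p j) - a‖ ≤ ε₀) :
    ‖star (∑ P : Fin L × Fin N, c P.1 P.2 * u P.1 * d P.1 P.2) * a *
        (∑ P : Fin L × Fin N, c P.1 P.2 * u P.1 * d P.1 P.2) - e * a‖ ≤
      (∑ P : Fin L × Fin N, ‖d P.1 P.2‖) * η₁ * (∑ P : Fin L × Fin N, ‖d P.1 P.2‖) +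
        η * (Φ * (∑ P : Fin L × Fin N, ‖d P.1 P.2‖) * Fintype.card (Fin L × Fin N)) + ε₀ := by
  classical
  set d' : Fin L × Fin N → A := fun P => d P.1 P.2 with hd'
  set ψ : Fin L × Fin N → Fin L × Fin N → ℂ := fun P Q =>
    if P.1 = Q.1 then φ (star (c P.1 P.2) * a * c Q.1 Q.2) else 0 with hψ
  have h1 : ‖star (∑ P : Fin L × Fin N, c P.1 P.2 * u P.1 * d' P) * a *
      (∑ P : Fin L × Fin N, c P.1 P.2 * u P.1 * d' P) -
      ∑ P, ∑ Q, star (d' P) * (ψ P Q • e) * d' Q‖ ≤ (∑ P, ‖d' P‖) * η₁ * ∑ P, ‖d' P‖ := by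
    rw [loc_expand]
    simp only [← Finset.sum_sub_distrib, ← sub_mul, ← mul_sub]
    refine loc_norm_sum_le d' d' _ η₁ fun P Q => ?_
    have h := hmat P Q
    simp only [hψ]
    split_ifs with hp
    · rwa [if_pos hp] at h
    · rw [if_neg hp] at h; rwa [zero_smul]
  have h2 : ‖∑ P, ∑ Q, star (d' P) * (ψ P Q • e) * d' Q -
      e * ∑ P, ∑ Q, ψ P Q • (star (d' P) * d' Q)‖ ≤
      η * (Φ * (∑ P, ‖d' P‖) * Fintype.card (Fin L × Fin N)) := by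
    simp only [Finset.mul_sum, ← Finset.sum_sub_distrib]
    calc _ ≤ ∑ P : Fin L × Fin N, ∑ Q : Fin L × Fin N, Φ * (η * ‖d' Q‖) := by
          refine (norm_sum_le _ _).trans (Finset.sum_le_sum fun P _ =>
            (norm_sum_le _ _).trans (Finset.sum_le_sum fun Q _ => ?_))
          rw [show star (d' P) * (ψ P Q • e) * d' Q - e * (ψ P Q • (star (d' P) * d' Q)) =
            ψ P Q • ((star (d' P) * e - e * star (d' P)) * d' Q) by
            simp only [mul_smul_comm, smul_mul_assoc, sub_mul, smul_sub, mul_assoc], norm_smul]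
          refine mul_le_mul ?_ (loc_norm_mul_le ?_ le_rfl) (norm_nonneg _) hΦ
          · simp only [hψ]
            split_ifs
            · exact hφ P Q
            · simpa using hΦ
          · rw [norm_sub_rev]
            exact hcomm P
      _ = _ := by
          simp only [← Finset.mul_sum, Finset.sum_const, Finset.card_univ, nsmul_eq_mul]
          ring
  have h3 : ‖e * ∑ P, ∑ Q, ψ P Q • (star (d' P) * d' Q) - e * a‖ ≤ ε₀ := by
    rw [← mul_sub]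
    have e3 : ∑ P, ∑ Q, ψ P Q • (star (d' P) * d' Q) =
        ∑ p, ∑ i, ∑ j, φ (star (c p i) * a * c p j) • (star (d p i) * d p j) := by
      rw [Fintype.sum_prod_type]
      refine Finset.sum_congr rfl fun p _ => Finset.sum_congr rfl fun i _ => ?_
      rw [Fintype.sum_prod_type, Finset.sum_eq_single p (fun p' _ hne => by
        simp [hψ, Ne.symm hne]) (by simp)]
      simp [hψ, hd']
    rw [e3]
    simpa using loc_norm_mul_le he1 hdec
  have t1 := norm_sub_le_norm_sub_add_norm_sub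
    (star (∑ P : Fin L × Fin N, c P.1 P.2 * u P.1 * d' P) * a *
      (∑ P : Fin L × Fin N, c P.1 P.2 * u P.1 * d' P))
    (∑ P, ∑ Q, star (d' P) * (ψ P Q • e) * d' Q) (e * a)
  have t2 := norm_sub_le_norm_sub_add_norm_sub (∑ P, ∑ Q, star (d' P) * (ψ P Q • e) * d' Q)
    (e * ∑ P, ∑ Q, ψ P Q • (star (d' P) * d' Q)) (e * a)
  simp only [hd'] at t1 t2 h1 h2 h3
  linarith

/-- Centrality from the compressions. -/
theorem loc_central {s a e : A} {ρ : ℝ} (he : IsSelfAdjoint e) (h1 : ‖star s * s - e‖ ≤ ρ)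
    (h2 : ‖star s * a * s - e * a‖ ≤ ρ)
    (h3 : ‖star s * (star a * a) * s - e * (star a * a)‖ ≤ ρ)
    (h4 : ‖e * star a - star a * e‖ ≤ ρ) :
    ‖s * a - a * s‖ ^ 2 ≤ ρ * (1 + ‖a‖) ^ 2 + ρ * ‖a‖ := by
  have key : star (s * a - a * s) * (s * a - a * s) =
      star a * (star s * s - e) * a - star a * (star s * a * s - e * a) -
        star (star s * a * s - e * a) * a + (star s * (star a * a) * s - e * (star a * a)) +
        (e * star a - star a * e) * a := by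
    simp only [star_sub, star_mul, star_star, he.star_eq]
    noncomm_ring
  rw [sq, ← CStarRing.norm_star_mul_self, key]
  have b1 := loc_norm_mul_le (loc_norm_mul_le (norm_star a).le h1) (le_refl ‖a‖)
  have b2 := loc_norm_mul_le (norm_star a).le h2
  have b3 := loc_norm_mul_le ((norm_star _).trans_le h2) (le_refl ‖a‖)
  have b4 := loc_norm_mul_le h4 (le_refl ‖a‖)
  refine (norm_add_le _ _).trans ((add_le_add ((norm_add_le _ _).trans
    (add_le_add ((norm_sub_le _ _).trans (add_le_add ((norm_sub_le _ _).trans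
      (add_le_add b1 b2)) b3)) h3)) b4).trans ?_)
  linarith

/-- The pieces sit below `f`. -/
theorem loc_below {f C q t d : A} {η R M : ℝ} (hM : ‖C‖ ≤ M) (hq : ‖q‖ ≤ 1) (ht : ‖t‖ ≤ R)
    (hf : ‖f * C - C * f‖ ≤ η) (hfq : ‖f * q - q‖ ≤ η) :
    ‖f * (C * q * t * d) - C * q * t * d‖ ≤ η * (1 + M) * R * ‖d‖ := by
  rw [show f * (C * q * t * d) - C * q * t * d =
    ((f * C - C * f) * q + C * (f * q - q)) * t * d by noncomm_ring]
  refine loc_norm_mul_le (loc_norm_mul_le ?_ ht) le_rfl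
  refine (norm_add_le _ _).trans ?_
  have b1 := loc_norm_mul_le hf hq
  have b2 := loc_norm_mul_le hM hfq
  linarith

/-- Translates of pieces carried by `b`. -/
theorem loc_translate (θ : A ≃⋆ₐ[ℂ] A) {b u u' z : A} {η : ℝ} (hb : IsSelfAdjoint b)
    (hu : b * u = u) (hu' : b * u' = u') (h : ‖b * z * θ b‖ ≤ η) (h1 : ‖u‖ ^ 2 ≤ 2)
    (h2 : ‖u'‖ ^ 2 ≤ 2) : ‖star u * z * θ u'‖ ≤ 2 * η := by
  have e : star u * z * θ u' = star u * (b * z * θ b) * θ u' := by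
    conv_lhs => rw [← hu', map_mul, ← hu, star_mul, hb.star_eq]
    simp only [mul_assoc]
  rw [e]
  refine (loc_norm_mul_le (loc_norm_mul_le (norm_star u).le h)
    (StarAlgEquiv.norm_map θ u').le).trans ?_
  have h0 : 0 ≤ η := (norm_nonneg _).trans h
  calc ‖u‖ * η * ‖u'‖ = η * (‖u‖ * ‖u'‖) := by ring
    _ ≤ η * 2 := mul_le_mul_of_nonneg_left
        (by nlinarith [two_mul_le_add_sq ‖u‖ ‖u'‖]) h0
    _ = 2 * η := mul_comm _ _

/-- The matrix of the pieces. -/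
theorem loc_matrix {L : ℕ} {b c₀ e : A} {X : Finset A} (φ : A →ₗ[ℂ] ℂ) (q t : Fin L → A)
    {η η₁ ε' Φ R Nx : ℝ} (hq : ∀ p, IsSelfAdjoint (q p) ∧ ‖q p‖ ≤ 1) (hc : IsSelfAdjoint c₀)
    (hbc : b * c₀ = c₀) (ht : ∀ p, ‖t p‖ ≤ R) (hqq : ∀ p p', p ≠ p' → ‖q p * q p'‖ ≤ η)
    (hcX : ∀ z ∈ X, ∀ p, ‖q p * (c₀ * z * c₀) - c₀ * z * c₀ * q p‖ ≤ η)
    (hexc : ∀ z ∈ X, ∀ y : A, b * y = y →
      ‖star y * z * y - φ z • (star y * y)‖ ≤ η₁ / 4 * ‖y‖ ^ 2)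
    (he : ∀ p, ‖star (c₀ * q p * t p) * (c₀ * q p * t p) - e‖ ≤ 2 * ε')
    (hu2 : ∀ p, ‖c₀ * q p * t p‖ ^ 2 ≤ 2) (hΦ : ∀ z ∈ X, ‖φ z‖ ≤ Φ)
    (hη₁ : 0 ≤ η₁) (hη : 0 ≤ η) (hΦ' : Φ * (4 * ε') ≤ η₁)
    (hNx : ∀ z ∈ X, 1 + ‖c₀ * z * c₀‖ ≤ Nx) (hη' : η * Nx * R ^ 2 ≤ η₁) :
    ∀ z ∈ X, ∀ p p', ‖star (c₀ * q p * t p) * z * (c₀ * q p' * t p') -
      (if p = p' then φ z • e else 0)‖ ≤ η₁ := by
  intro z hz p p'
  split_ifs with hp
  · subst hp
    have h1 := hexc z hz (c₀ * q p * t p) (by simp only [← mul_assoc, hbc])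
    have h2 : ‖φ z • (star (c₀ * q p * t p) * (c₀ * q p * t p)) - φ z • e‖ ≤ Φ * (2 * ε') := by
      rw [← smul_sub, norm_smul]
      exact mul_le_mul (hΦ z hz) (he p) (norm_nonneg _) ((norm_nonneg _).trans (hΦ z hz))
    have h3 := mul_le_mul_of_nonneg_left (hu2 p) (show 0 ≤ η₁ / 4 by positivity)
    have h5 := norm_sub_le_norm_sub_add_norm_sub (star (c₀ * q p * t p) * z * (c₀ * q p * t p))
      (φ z • (star (c₀ * q p * t p) * (c₀ * q p * t p))) (φ z • e)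
    linarith
  · rw [sub_zero]
    refine (loc_cross (q := q p) (q' := q p') (t := t p) (t' := t p') (z := z) (hq p).1 hc (hq p').2
      (ht p) (ht p') (hqq p p' hp) (hcX z hz p)).trans (le_trans ?_ hη')
    gcongr
    exact hNx z hz

/-- The element of the local property. -/
theorem loc_finish {L N : ℕ} (c d : Fin L → Fin N → A) (q t : Fin L → A) (φ : A →ₗ[ℂ] ℂ)
    {ι : Type*} (θ : ι → A ≃⋆ₐ[ℂ] A) (D : Finset A) (T : Finset ι) {b c₀ e f : A}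
    {ε ε₀ η η₁ Φ R S K M : ℝ} (D₁ : Finset A) (hD₁ : ∀ a ∈ D, a ∈ D₁ ∧ star a * a ∈ D₁)
    (h1D : (1 : A) ∈ D₁) (he : IsSelfAdjoint e) (he1 : ‖e‖ ≤ 1) (hb : IsSelfAdjoint b)
    (hbc : b * c₀ = c₀) (hη : 0 ≤ η) (hηε : η ≤ ε₀) (hΦ : 0 ≤ Φ) (hη₁ : 0 ≤ η₁)
    (hS : ∑ P : Fin L × Fin N, ‖d P.1 P.2‖ ≤ S) (hR : 0 ≤ R)
    (hSη : (∑ P : Fin L × Fin N, ‖d P.1 P.2‖) * η₁ * (∑ P : Fin L × Fin N, ‖d P.1 P.2‖) ≤ ε₀)
    (hW : η * (Φ * (∑ P : Fin L × Fin N, ‖d P.1 P.2‖) * Fintype.card (Fin L × Fin N)) ≤ ε₀)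
    (hε₀ : ε₀ ≤ ε / 4) (hK : ε₀ * (6 * K ^ 2) ≤ ε ^ 2) (hKa : ∀ a ∈ D, 1 + ‖a‖ ≤ K)
    (_hε : 0 ≤ ε) (hM : ∀ P : Fin L × Fin N, 1 + ‖c P.1 P.2 * c₀‖ ≤ M) (hM0 : 0 ≤ M)
    (hbelow : η * M * R * S ≤ ε) (hq : ∀ p, ‖q p‖ ≤ 1) (ht : ∀ p, ‖t p‖ ≤ R)
    (hu2 : ∀ p, ‖c₀ * q p * t p‖ ^ 2 ≤ 2)
    (hmat : ∀ a ∈ D₁, ∀ P Q : Fin L × Fin N,
      ‖star (c₀ * q P.1 * t P.1) * (star (c P.1 P.2) * a * c Q.1 Q.2) * (c₀ * q Q.1 * t Q.1) -
      (if P.1 = Q.1 then φ (star (c P.1 P.2) * a * c Q.1 Q.2) • e else 0)‖ ≤ η₁)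
    (hφ : ∀ a ∈ D₁, ∀ P Q : Fin L × Fin N, ‖φ (star (c P.1 P.2) * a * c Q.1 Q.2)‖ ≤ Φ)
    (hdec : ∀ a ∈ D₁,
      ‖∑ p, ∑ i, ∑ j, φ (star (c p i) * a * c p j) • (star (d p i) * d p j) - a‖ ≤ ε₀)
    (hstar : ∀ a ∈ D, ‖e * star a - star a * e‖ ≤ η)
    (hcd : ∀ P : Fin L × Fin N, ‖e * star (d P.1 P.2) - star (d P.1 P.2) * e‖ ≤ η)
    (hcC : ∀ P : Fin L × Fin N, ‖f * (c P.1 P.2 * c₀) - c P.1 P.2 * c₀ * f‖ ≤ η)
    (hfq : ∀ p, ‖f * q p - q p‖ ≤ η)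
    (horth : ∀ i ∈ T, ∀ P Q : Fin L × Fin N,
      ‖b * (star (c P.1 P.2) * θ i (c Q.1 Q.2)) * θ i b‖ ≤ η₁ / 4) :
    ∃ s : A, ‖star s * s - e‖ ≤ ε ∧ (∀ a ∈ D, ‖s * a - a * s‖ ≤ ε) ∧ ‖f * s - s‖ ≤ ε ∧
      ∀ i ∈ T, ‖star s * θ i s‖ ≤ ε := by
  set u : Fin L → A := fun p => c₀ * q p * t p with hu
  set s : A := ∑ P : Fin L × Fin N, c P.1 P.2 * u P.1 * d P.1 P.2 with hs
  have hcompr : ∀ a ∈ D₁, ‖star s * a * s - e * a‖ ≤ 3 * ε₀ := fun a ha => by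
    refine (loc_compress c d u φ he1 hη hΦ (hmat a ha) (hφ a ha) hcd (hdec a ha)).trans ?_
    linarith
  have hss : ‖star s * s - e‖ ≤ 3 * ε₀ := by simpa using hcompr 1 h1D
  refine ⟨s, hss.trans (by linarith), fun a ha => ?_, ?_, fun i hi => ?_⟩
  · have h := loc_central (s := s) (a := a) (ρ := 3 * ε₀) he hss (hcompr a (hD₁ a ha).1)
      (hcompr _ (hD₁ a ha).2) ((hstar a ha).trans (by linarith))
    have hε₀' : 0 ≤ ε₀ := hη.trans hηε
    have h5 : (1 + ‖a‖) ^ 2 + ‖a‖ ≤ 2 * K ^ 2 := by nlinarith [norm_nonneg a, hKa a ha]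
    nlinarith [norm_nonneg (s * a - a * s), mul_le_mul_of_nonneg_left h5 hε₀']
  · rw [hs, Finset.mul_sum, ← Finset.sum_sub_distrib]
    calc _ ≤ ∑ P : Fin L × Fin N, η * M * R * ‖d P.1 P.2‖ := by
          refine (norm_sum_le _ _).trans (Finset.sum_le_sum fun P _ => ?_)
          rw [show c P.1 P.2 * u P.1 * d P.1 P.2 = c P.1 P.2 * c₀ * q P.1 * t P.1 * d P.1 P.2 by
            simp only [hu, mul_assoc]]
          refine (loc_below (le_refl ‖c P.1 P.2 * c₀‖) (hq P.1) (ht _) (hcC P) (hfq P.1)).trans ?_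
          gcongr
          exact hM P
      _ = η * M * R * ∑ P : Fin L × Fin N, ‖d P.1 P.2‖ := by rw [Finset.mul_sum]
      _ ≤ η * M * R * S := mul_le_mul_of_nonneg_left hS (by positivity)
      _ ≤ ε := hbelow
  · have e1 : star s * θ i s = ∑ P : Fin L × Fin N, ∑ Q : Fin L × Fin N, star (d P.1 P.2) *
        (star (u P.1) * (star (c P.1 P.2) * θ i (c Q.1 Q.2)) * θ i (u Q.1)) * θ i (d Q.1 Q.2) := by
      rw [hs, map_sum, star_sum, Finset.sum_mul]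
      refine Finset.sum_congr rfl fun P _ => ?_
      rw [Finset.mul_sum]
      refine Finset.sum_congr rfl fun Q _ => ?_
      simp only [map_mul, star_mul, mul_assoc]
    rw [e1]
    refine (loc_norm_sum_le (fun P : Fin L × Fin N => d P.1 P.2)
      (fun Q : Fin L × Fin N => θ i (d Q.1 Q.2)) _ η₁ fun P Q => ?_).trans ?_
    · exact (loc_translate (θ i) hb (by simp only [← mul_assoc, hbc])
        (by simp only [← mul_assoc, hbc]) (horth i hi P Q) (hu2 _) (hu2 _)).trans (by linarith)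
    · simp only [StarAlgEquiv.norm_map]
      exact hSη.trans (by linarith)

theorem loc_exists_small {a ε₀ k η₁ ε A₁ A₂ A₃ A₄ : ℝ} (ha : 0 < a) (h₀ : 0 < ε₀) (hk : 0 < k)
    (h₁ : 0 < η₁) (hε : 0 < ε) (p₁ : 0 < A₁) (p₂ : 0 < A₂) (p₃ : 0 < A₃) (p₄ : 0 < A₄) :
    ∃ η : ℝ, 0 < η ∧ η * A₁ ≤ k ∧ η < a ∧ η ≤ ε₀ ∧ η * A₂ ≤ η₁ ∧ η * A₃ ≤ ε₀ ∧ η * A₄ ≤ ε := by
  refine ⟨min (min (k / A₁) (a / 2)) (min (min ε₀ (η₁ / A₂)) (min (ε₀ / A₃) (ε / A₄))),
    ?_, (le_div_iff₀ p₁).1 ((min_le_left _ _).trans (min_le_left _ _)),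
    ((min_le_left _ _).trans (min_le_right _ _)).trans_lt (half_lt_self ha),
    (min_le_right _ _).trans ((min_le_left _ _).trans (min_le_left _ _)),
    (le_div_iff₀ p₂).1 ((min_le_right _ _).trans ((min_le_left _ _).trans (min_le_right _ _))),
    (le_div_iff₀ p₃).1 ((min_le_right _ _).trans ((min_le_right _ _).trans (min_le_left _ _))),
    (le_div_iff₀ p₄).1 ((min_le_right _ _).trans ((min_le_right _ _).trans (min_le_right _ _)))⟩
  repeat' apply lt_min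
  all_goals positivity

theorem si_local [Nontrivial A] [IsSimpleRing A] [TopologicalSpace.SeparableSpace A]
    (hA : HasCPAP A) (hcmp : HasLossyComparison A) {ι : Type*} [Countable ι] (θ : ι → A ≃⋆ₐ[ℂ] A)
    (hθ : ∀ i, IsOrth (θ i)) (D : Finset A) (T : Finset ι) {ε : ℝ} (hε : 0 < ε) :
    ∃ L : ℕ, ∀ κ : ℝ, 0 < κ → ∃ (D' : Finset A) (η : ℝ), 0 < η ∧
      ∀ (e f : A) (q : Fin L → A), IsPos e → ‖e‖ ≤ 1 → IsPos f → ‖f‖ ≤ 1 →
        (∀ p, IsPos (q p) ∧ ‖q p‖ ≤ 1) →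
        (∀ a ∈ D', ‖e * a - a * e‖ ≤ η ∧ ‖f * a - a * f‖ ≤ η ∧
          ∀ p, ‖q p * a - a * q p‖ ≤ η) →
        (∀ τ : TracialState A, (τ.toLin e).re ≤ η ∧ ∀ p, κ ≤ (τ.toLin (q p)).re) →
        (∀ p p', p ≠ p' → ‖q p * q p'‖ ≤ η) → (∀ p, ‖f * q p - q p‖ ≤ η) →
        ∃ s : A, ‖star s * s - e‖ ≤ ε ∧ (∀ a ∈ D, ‖s * a - a * s‖ ≤ ε) ∧ ‖f * s - s‖ ≤ ε ∧
          ∀ i ∈ T, ‖star s * θ i s‖ ≤ ε := by
  classical
  obtain ⟨φ, hφ1, hφ, hexc⟩ := exists_excision θ hθ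
  obtain ⟨K, hK⟩ : ∃ r : ℝ, r = 1 + ∑ a ∈ D, ‖a‖ := ⟨_, rfl⟩
  have hD0 : 0 ≤ ∑ a ∈ D, ‖a‖ := Finset.sum_nonneg fun a _ => norm_nonneg a
  have hK1 : 1 ≤ K := by linarith
  obtain ⟨ε₀, hε₀⟩ : ∃ r : ℝ, r = min (ε / 4) (ε ^ 2 / (6 * K ^ 2)) := ⟨_, rfl⟩
  have hε₀0 : 0 < ε₀ := hε₀ ▸ lt_min (by positivity) (by positivity)
  set D₁ : Finset A := D ∪ D.image (fun a => star a * a) ∪ {1} with hD₁
  obtain ⟨L, N, c, d, hdec⟩ := exists_decomposition hA φ hφ1 hφ D₁ hε₀0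
  refine ⟨L, fun κ hκ => ?_⟩
  set PP : Finset ((Fin L × Fin N) × (Fin L × Fin N)) := Finset.univ with hPP
  set X : Finset A := (D₁ ×ˢ PP).image
      (fun z => star (c z.2.1.1 z.2.1.2) * z.1 * c z.2.2.1 z.2.2.2) ∪
    (T ×ˢ PP).image (fun z => star (c z.2.1.1 z.2.1.2) * θ z.1 (c z.2.2.1 z.2.2.2)) with hX
  obtain ⟨S, hS⟩ : ∃ r : ℝ, r = 1 + ∑ P : Fin L × Fin N, ‖d P.1 P.2‖ := ⟨_, rfl⟩
  have hd0 : 0 ≤ ∑ P : Fin L × Fin N, ‖d P.1 P.2‖ := Finset.sum_nonneg fun P _ => norm_nonneg _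
  obtain ⟨Φ, hΦ⟩ : ∃ r : ℝ, r = 1 + ∑ x ∈ X, ‖φ x‖ := ⟨_, rfl⟩
  have hΦ0 : 0 ≤ ∑ x ∈ X, ‖φ x‖ := Finset.sum_nonneg fun x _ => norm_nonneg _
  obtain ⟨η₁, hη₁⟩ : ∃ r : ℝ, r = ε₀ / S ^ 2 := ⟨_, rfl⟩
  obtain ⟨ε', hε'⟩ : ∃ r : ℝ, r = min (1 / 2) (η₁ / (4 * Φ)) := ⟨_, rfl⟩
  have hη₁0 : 0 < η₁ := hη₁ ▸ div_pos hε₀0 (pow_pos (by linarith) 2)
  have hε'0 : 0 < ε' := hε' ▸ lt_min one_half_pos (div_pos hη₁0 (by linarith))
  obtain ⟨b, c₀, hbc, hexc', horth⟩ := hexc X T (η₁ / 4) (by positivity)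
  have hb := (loc_nonneg hbc.pos_b).isSelfAdjoint
  have hc₀ := (loc_nonneg hbc.pos_c).isSelfAdjoint
  obtain ⟨n, x, y, hxy⟩ := loc_exists_sum (norm_pos_iff.1 (hbc.norm_c ▸ one_pos) : c₀ ≠ 0)
  obtain ⟨K₂, hK₂⟩ : ∃ r : ℝ, r = 1 + ∑ i, ‖y i * x i‖ := ⟨_, rfl⟩
  have hK₂0 : 0 ≤ ∑ i, ‖y i * x i‖ := Finset.sum_nonneg fun i _ => norm_nonneg _
  obtain ⟨δ, hδ⟩ : ∃ r : ℝ, r = κ ^ 4 / (32 * K₂ ^ 2) := ⟨_, rfl⟩
  have hδ0 : 0 < δ := hδ ▸ div_pos (pow_pos hκ 4) (mul_pos (by norm_num) (pow_pos (by linarith) 2))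
  obtain ⟨R, hR⟩ : ∃ r : ℝ, r = 1 + 2 / δ := ⟨_, rfl⟩
  obtain ⟨Nc, hNc⟩ : ∃ r : ℝ, r = 1 + ∑ P : Fin L × Fin N, ‖c P.1 P.2 * c₀‖ := ⟨_, rfl⟩
  obtain ⟨Nx, hNx⟩ : ∃ r : ℝ, r = 1 + ∑ z ∈ X, ‖c₀ * z * c₀‖ := ⟨_, rfl⟩
  obtain ⟨Nxy, hNxy⟩ : ∃ r : ℝ, r = 1 + ∑ i, (‖x i‖ + ‖y i‖) := ⟨_, rfl⟩
  obtain ⟨W, hW⟩ : ∃ r : ℝ, r = 1 + Φ * (∑ P : Fin L × Fin N, ‖d P.1 P.2‖) * Fintype.card (Fin L × Fin N) := ⟨_, rfl⟩
  have hsNc : 0 ≤ ∑ P : Fin L × Fin N, ‖c P.1 P.2 * c₀‖ :=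
    Finset.sum_nonneg fun P _ => norm_nonneg _
  have hsNx : 0 ≤ ∑ z ∈ X, ‖c₀ * z * c₀‖ := Finset.sum_nonneg fun P _ => norm_nonneg _
  have hsNxy : 0 ≤ ∑ i, (‖x i‖ + ‖y i‖) :=
    Finset.sum_nonneg fun P _ => add_nonneg (norm_nonneg _) (norm_nonneg _)
  obtain ⟨θ₀, hθ₀, hlossy⟩ := hcmp δ ε' hδ0 hε'0
  obtain ⟨η, hη0, hη_a, hη_b, hη_c, hη_d, hη_e, hη_f⟩ : ∃ η : ℝ, 0 < η ∧
      η * (4 * Nxy) ≤ κ ^ 2 ∧ η < θ₀ ∧ η ≤ ε₀ ∧ η * (2 * Nx * R ^ 2) ≤ η₁ ∧ η * W ≤ ε₀ ∧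
      η * (2 * S * Nc * R) ≤ ε := by
    have p1 : 0 < κ ^ 2 := pow_pos hκ 2
    have p2 : 0 < Nxy := by linarith
    have p3 : 0 < Nx := by linarith
    have p4 : 0 < R := by linarith [show 0 ≤ 2 / δ by positivity]
    have hΦ1 : 0 ≤ Φ := by linarith
    have hcard : (0 : ℝ) ≤ Fintype.card (Fin L × Fin N) := Nat.cast_nonneg _
    have hW0 := mul_nonneg (mul_nonneg hΦ1 hd0) hcard
    have p5 : 0 < W := by linarith
    have p6 : 0 < S := by linarith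
    have p7 : 0 < Nc := by linarith
    exact loc_exists_small hθ₀ hε₀0 p1 hη₁0 hε (by positivity) (by positivity) p5
      (by positivity)
  have hε'h : ε' ≤ 1 / 2 := hε'.le.trans (min_le_left _ _)
  have hε'Φ : ε' * (4 * Φ) ≤ η₁ :=
    (le_div_iff₀ (by linarith)).1 (hε'.le.trans (min_le_right _ _))
  have hε4 : ε₀ ≤ ε / 4 := hε₀.le.trans (min_le_left _ _)
  have hεK : ε₀ * (6 * K ^ 2) ≤ ε ^ 2 :=
    (le_div_iff₀ (by positivity)).1 (hε₀.le.trans (min_le_right _ _))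
  have hδκ : 32 * (1 + ∑ i, ‖y i * x i‖) ^ 2 * δ ≤ κ ^ 4 := by
    rw [hδ, hK₂]; exact le_of_eq (by field_simp)
  refine ⟨D.image (fun a => star a) ∪
    Finset.univ.image (fun P : Fin L × Fin N => star (d P.1 P.2)) ∪
    X.image (fun z => c₀ * z * c₀) ∪
    Finset.univ.image (fun P : Fin L × Fin N => c P.1 P.2 * c₀) ∪
    Finset.univ.image x ∪ Finset.univ.image y,
    η, hη0, fun e f q he he1 _ _ hq hcomm htr hqq hfq => ?_⟩
  simp only [Finset.mem_union, Finset.mem_image, Finset.mem_univ, true_and] at hcomm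
  have he0 := loc_nonneg he
  have hstar : ∀ a ∈ D, ‖e * star a - star a * e‖ ≤ η := fun a ha =>
    (hcomm _ (Or.inl (Or.inl (Or.inl (Or.inl (Or.inl ⟨a, ha, rfl⟩)))))).1
  have hcd : ∀ P : Fin L × Fin N, ‖e * star (d P.1 P.2) - star (d P.1 P.2) * e‖ ≤ η := fun P =>
    (hcomm _ (Or.inl (Or.inl (Or.inl (Or.inl (Or.inr ⟨P, rfl⟩)))))).1
  have hcX : ∀ z ∈ X, ∀ p, ‖q p * (c₀ * z * c₀) - c₀ * z * c₀ * q p‖ ≤ η := fun z hz p =>
    (hcomm _ (Or.inl (Or.inl (Or.inl (Or.inr ⟨z, hz, rfl⟩))))).2.2 p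
  have hcC : ∀ P : Fin L × Fin N, ‖f * (c P.1 P.2 * c₀) - c P.1 P.2 * c₀ * f‖ ≤ η := fun P =>
    (hcomm _ (Or.inl (Or.inl (Or.inr ⟨P, rfl⟩)))).2.1
  have hcxy : ∀ p i, ‖q p * x i - x i * q p‖ ≤ η ∧ ‖q p * y i - y i * q p‖ ≤ η := fun p i =>
    ⟨(hcomm _ (Or.inl (Or.inr ⟨i, rfl⟩))).2.2 p, (hcomm _ (Or.inr ⟨i, rfl⟩)).2.2 p⟩
  clear hcomm
  -- the pieces
  have hpiece := fun p => loc_piece he0 he1 (loc_nonneg (hq p).1) (hq p).2 hc₀
    hbc.norm_c.le x y hxy hκ hη0.le hε'0 hδ0 hlossy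
    hδκ hη_b (by rw [hNxy] at hη_a; linarith [hη0]) (hcxy p)
    (fun τ => ⟨(htr τ).1, (htr τ).2 p⟩)
  choose t ht1 ht2 using hpiece
  have htR : ∀ p, ‖t p‖ ≤ R := fun p => by
    have h2 : (1 + 2 * ε') / δ ≤ 2 / δ := by gcongr; linarith
    nlinarith [norm_nonneg (t p), ht2 p]
  have hu2 : ∀ p, ‖c₀ * q p * t p‖ ^ 2 ≤ 2 := fun p => by
    rw [sq, ← CStarRing.norm_star_mul_self]
    linarith [norm_sub_norm_le (star (c₀ * q p * t p) * (c₀ * q p * t p)) e, ht1 p]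
  have hΦz : ∀ z ∈ X, ‖φ z‖ ≤ Φ := fun z hz => by
    linarith [Finset.single_le_sum (fun w _ => norm_nonneg (φ w)) hz (f := fun w => ‖φ w‖)]
  have hz : ∀ a ∈ D₁, ∀ P Q : Fin L × Fin N, star (c P.1 P.2) * a * c Q.1 Q.2 ∈ X := fun a ha P Q =>
    Finset.mem_union_left _ (Finset.mem_image.2
      ⟨(a, (P, Q)), Finset.mem_product.2 ⟨ha, Finset.mem_univ _⟩, rfl⟩)
  have hmat := loc_matrix (Nx := 2 * Nx) φ q t
    (fun p => ⟨(loc_nonneg (hq p).1).isSelfAdjoint, (hq p).2⟩) hc₀ hbc.unit htR hqq hcX hexc' ht1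
    hu2 hΦz hη₁0.le hη0.le (by linarith) (fun z hz => by
      linarith [Finset.single_le_sum (fun w _ => norm_nonneg (c₀ * w * c₀)) hz
          (f := fun w => ‖c₀ * w * c₀‖)]) (by linarith)
  have hΦ1 : 0 ≤ Φ := by linarith
  have hR0 : 0 ≤ R := by linarith [show 0 ≤ 2 / δ by positivity]
  have hS0 : 0 ≤ S := by linarith
  refine loc_finish c d q t φ θ D T D₁ (K := K) (S := S) (M := 2 * Nc) (η₁ := η₁) (Φ := Φ)
    (fun a ha => ⟨Finset.mem_union_left _ (Finset.mem_union_left _ ha),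
      Finset.mem_union_left _ (Finset.mem_union_right _ (Finset.mem_image.2 ⟨a, ha, rfl⟩))⟩)
    (Finset.mem_union_right _ (Finset.mem_singleton_self 1)) he0.isSelfAdjoint he1 hb hbc.unit
    hη0.le hη_c hΦ1 hη₁0.le (by linarith) hR0 ?_ ?_ hε4 hεK (fun a ha => ?_) hε.le (fun P => ?_)
    (by linarith) (by linarith) (fun p => (hq p).2) htR hu2
    (fun a ha P Q => hmat _ (hz a ha P Q) P.1 Q.1) (fun a ha P Q => hΦz _ (hz a ha P Q)) hdec
    hstar hcd hcC hfq (fun i hi P Q => horth i hi _ (Finset.mem_union_right _ (Finset.mem_image.2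
      ⟨(i, (P, Q)), Finset.mem_product.2 ⟨hi, Finset.mem_univ _⟩, rfl⟩)))
  · have hSne : S ≠ 0 := by intro h; linarith
    calc _ ≤ S * η₁ * S := by gcongr <;> linarith
      _ = ε₀ := by rw [hη₁]; field_simp
  · refine le_trans (mul_le_mul_of_nonneg_left ?_ hη0.le) hη_e
    linarith
  · linarith [Finset.single_le_sum (fun b _ => norm_nonneg b) ha (f := fun b : A => ‖b‖)]
  · linarith [Finset.single_le_sum (fun Q _ => norm_nonneg (c Q.1 Q.2 * c₀))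
      (Finset.mem_univ P) (f := fun Q : Fin L × Fin N => ‖c Q.1 Q.2 * c₀‖)]

end Main

end Vale.P095.SI
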