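import Vale.Agent.P095.SI.Excise
import Vale.Agent.P095.SI.Dicho
import Vale.Agent.P095.SI.Local
import Vale.Agent.P095.SI.Lift
import Vale.Agent.P095.SI.Cosets
import Vale.Agent.P095.Finite.Main

/-!
# P095 (SI): averaging and the unital map from `Z(2,3)`

Recipe. `N = {g | AsympFix (α g)}` is a subgroup, all others are orthogonal. Layer cake: `G ⧸ N` has
Foelner sets. With representatives `F`, `v = |F|^{-1/2} ∑ α g s` has `v* v ≈ e`, is almost invariant
with error `|kF Δ F|^{1/2} / |F|^{1/2}`, and `x x* v ≈ v`; an epsilon-test gives exact relations.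
-/

namespace Vale.P095.SI

open Filter Topology
open scoped BoundedContinuousFunction
open Vale.P095.Tracial

variable {A : Type*} [CStarAlgebra A] {G : Type} [Group G]

/-- Common test data for finitely many asymptotically fixing automorphisms. -/
theorem exists_fix_data (α : G →* (A ≃⋆ₐ[ℂ] A)) (M : Finset G)
    (hM : ∀ m ∈ M, AsympFix (α m)) {ε : ℝ} (hε : 0 < ε) :
    ∃ (D : Finset A) (η : ℝ), 0 < η ∧ ∀ m ∈ M, ∀ z : A, ‖z‖ ≤ 2 →
      (∀ a ∈ D, ‖z * a - a * z‖ ≤ η) → ‖α m z - z‖ ≤ ε := by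
  classical
  induction M using Finset.induction_on with
  | empty => exact ⟨∅, 1, one_pos, fun m hm => absurd hm (Finset.notMem_empty m)⟩
  | insert m M hm ih =>
    obtain ⟨D, η, hη, h⟩ := ih fun k hk => hM k (Finset.mem_insert_of_mem hk)
    obtain ⟨D', η', hη', h'⟩ := hM m (Finset.mem_insert_self m M) ε hε
    refine ⟨D ∪ D', min η η', lt_min hη hη', fun k hk z hz hza => ?_⟩
    rcases Finset.mem_insert.1 hk with rfl | hk
    · exact h' z hz fun a ha => (hza a (Finset.mem_union_right D ha)).trans (min_le_right _ _)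
    · exact h k hk z hz fun a ha => (hza a (Finset.mem_union_left D' ha)).trans (min_le_left _ _)

theorem norm_aut (θ : A ≃⋆ₐ[ℂ] A) (a : A) : ‖θ a‖ = ‖a‖ := by
  refine le_antisymm (NonUnitalStarAlgHom.norm_apply_le θ a) ?_
  have := NonUnitalStarAlgHom.norm_apply_le θ.symm (θ a)
  rwa [θ.symm_apply_apply] at this

/-- A sum of almost orthogonal elements of norm at most about one. -/
theorem norm_sum_le_of_orth {ι : Type*} (E : Finset ι) (w : ι → A) {δ R : ℝ} (hδ : 0 ≤ δ)
    (hd : ∀ g ∈ E, ‖star (w g) * w g‖ ≤ R)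
    (ho : ∀ g ∈ E, ∀ h ∈ E, g ≠ h → ‖star (w g) * w h‖ ≤ δ) :
    ‖∑ g ∈ E, w g‖ ^ 2 ≤ E.card * R + (E.card : ℝ) ^ 2 * δ := by
  classical
  rw [sq, ← CStarRing.norm_star_mul_self, star_sum, Finset.sum_mul_sum]
  refine (norm_sum_le _ _).trans ((Finset.sum_le_sum (g := fun _ => R + (E.card : ℝ) * δ)
    fun g hg => ?_).trans_eq (by rw [Finset.sum_const, nsmul_eq_mul]; ring))
  rw [← Finset.add_sum_erase E _ hg]
  refine (norm_add_le _ _).trans (add_le_add (hd g hg) ((norm_sum_le _ _).trans ?_))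
  refine (Finset.sum_le_sum (g := fun _ => δ) fun h hh =>
    ho g hg h (Finset.mem_of_mem_erase hh) (Finset.ne_of_mem_erase hh).symm).trans ?_
  rw [Finset.sum_const, nsmul_eq_mul]
  exact mul_le_mul_of_nonneg_right (by exact_mod_cast Finset.card_le_card (Finset.erase_subset g E))
    hδ

theorem norm_star_mul_self_sub {θ : A →⋆ₐ[ℂ] A} {x : A} (hx : ‖x‖ ≤ 1) {η : ℝ}
    (h : ‖θ x - x‖ ≤ η) :
    ‖θ (star x * x) - star x * x‖ ≤ 2 * η ∧ ‖θ (x * star x) - x * star x‖ ≤ 2 * η := by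
  have hθ : ‖θ x‖ ≤ 1 := (NonUnitalStarAlgHom.norm_apply_le θ x).trans hx
  have hstar : ‖star (θ x) - star x‖ ≤ η := by rwa [← star_sub, norm_star]
  have hη : 0 ≤ η := (norm_nonneg _).trans h
  constructor
  · rw [map_mul, map_star, show star (θ x) * θ x - star x * x =
      (star (θ x) - star x) * θ x + star x * (θ x - x) by noncomm_ring]
    refine (norm_add_le _ _).trans ?_
    have h1 := norm_mul_le (star (θ x) - star x) (θ x)
    have h2 := norm_mul_le (star x) (θ x - x)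
    rw [norm_star] at h2
    nlinarith [norm_nonneg (θ x), norm_nonneg x, norm_nonneg (θ x - x),
      norm_nonneg (star (θ x) - star x)]
  · rw [map_mul, map_star, show θ x * star (θ x) - x * star x =
      θ x * (star (θ x) - star x) + (θ x - x) * star x by noncomm_ring]
    refine (norm_add_le _ _).trans ?_
    have h1 := norm_mul_le (θ x) (star (θ x) - star x)
    have h2 := norm_mul_le (θ x - x) (star x)
    rw [norm_star] at h2
    nlinarith [norm_nonneg (θ x), norm_nonneg x, norm_nonneg (θ x - x),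
      norm_nonneg (star (θ x) - star x)]

/-- `|F|^(-1/2) • ∑ w`. -/
noncomputable def avgSum {ι : Type*} (F : Finset ι) (w : ι → A) : A :=
  (Real.sqrt (F.card : ℝ))⁻¹ • ∑ g ∈ F, w g

theorem avgSum_norm {ι : Type*} (F : Finset ι) (w : ι → A) :
    ‖avgSum F w‖ = (Real.sqrt (F.card : ℝ))⁻¹ * ‖∑ g ∈ F, w g‖ := by
  rw [avgSum, norm_smul, Real.norm_of_nonneg (by positivity)]

theorem coef_mul_self {ι : Type*} (F : Finset ι) :
    (Real.sqrt (F.card : ℝ))⁻¹ * (Real.sqrt (F.card : ℝ))⁻¹ = (F.card : ℝ)⁻¹ := by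
  rw [← mul_inv, Real.mul_self_sqrt (Nat.cast_nonneg _)]

theorem coef_mul_card_le {ι : Type*} {F : Finset ι} (hF : F.Nonempty) :
    (Real.sqrt (F.card : ℝ))⁻¹ * F.card ≤ F.card := by
  refine mul_le_of_le_one_left (Nat.cast_nonneg _) (inv_le_one_of_one_le₀ ?_)
  exact Real.one_le_sqrt.2 (by exact_mod_cast hF.card_pos)

theorem avgSum_gram {ι : Type*} [DecidableEq ι] {F : Finset ι} (hF : F.Nonempty)
    (w : ι → A) (e : A) {δ R : ℝ} (hδ : 0 ≤ δ) (hd : ∀ g ∈ F, ‖star (w g) * w g - e‖ ≤ R)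
    (ho : ∀ g ∈ F, ∀ h ∈ F, g ≠ h → ‖star (w g) * w h‖ ≤ δ) :
    ‖star (avgSum F w) * avgSum F w - e‖ ≤ R + (F.card : ℝ) * δ := by
  have hn : (0 : ℝ) < F.card := by exact_mod_cast hF.card_pos
  have e1 : star (avgSum F w) * avgSum F w - e = (F.card : ℝ)⁻¹ •
      ∑ g ∈ F, ((star (w g) * w g - e) + ∑ h ∈ F.erase g, star (w g) * w h) := by
    have e2 : star (avgSum F w) * avgSum F w =
        (F.card : ℝ)⁻¹ • ∑ g ∈ F, (star (w g) * w g + ∑ h ∈ F.erase g, star (w g) * w h) := by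
      rw [avgSum, star_smul, star_trivial, smul_mul_smul_comm, coef_mul_self, star_sum,
        Finset.sum_mul_sum]
      exact congrArg _ (Finset.sum_congr rfl fun g hg => (Finset.add_sum_erase F _ hg).symm)
    rw [e2, ← sub_eq_zero]
    simp only [Finset.sum_add_distrib, Finset.sum_sub_distrib, Finset.sum_const, smul_add,
      smul_sub, ← Nat.cast_smul_eq_nsmul ℝ, smul_smul, inv_mul_cancel₀ hn.ne', one_smul]
    abel
  rw [e1, norm_smul, norm_inv, Real.norm_of_nonneg hn.le, inv_mul_le_iff₀ hn]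
  refine (norm_sum_le _ _).trans ((Finset.sum_le_sum (g := fun _ => R + (F.card : ℝ) * δ)
    fun g hg => ?_).trans_eq (by rw [Finset.sum_const, nsmul_eq_mul]))
  refine (norm_add_le _ _).trans (add_le_add (hd g hg) ((norm_sum_le _ _).trans ?_))
  refine (Finset.sum_le_sum (g := fun _ => δ) fun h hh => ho g hg h
    (Finset.mem_of_mem_erase hh) (Finset.ne_of_mem_erase hh).symm).trans ?_
  rw [Finset.sum_const, nsmul_eq_mul]
  exact mul_le_mul_of_nonneg_right
    (Nat.cast_le.2 (Finset.card_le_card (Finset.erase_subset g F))) hδ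

theorem avgSum_left_fix {ι : Type*} {F : Finset ι} (hF : F.Nonempty) (w : ι → A) (f : A)
    {R : ℝ} (hR : 0 ≤ R) (h : ∀ g ∈ F, ‖f * w g - w g‖ ≤ R) :
    ‖f * avgSum F w - avgSum F w‖ ≤ (F.card : ℝ) * R := by
  rw [avgSum, mul_smul_comm, Finset.mul_sum, ← smul_sub, ← Finset.sum_sub_distrib, norm_smul,
    Real.norm_of_nonneg (by positivity)]
  refine (mul_le_mul_of_nonneg_left ((norm_sum_le _ _).trans (Finset.sum_le_sum h))
    (by positivity)).trans ?_
  rw [Finset.sum_const, nsmul_eq_mul, ← mul_assoc]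
  exact mul_le_mul_of_nonneg_right (coef_mul_card_le hF) hR

theorem avgSum_commute {ι : Type*} {F : Finset ι} (hF : F.Nonempty) (w : ι → A) (a : A)
    {R : ℝ} (hR : 0 ≤ R) (h : ∀ g ∈ F, ‖w g * a - a * w g‖ ≤ R) :
    ‖avgSum F w * a - a * avgSum F w‖ ≤ (F.card : ℝ) * R := by
  rw [avgSum, smul_mul_assoc, mul_smul_comm, Finset.sum_mul, Finset.mul_sum, ← smul_sub,
    ← Finset.sum_sub_distrib, norm_smul, Real.norm_of_nonneg (by positivity)]
  refine (mul_le_mul_of_nonneg_left ((norm_sum_le _ _).trans (Finset.sum_le_sum h))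
    (by positivity)).trans ?_
  rw [Finset.sum_const, nsmul_eq_mul, ← mul_assoc]
  exact mul_le_mul_of_nonneg_right (coef_mul_card_le hF) hR

theorem avgSum_invariant {ι : Type*} [DecidableEq ι] {F E₀ : Finset ι} (hF : F.Nonempty)
    (hE : E₀ ⊆ F) (σ : ι → ι) (hinj : Set.InjOn σ E₀) (hσ : ∀ g ∈ E₀, σ g ∈ F) (w : ι → A)
    (θ : A ≃⋆ₐ[ℂ] A) {δ t : ℝ} (hδ : 0 ≤ δ) (ht : 0 ≤ t)
    (hmove : ∀ g ∈ E₀, ‖θ (w g) - w (σ g)‖ ≤ δ)
    (hd : ∀ g ∈ F, ‖star (w g) * w g‖ ≤ 2)
    (ho : ∀ g ∈ F, ∀ h ∈ F, g ≠ h → ‖star (w g) * w h‖ ≤ δ)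
    (hcard : ((F \ E₀).card : ℝ) * (2 + F.card * δ) ≤ t ^ 2 * F.card) :
    ‖θ (avgSum F w) - avgSum F w‖ ≤ (F.card : ℝ) * δ + 2 * t := by
  set c : ℝ := (Real.sqrt (F.card : ℝ))⁻¹
  have hc : 0 ≤ c := by positivity
  have hσF : E₀.image σ ⊆ F := fun h hh => by
    obtain ⟨g, hg, rfl⟩ := Finset.mem_image.1 hh
    exact hσ g hg
  have e1 : θ (avgSum F w) - avgSum F w = c • ((∑ g ∈ E₀, (θ (w g) - w (σ g))) +
      (θ (∑ g ∈ F \ E₀, w g) - ∑ h ∈ F \ E₀.image σ, w h)) := by
    have a1 : ∑ g ∈ F, w g = (∑ g ∈ F \ E₀, w g) + ∑ g ∈ E₀, w g := (Finset.sum_sdiff hE).symm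
    have a2 : ∑ g ∈ F, w g = (∑ h ∈ F \ E₀.image σ, w h) + ∑ g ∈ E₀, w (σ g) := by
      rw [← Finset.sum_image hinj, Finset.sum_sdiff hσF]
    have a3 : θ (avgSum F w) = c • θ (∑ g ∈ F, w g) := by
      rw [avgSum, ← Complex.coe_smul, map_smul, Complex.coe_smul]
    rw [a3, avgSum, ← smul_sub]
    conv_lhs => rw [a1]; arg 2; arg 2; rw [← a1, a2]
    rw [map_add, map_sum θ _ E₀, Finset.sum_sub_distrib]
    exact congrArg _ (by abel)
  have hb : ∀ E ⊆ F, E.card = (F \ E₀).card → c * ‖∑ g ∈ E, w g‖ ≤ t := by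
    intro E hEF hEc
    have h2 := norm_sum_le_of_orth E w hδ (fun g hg => hd g (hEF hg))
      fun g hg h hh => ho g (hEF hg) h (hEF hh)
    have hn : (0 : ℝ) < F.card := by exact_mod_cast hF.card_pos
    have hEn : (E.card : ℝ) ≤ F.card := Nat.cast_le.2 (Finset.card_le_card hEF)
    have h3 : (c * ‖∑ g ∈ E, w g‖) ^ 2 ≤ t ^ 2 := by
      rw [mul_pow, sq c, coef_mul_self, inv_mul_le_iff₀ hn, mul_comm _ (t ^ 2)]
      refine h2.trans (le_trans ?_ hcard)
      rw [← hEc, mul_add, sq, mul_assoc]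
      exact add_le_add le_rfl
        (mul_le_mul_of_nonneg_left (mul_le_mul_of_nonneg_right hEn hδ) (Nat.cast_nonneg _))
    exact (pow_le_pow_iff_left₀ (by positivity) ht two_ne_zero).1 h3
  have h1 : c * ‖∑ g ∈ E₀, (θ (w g) - w (σ g))‖ ≤ (F.card : ℝ) * δ := by
    refine (mul_le_mul_of_nonneg_left ((norm_sum_le _ _).trans (Finset.sum_le_sum hmove)) hc).trans
      ?_
    rw [Finset.sum_const, nsmul_eq_mul, ← mul_assoc]
    refine mul_le_mul_of_nonneg_right (le_trans ?_ (coef_mul_card_le hF)) hδ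
    exact mul_le_mul_of_nonneg_left (Nat.cast_le.2 (Finset.card_le_card hE)) hc
  have h2 := hb _ Finset.sdiff_subset rfl
  have h3 := hb (F \ E₀.image σ) Finset.sdiff_subset (by
    rw [Finset.card_sdiff_of_subset hσF, Finset.card_sdiff_of_subset hE,
      Finset.card_image_of_injOn hinj])
  rw [e1, norm_smul, Real.norm_of_nonneg hc]
  have h4 := norm_add_le (∑ g ∈ E₀, (θ (w g) - w (σ g)))
    (θ (∑ g ∈ F \ E₀, w g) - ∑ h ∈ F \ E₀.image σ, w h)
  have h5 := norm_sub_le (θ (∑ g ∈ F \ E₀, w g)) (∑ h ∈ F \ E₀.image σ, w h)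
  rw [norm_aut] at h5
  have h6 := mul_le_mul_of_nonneg_left h4 hc
  have h7 := mul_le_mul_of_nonneg_left h5 hc
  rw [mul_add] at h6 h7
  linarith

/-- Approximate relations of `Z(2,3)` among almost central almost invariant elements. -/
theorem approx_relations [Nontrivial A] [IsSimpleRing A] [Countable G]
    [TopologicalSpace.SeparableSpace A] (hA : HasCPAP A) (hcmp : HasLossyComparison A)
    (hG : IsFolner G) (α : G →* (A ≃⋆ₐ[ℂ] A)) (hM : InvSquareZero α)
    (D : Finset A) (S : Finset G) {ε : ℝ} (hε : 0 < ε) :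
    ∃ x v : A, ‖x‖ ≤ 1 ∧ ‖v‖ ≤ 2 ∧ x * x = 0 ∧
      ‖star v * v - (1 - (star x * x + x * star x))‖ ≤ ε ∧ ‖x * star x * v - v‖ ≤ ε ∧
      (∀ a ∈ D, ‖x * a - a * x‖ ≤ ε ∧ ‖v * a - a * v‖ ≤ ε) ∧
      ∀ g : G, g ∈ S → ‖α g x - x‖ ≤ ε ∧ ‖α g v - v‖ ≤ ε := by
  classical
  obtain ⟨ε₀, hε₀, hε₀1, hε₀ε⟩ : ∃ e : ℝ, 0 < e ∧ e ≤ 1 ∧ e ≤ ε :=
    ⟨min ε 1, lt_min hε one_pos, min_le_right _ _, min_le_left _ _⟩
  -- the subgroup of asymptotically fixing elements
  let N : Subgroup G :=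
    { carrier := {g | AsympFix (α g)}
      one_mem' := fun t ht => ⟨∅, 1, one_pos, fun z _ _ => by simpa using ht.le⟩
      mul_mem' := fun {g h} hg hh t ht => by
        obtain ⟨D₁, η₁, hη₁, h₁⟩ := hg (t / 2) (half_pos ht)
        obtain ⟨D₂, η₂, hη₂, h₂⟩ := hh (t / 2) (half_pos ht)
        refine ⟨D₁ ∪ D₂, min η₁ η₂, lt_min hη₁ hη₂, fun z hz hza => ?_⟩
        have e1 := h₁ z hz fun a ha =>
          (hza a (Finset.mem_union_left D₂ ha)).trans (min_le_left _ _)
        have e2 := h₂ z hz fun a ha =>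
          (hza a (Finset.mem_union_right D₁ ha)).trans (min_le_right _ _)
        rw [map_mul, show (α g * α h) z - z = α g (α h z - z) + (α g z - z) by
          rw [map_sub, StarAlgEquiv.mul_apply]; abel]
        refine (norm_add_le _ _).trans ?_
        rw [norm_aut]
        linarith
      inv_mem' := fun {g} hg t ht => by
        obtain ⟨D₁, η₁, hη₁, h₁⟩ := hg t ht
        refine ⟨D₁, η₁, hη₁, fun z hz hza => ?_⟩
        have e : α g (α g⁻¹ z) = z := by
          rw [← StarAlgEquiv.mul_apply, ← map_mul, mul_inv_cancel, map_one]; rfl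
        calc ‖α g⁻¹ z - z‖ = ‖α g (α g⁻¹ z - z)‖ := (norm_aut _ _).symm
          _ = ‖α g z - z‖ := by rw [map_sub, e, norm_sub_rev]
          _ ≤ t := h₁ z hz hza }
  obtain ⟨F, hFne, hFN, hσ⟩ := exists_folner_reps hG N S (ε := ε₀ ^ 2 / 64) (by positivity)
  choose F₀ σ hF₀ hcard hinj hmem using hσ
  set n : ℝ := (F.card : ℝ)
  have hn : (1 : ℝ) ≤ n := Nat.one_le_cast.2 hFne.card_pos
  set δ : ℝ := ε₀ ^ 2 / (64 * n) with hδdef
  have hδ : 0 < δ := by positivity
  have hnδ : n * δ = ε₀ ^ 2 / 64 := by rw [hδdef]; field_simp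
  have hδ1 : δ ≤ n * δ := le_mul_of_one_le_left hδ.le hn
  have hsq : ε₀ ^ 2 ≤ ε₀ := by nlinarith
  -- finitely many asymptotically fixing elements
  let M : Finset G := S.attach.biUnion fun k => (F₀ k k.2).image fun g => (σ k k.2 g)⁻¹ * (k * g)
  obtain ⟨DN, ηN, hηN, hfixd⟩ := exists_fix_data α M (fun m hm => by
    obtain ⟨k, -, hm⟩ := Finset.mem_biUnion.1 hm
    obtain ⟨g, hg, rfl⟩ := Finset.mem_image.1 hm
    exact (hmem k k.2 g hg).2) hδ
  -- the local property (SI) away from `N`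
  let θ : {g : G // g ∉ N} → A ≃⋆ₐ[ℂ] A := fun g => α g
  let T : Finset {g : G // g ∉ N} :=
    ((F ×ˢ F).image fun p => p.1⁻¹ * p.2).subtype fun g => g ∉ N
  let Ds : Finset A := DN ∪ F.biUnion fun g => D.image (α g⁻¹)
  obtain ⟨L, hL⟩ := si_local hA hcmp θ (fun g => (isOrth_or_asympFix _).resolve_right g.2) Ds T
    (ε := min δ ηN) (lt_min hδ hηN)
  obtain ⟨κ, hκ, hpieces⟩ := exists_pieces α hM L
  obtain ⟨D', η, hη, hloc⟩ := hL κ hκ
  obtain ⟨x, e, q, hx, hxx, he, hepos, he1, hinv, hqpos, hcomm, htr, horth, hfq⟩ :=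
    hpieces (D' ∪ D) (S ∪ F) (min η δ) (lt_min hη hδ)
  have hf1 : ‖x * star x‖ ≤ 1 := by rw [CStarRing.norm_self_mul_star]; nlinarith [norm_nonneg x]
  obtain ⟨s, hse, hsD, hfs, hsT⟩ := hloc e (x * star x) q hepos he1
    ⟨star x, by rw [star_star]⟩ hf1 hqpos
    (fun a ha => by
      obtain ⟨-, h2, h3, h4⟩ := hcomm a (Finset.mem_union_left D ha)
      exact ⟨h2.trans (min_le_left _ _), h3.trans (min_le_left _ _),
        fun p => (h4 p).trans (min_le_left _ _)⟩)
    (fun τ => ⟨(htr τ).1.trans (min_le_left _ _), (htr τ).2⟩)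
    (fun p p' h => (horth p p' h).trans (min_le_left _ _))
    (fun p => (hfq p).trans (min_le_left _ _))
  have hse' : ‖star s * s - e‖ ≤ δ := hse.trans (min_le_left _ _)
  have hfs' : ‖x * star x * s - s‖ ≤ δ := hfs.trans (min_le_left _ _)
  have hss : ‖star s * s‖ ≤ 1 + δ := by linarith [norm_le_insert' (star s * s) e]
  have hs2 : ‖s‖ ≤ 2 := by
    rw [CStarRing.norm_star_mul_self] at hss
    nlinarith [norm_nonneg s]
  have hxF : ∀ g ∈ F, ‖α g x - x‖ ≤ δ := fun g hg =>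
    (hinv g (Finset.mem_union_right S hg)).trans (min_le_right _ _)
  -- the summands
  set w : G → A := fun g => α g s with hw
  have hworth : ∀ g ∈ F, ∀ h ∈ F, g ≠ h → ‖star (w g) * w h‖ ≤ δ := by
    intro g hg h hh hne
    have hN : g⁻¹ * h ∉ N := fun hm => hne (hFN g hg h hh hm)
    have e1 : star (w g) * w h = α g (star s * α (g⁻¹ * h) s) := by
      rw [map_mul, map_star, ← StarAlgEquiv.mul_apply, ← map_mul, mul_inv_cancel_left]
    rw [e1, norm_aut]
    exact (hsT ⟨_, hN⟩ (Finset.mem_subtype.2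
      (Finset.mem_image.2 ⟨(g, h), Finset.mem_product.2 ⟨hg, hh⟩, rfl⟩))).trans (min_le_left _ _)
  have hwd : ∀ g ∈ F, ‖star (w g) * w g - e‖ ≤ 5 * δ := by
    intro g hg
    obtain ⟨h1, h2⟩ := norm_star_mul_self_sub (θ := StarAlgHomClass.toStarAlgHom (α g)) hx (hxF g hg)
    have e1 : star (w g) * w g - e = α g (star s * s - e) +
        -((α g (star x * x) - star x * x) + (α g (x * star x) - x * star x)) := by
      simp only [hw, he, map_sub, map_mul, map_star, map_one, map_add]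
      abel
    rw [e1]
    refine (norm_add_le _ _).trans ?_
    rw [norm_aut, norm_neg]
    have := norm_add_le (α g (star x * x) - star x * x) (α g (x * star x) - x * star x)
    have h1' : ‖α g (star x * x) - star x * x‖ ≤ 2 * δ := h1
    have h2' : ‖α g (x * star x) - x * star x‖ ≤ 2 * δ := h2
    linarith
  have hwd2 : ∀ g ∈ F, ‖star (w g) * w g‖ ≤ 2 := fun g hg => by
    have h1 : star (w g) * w g = α g (star s * s) := by simp only [hw, map_mul, map_star]
    rw [h1, norm_aut]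
    nlinarith
  refine ⟨x, avgSum F w, hx, ?_, hxx, ?_, ?_, fun a ha => ⟨?_, ?_⟩, fun k hk => ⟨?_, ?_⟩⟩
  · have h2 := norm_sum_le_of_orth F w hδ.le hwd2 hworth
    have h3 : ‖avgSum F w‖ ^ 2 ≤ n⁻¹ * (n * 2 + n ^ 2 * δ) := by
      rw [avgSum_norm, mul_pow, sq, coef_mul_self]
      exact mul_le_mul_of_nonneg_left h2 (by positivity)
    rw [show n⁻¹ * (n * 2 + n ^ 2 * δ) = 2 + n * δ by field_simp] at h3
    nlinarith [norm_nonneg (avgSum F w)]
  · rw [← he]
    exact (avgSum_gram hFne w e hδ.le hwd hworth).trans (by linarith)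
  · refine (avgSum_left_fix hFne w (x * star x) (R := 5 * δ) (by linarith) fun g hg => ?_).trans
      (by linarith)
    have e2 : x * star x * w g - w g =
        -(α g (x * star x) - x * star x) * w g + α g (x * star x * s - s) := by
      rw [map_sub, map_mul (α g) (x * star x)]
      simp only [hw, neg_mul, sub_mul]
      abel
    rw [e2]
    refine (norm_add_le _ _).trans ?_
    rw [norm_aut]
    have h2 : ‖α g (x * star x) - x * star x‖ ≤ 2 * δ :=
      (norm_star_mul_self_sub (θ := StarAlgHomClass.toStarAlgHom (α g)) hx (hxF g hg)).2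
    have h3 := norm_mul_le (-(α g (x * star x) - x * star x)) (w g)
    rw [norm_neg, show ‖w g‖ = ‖s‖ from norm_aut _ _] at h3
    nlinarith [norm_nonneg (α g (x * star x) - x * star x), norm_nonneg s]
  · exact (hcomm a (Finset.mem_union_right D' ha)).1.trans ((min_le_right _ _).trans (by linarith))
  · refine (avgSum_commute hFne w a hδ.le fun g hg => ?_).trans (by linarith)
    have ea : α g (α g⁻¹ a) = a := by
      rw [← StarAlgEquiv.mul_apply, ← map_mul, mul_inv_cancel, map_one]; rfl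
    have e2 : w g * a - a * w g = α g (s * α g⁻¹ a - α g⁻¹ a * s) := by
      rw [map_sub, map_mul, map_mul, ea]
    rw [e2, norm_aut]
    exact (hsD _ (Finset.mem_union_right DN
      (Finset.mem_biUnion.2 ⟨g, hg, Finset.mem_image_of_mem _ ha⟩))).trans (min_le_left _ _)
  · exact (hinv k (Finset.mem_union_left F hk)).trans ((min_le_right _ _).trans (by linarith))
  · refine (avgSum_invariant hFne (hF₀ k hk) (σ k hk) (hinj k hk)
      (fun g hg => (hmem k hk g hg).1) w (α k) hδ.le (t := ε₀ / 4) (by linarith) ?_ hwd2 hworth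
      ?_).trans (by linarith)
    · intro g hg
      have e2 : α k (w g) - w (σ k hk g) =
          α (σ k hk g) (α ((σ k hk g)⁻¹ * (k * g)) s - s) := by
        show α k (α g s) - α (σ k hk g) s = _
        rw [← StarAlgEquiv.mul_apply, ← map_mul, map_sub, ← StarAlgEquiv.mul_apply, ← map_mul,
          mul_inv_cancel_left]
      rw [e2, norm_aut]
      exact hfixd _ (Finset.mem_biUnion.2 ⟨⟨k, hk⟩, Finset.mem_attach _ _,
        Finset.mem_image.2 ⟨g, hg, rfl⟩⟩) s hs2 fun a ha =>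
          (hsD a (Finset.mem_union_left _ ha)).trans (min_le_right _ _)
    · have h2n : 0 ≤ 2 + n * δ := by linarith
      have hc2 : 0 ≤ ε₀ ^ 2 / 64 * n := mul_nonneg (by linarith [sq_nonneg ε₀]) (by linarith)
      refine (mul_le_mul_of_nonneg_right (hcard k hk) h2n).trans ?_
      have h4 : 2 + n * δ ≤ 4 := by linarith
      exact (mul_le_mul_of_nonneg_left h4 hc2).trans_eq (by ring)

theorem fixed_dimDrop_of_si [Nontrivial A] [IsSimpleRing A] [Countable G]
    [TopologicalSpace.SeparableSpace A] {ω : Ultrafilter ℕ}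
    (hω : (ω : Filter ℕ) ≤ Filter.cofinite) (hA : HasCPAP A) (hcmp : HasLossyComparison A)
    (hG : IsFolner G) (α : G →* (A ≃⋆ₐ[ℂ] A)) (hM : InvSquareZero α) :
    Vale.P095.HasFixedDimDropHom ω (fun g a => α g a) := by
  classical
  obtain ⟨e, he⟩ := exists_surjective_nat G
  obtain ⟨a, ha⟩ := TopologicalSpace.exists_dense_seq A
  choose x v hx hv hxx hvv hxv hcen hinv using fun n : ℕ =>
    approx_relations hA hcmp hG α hM ((Finset.range (n + 1)).image a)
      ((Finset.range (n + 1)).image e) (ε := 1 / ((n : ℝ) + 1)) (by positivity)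
  let X : ℕ →ᵇ A := BoundedContinuousFunction.ofNormedAddCommGroup x
    continuous_of_discreteTopology 1 hx
  let V : ℕ →ᵇ A := BoundedContinuousFunction.ofNormedAddCommGroup v
    continuous_of_discreteTopology 2 hv
  have hone : Tendsto (fun n : ℕ => 1 / ((n : ℝ) + 1)) ω (𝓝 0) :=
    (tendsto_one_div_add_atTop_nhds_zero_nat (𝕜 := ℝ)).mono_left (Nat.cofinite_eq_atTop ▸ hω)
  have hev : ∀ j, ∀ᶠ n in (ω : Filter ℕ), j ∈ Finset.range (n + 1) := fun j => by
    refine hω ?_
    rw [Nat.cofinite_eq_atTop]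
    exact (eventually_ge_atTop j).mono fun n hn => Finset.mem_range.2 (by omega)
  have hlim : ∀ (f : ℕ → ℝ) (j : ℕ), (∀ n, 0 ≤ f n) →
      (∀ n, j ∈ Finset.range (n + 1) → f n ≤ 1 / ((n : ℝ) + 1)) → Tendsto f ω (𝓝 0) :=
    fun f j h0 h => squeeze_zero' (Eventually.of_forall h0) ((hev j).mono h) hone
  have hcent : ∀ Z : ℕ →ᵇ A, (∀ j n, j ∈ Finset.range (n + 1) →
      ‖Z n * a j - a j * Z n‖ ≤ 1 / ((n : ℝ) + 1)) → P101.cls ω Z ∈ P101.Central A ω := by
    intro Z hZ
    rw [P101.mem_central]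
    intro b
    have hk : Continuous fun b : A => P101.constSeq ω b :=
      (AddMonoidHomClass.continuous_of_bound (P101.cls ω).toLinearMap 1 fun g => by
        rw [one_mul]
        exact P101.quot_norm_mk_le (P101.NullSeq A ω) g).comp
        (Isometry.continuous (Isometry.of_dist_eq fun p q => by
          simp [dist_eq_norm, BoundedContinuousFunction.norm_eq_iSup_norm]))
    refine (DenseRange.induction_on ha (p := fun b => Commute (P101.constSeq ω b) (P101.cls ω Z)) b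
      (isClosed_eq (hk.mul continuous_const) (continuous_const.mul hk)) fun j => ?_)
    exact (P101.commute_cls_of_tendsto ω (by
      simpa using hlim _ j (fun n => norm_nonneg _) (fun n hn => hZ j n hn))).symm
  have hfix : ∀ Z : ℕ →ᵇ A, (∀ j n, j ∈ Finset.range (n + 1) →
      ‖α (e j) (Z n) - Z n‖ ≤ 1 / ((n : ℝ) + 1)) →
      ∀ g, Vale.P095.actU ω α g (P101.cls ω Z) = P101.cls ω Z := by
    intro Z hZ g
    obtain ⟨j, rfl⟩ := he g
    rw [Vale.P095.actU_cls, P101.cls_eq_cls, P101.mem_nullSeq]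
    exact hlim _ j (fun n => norm_nonneg _) fun n hn => hZ j n hn
  have hXF : P101.cls ω X ∈ Vale.P095.Fixed ω α :=
    ⟨hcent X fun j n hn => (hcen n _ (Finset.mem_image_of_mem a hn)).1,
      hfix X fun j n hn => (hinv n _ (Finset.mem_image_of_mem e hn)).1⟩
  have hVF : P101.cls ω V ∈ Vale.P095.Fixed ω α :=
    ⟨hcent V fun j n hn => (hcen n _ (Finset.mem_image_of_mem a hn)).2,
      hfix V fun j n hn => (hinv n _ (Finset.mem_image_of_mem e hn)).2⟩
  obtain ⟨φ⟩ := P101.DD.exists_dimDrop_hom (⟨_, hXF⟩ : Vale.P095.Fixed ω α) ⟨_, hVF⟩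
    (Subtype.ext (by
      show P101.cls ω X * P101.cls ω X = 0
      rw [← map_mul, show X * X = 0 from BoundedContinuousFunction.ext hxx, map_zero]))
    (Subtype.ext (by
      show star (P101.cls ω V) * P101.cls ω V =
        1 - (star (P101.cls ω X) * P101.cls ω X + P101.cls ω X * star (P101.cls ω X))
      simp only [P101.star_cls, ← map_mul, ← map_add, ← map_one (P101.cls (A := A) ω), ← map_sub]
      rw [P101.cls_eq_cls, P101.mem_nullSeq]
      exact hlim _ 0 (fun n => norm_nonneg _) fun n _ => by simpa [X, V] using hvv n))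
    (Subtype.ext (by
      show P101.cls ω X * star (P101.cls ω X) * P101.cls ω V = P101.cls ω V
      simp only [P101.star_cls, ← map_mul]
      rw [P101.cls_eq_cls, P101.mem_nullSeq]
      exact hlim _ 0 (fun n => norm_nonneg _) fun n _ => by simpa [X, V] using hxv n))
  let Z : StarSubalgebra ℂ (P101.Central A ω) :=
    (Vale.P095.Fixed ω α).comap (P101.Central A ω).subtype
  have hZ : IsClosed (Z : Set (P101.Central A ω)) :=
    (inferInstance : IsClosed (Vale.P095.Fixed ω α : Set (P101.Ultrapower A ω))).preimage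
      continuous_subtype_val
  refine ⟨Z, hZ, fun y hy g f hf => ?_,
    ⟨((Vale.P095.fixIncl ω α).comp φ).codRestrict Z fun d => (φ d).2⟩⟩
  have h := (show (Subtype.val y : P101.Ultrapower A ω) ∈ Vale.P095.Fixed ω α from hy).2 g
  have hf' : P101.cls ω f = (Subtype.val y : P101.Ultrapower A ω) := hf
  rw [← hf', Vale.P095.actU_cls, P101.cls_eq_cls, P101.mem_nullSeq] at h
  exact h

end Vale.P095.SI
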