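import Vale.Agent.P095.SI.Relative

/-!
# P095 (SI): a state excised by plateau pairs

Recipe. A pair `(b, c)` is below `(b₀, c₀)` if `b₀ * b = b`; then `b * y = y` gives `b₀ * y = y`, and
every pair has one below it.  For self-adjoint `X ≥ 1` and a pair `(b₀, c₀)` let `M = inf ‖b X b‖`
over pairs below it; take `(b', c')` within `η` of it, `(b₃, c₃)` below it, `Z = b₃ X b₃`,
`g (t) = max 0 (t - (M - η))`, `W = b₃ g(Z)² b₃`, and the new pair two plateau functions of `W`: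
every `v` fixed by it is `b₃ w` and both bounds `(M - η) v* v ≤ v* X v ≤ (M + η) v* v` are exact.
`IsOrth` supplies the second kind of step.  Iterate over a dense sequence and the countable index
set, starting at the given pair of the ideal; `φ` is the limit of the scalars.
-/

open Filter Topology

namespace Vale.P095.SI

attribute [local instance] CStarAlgebra.spectralOrder CStarAlgebra.spectralOrderedRing

variable {A : Type*} [CStarAlgebra A]

/-! ### Pairs -/

theorem isPos_iff_nonneg {a : A} : IsPos a ↔ 0 ≤ a :=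
  CStarAlgebra.nonneg_iff_eq_star_mul_self.symm

theorem IsPair.nonneg {b c : A} (h : IsPair b c) : 0 ≤ b ∧ 0 ≤ c :=
  ⟨isPos_iff_nonneg.1 h.pos_b, isPos_iff_nonneg.1 h.pos_c⟩

theorem exc_trans {b₀ b y : A} (h : b₀ * b = b) (hy : b * y = y) : b₀ * y = y := by
  rw [← hy, ← mul_assoc, h]

theorem exc_isPair_one [Nontrivial A] : IsPair (1 : A) 1 :=
  ⟨⟨1, by simp⟩, ⟨1, by simp⟩, CStarRing.norm_one, CStarRing.norm_one, mul_one 1⟩

/-- Plateau functions of a positive element of norm one form a pair; what its unit fixes is fixed by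
whatever fixes the element, and lies in its range. -/
theorem exists_pair_of_nonneg [Nontrivial A] {W : A} (hW : 0 ≤ W) (hn : ‖W‖ = 1) :
    ∃ b c r : A, IsPair b c ∧ b = W * r ∧ ∀ b₀ : A, b₀ * W = W → b₀ * b = b := by
  have hsa : IsSelfAdjoint W := .of_nonneg hW
  set q : ℝ → ℝ := fun t => 2 / max 1 (2 * t) with hq
  set hi : ℝ → ℝ := fun t => t * q t with hhi
  set lo : ℝ → ℝ := fun t => max 0 (min 1 (2 * t - 1)) with hlo
  have hqc : Continuous q := continuous_const.div (by fun_prop)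
    fun t => (lt_of_lt_of_le one_pos (le_max_left _ _)).ne'
  have hhc : Continuous hi := continuous_id.mul hqc
  have hlc : Continuous lo := by rw [hlo]; fun_prop
  have hsp : ∀ t ∈ spectrum ℝ W, 0 ≤ t := fun t ht => spectrum_nonneg_of_nonneg hW ht
  have h1 : (1 : ℝ) ∈ spectrum ℝ W := by
    have := CStarAlgebra.norm_mem_spectrum_of_nonneg hW
    rwa [hn] at this
  have hh : ∀ t : ℝ, 0 ≤ t → 0 ≤ hi t ∧ hi t ≤ 1 := fun t ht => by
    have hm : (0 : ℝ) < max 1 (2 * t) := lt_of_lt_of_le one_pos (le_max_left _ _)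
    refine ⟨mul_nonneg ht (by positivity), ?_⟩
    simp only [hhi, hq]
    rw [← mul_div_assoc, div_le_one hm, mul_comm]
    exact le_max_right _ _
  have e : cfc hi W = W * cfc q W := by
    rw [hhi, cfc_mul (fun t => t) q W continuousOn_id hqc.continuousOn, cfc_id' ℝ W hsa]
  refine ⟨cfc hi W, cfc lo W, cfc q W,
    ⟨isPos_iff_nonneg.2 (cfc_nonneg fun t ht => (hh t (hsp t ht)).1),
      isPos_iff_nonneg.2 (cfc_nonneg fun t _ => le_max_left _ _), ?_, ?_, ?_⟩, e,
    fun b₀ hb => by rw [e, ← mul_assoc, hb]⟩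
  · refine le_antisymm (norm_cfc_le zero_le_one fun t ht => ?_) ?_
    · rw [Real.norm_eq_abs, abs_of_nonneg (hh t (hsp t ht)).1]
      exact (hh t (hsp t ht)).2
    · have := norm_apply_le_norm_cfc hi W h1 hhc.continuousOn hsa
      have h2 : hi 1 = 1 := by norm_num [hhi, hq]
      rwa [h2, norm_one] at this
  · refine le_antisymm (norm_cfc_le zero_le_one fun t _ => ?_) ?_
    · rw [Real.norm_eq_abs, abs_of_nonneg (le_max_left _ _)]
      exact max_le zero_le_one (min_le_left _ _)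
    · have := norm_apply_le_norm_cfc lo W h1 hlc.continuousOn hsa
      have h2 : lo 1 = 1 := by norm_num [hlo]
      rwa [h2, norm_one] at this
  · rw [← cfc_mul hi lo W hhc.continuousOn hlc.continuousOn]
    refine cfc_congr fun t ht => ?_
    simp only [hhi, hlo, hq]
    rcases le_total (2 * t) 1 with h | h
    · rw [max_eq_left ((min_le_right _ _).trans (by linarith)), mul_zero]
    · have ht0 : t ≠ 0 := by rintro rfl; norm_num at h
      rw [max_eq_right h, show t * (2 / (2 * t)) = 1 by field_simp, one_mul]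

/-- Every pair has a pair below it. -/
theorem exists_pair_below [Nontrivial A] {b₀ c₀ : A} (h : IsPair b₀ c₀) :
    ∃ b c : A, IsPair b c ∧ b₀ * b = b := by
  obtain ⟨b, c, -, hp, -, hb⟩ := exists_pair_of_nonneg h.nonneg.2 h.norm_c
  exact ⟨b, c, hp, hb b₀ h.unit⟩

/-! ### The step for one self-adjoint element -/

/-- A self-adjoint element between `± r • P`. -/
theorem exc_norm_le [Nontrivial A] {D P : A} (hD : IsSelfAdjoint D) (hP : 0 ≤ P) {r : ℝ}
    (hr : 0 ≤ r) (h1 : D ≤ r • P) (h2 : -(r • P) ≤ D) : ‖D‖ ≤ r * ‖P‖ := by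
  have hb : r • P ≤ algebraMap ℝ A (r * ‖P‖) := by
    rw [Algebra.algebraMap_eq_smul_one, mul_smul, ← Algebra.algebraMap_eq_smul_one]
    exact smul_le_smul_of_nonneg_left (IsSelfAdjoint.of_nonneg hP).le_algebraMap_norm_self hr
  have u1 := (le_algebraMap_iff_spectrum_le hD).1 (h1.trans hb)
  have u2 := (algebraMap_le_iff_le_spectrum hD).1
    (show algebraMap ℝ A (-(r * ‖P‖)) ≤ D by rw [map_neg]; exact (neg_le_neg hb).trans h2)
  rw [← cfc_id' ℝ D hD]
  refine norm_cfc_le (mul_nonneg hr (norm_nonneg _)) fun t ht => ?_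
  rw [Real.norm_eq_abs]
  exact abs_le.2 ⟨u2 t ht, u1 t ht⟩

/-- One step: below every pair a pair on which `X ≥ 1` is almost a scalar. -/
theorem exists_step_one_le [Nontrivial A] {X b₀ c₀ : A} (hX : 1 ≤ X) (h₀ : IsPair b₀ c₀) {η : ℝ}
    (hη : 0 < η) (hη' : η ≤ 1 / 2) :
    ∃ (b c : A) (M : ℝ), IsPair b c ∧ b₀ * b = b ∧
      ∀ y : A, b * y = y → ‖star y * X * y - M • (star y * y)‖ ≤ η * ‖y‖ ^ 2 := by
  have hXsa : IsSelfAdjoint X := .of_nonneg ((zero_le_one' A).trans hX)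
  have hlow : ∀ b c : A, IsPair b c → b * b ≤ b * X * b ∧ 1 ≤ ‖b * X * b‖ := fun b c hp => by
    have hbs : IsSelfAdjoint b := .of_nonneg hp.nonneg.1
    have h1 : b * b ≤ b * X * b := by simpa using hbs.conjugate_le_conjugate hX
    refine ⟨h1, ?_⟩
    have h2 := CStarAlgebra.norm_le_norm_of_nonneg_of_le
      (by simpa [hbs.star_eq] using star_mul_self_nonneg b : (0 : A) ≤ b * b) h1
    have h3 : ‖b * b‖ = 1 := by
      conv_lhs => arg 1; arg 1; rw [← hbs.star_eq]
      rw [CStarRing.norm_star_mul_self, hp.norm_b, one_mul]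
    linarith
  set S : Set ℝ := {r | ∃ b c : A, IsPair b c ∧ b₀ * b = b ∧ r = ‖b * X * b‖} with hS
  have hSne : S.Nonempty := by
    obtain ⟨b, c, hp, hb⟩ := exists_pair_below h₀
    exact ⟨_, b, c, hp, hb, rfl⟩
  have hS1 : ∀ r ∈ S, 1 ≤ r := by
    rintro r ⟨b, c, hp, -, rfl⟩
    exact (hlow b c hp).2
  set M : ℝ := sInf S with hM
  have hM1 : 1 ≤ M := le_csInf hSne hS1
  obtain ⟨r, ⟨b', c', hp', hb', rfl⟩, hr⟩ :=
    exists_lt_of_csInf_lt hSne (show sInf S < M + η by linarith)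
  obtain ⟨b₃, c₃, hp₃, hb₃⟩ := exists_pair_below hp'
  have h₀₃ : b₀ * b₃ = b₃ := exc_trans hb' hb₃
  have hMZ : M ≤ ‖b₃ * X * b₃‖ := csInf_le ⟨1, hS1⟩ ⟨b₃, c₃, hp₃, h₀₃, rfl⟩
  have hs₃ : IsSelfAdjoint b₃ := .of_nonneg hp₃.nonneg.1
  set Z : A := b₃ * X * b₃ with hZ
  have hZ0 : 0 ≤ Z := by
    simpa [hs₃.star_eq] using star_left_conjugate_nonneg ((zero_le_one' A).trans hX) b₃
  have hZs : IsSelfAdjoint Z := .of_nonneg hZ0
  set g : ℝ → ℝ := fun t => max 0 (t - (M - η)) with hg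
  have hgc : Continuous g := by rw [hg]; fun_prop
  set G : A := cfc g Z with hG
  have hGs : IsSelfAdjoint G := cfc_predicate _ _
  set W₀ : A := star (G * b₃) * (G * b₃) with hW₀
  have hne : W₀ ≠ 0 := by
    rw [hW₀, Ne, CStarRing.star_mul_self_eq_zero_iff]
    intro h0
    have h1 : G * Z = 0 := by rw [hZ, ← mul_assoc, ← mul_assoc, h0, zero_mul, zero_mul]
    have h2 : cfc (fun t => g t * t) Z = 0 := by
      rw [cfc_mul g (fun t => t) Z hgc.continuousOn continuousOn_id, cfc_id' ℝ Z hZs]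
      exact h1
    have h3 := norm_apply_le_norm_cfc (fun t => g t * t) Z
      (CStarAlgebra.norm_mem_spectrum_of_nonneg hZ0) (hgc.mul continuous_id).continuousOn hZs
    rw [h2, norm_zero, norm_le_zero_iff, mul_eq_zero] at h3
    rcases h3 with h3 | h3
    · simp only [hg] at h3
      have := h3 ▸ le_max_right (0 : ℝ) (‖Z‖ - (M - η))
      linarith
    · linarith
  set W : A := ‖W₀‖⁻¹ • W₀ with hW
  have hW0 : 0 ≤ W := smul_nonneg (by positivity) (star_mul_self_nonneg _)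
  have hWn : ‖W‖ = 1 := by
    rw [hW, norm_smul, norm_inv, norm_norm, inv_mul_cancel₀ (norm_ne_zero_iff.2 hne)]
  obtain ⟨b, c, rr, hp, hbr, hbe⟩ := exists_pair_of_nonneg hW0 hWn
  have hfix : ∀ z : A, z * b₃ = b₃ → z * W = W := fun z hz => by
    rw [hW, hW₀, star_mul, hs₃.star_eq, mul_smul_comm, mul_assoc b₃ (star G), ← mul_assoc z, hz]
  refine ⟨b, c, M, hp, hbe b₀ (hfix b₀ h₀₃), fun y hy => ?_⟩
  have hb'y : b' * y = y := exc_trans (hbe b' (hfix b' hb₃)) hy
  set u : A := ‖W₀‖⁻¹ • (G * b₃ * (rr * y)) with hu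
  have hyw : y = b₃ * (G * u) := by
    have eW : W = b₃ * (G * (‖W₀‖⁻¹ • (G * b₃))) := by
      rw [hW, mul_smul_comm, mul_smul_comm]
      congr 1
      rw [hW₀, star_mul, hs₃.star_eq, hGs.star_eq, mul_assoc]
    conv_lhs => rw [← hy, hbr, eW]
    simp only [hu, smul_mul_assoc, mul_smul_comm, mul_assoc]
  set w : A := G * u with hw
  have e1 : star y * X * y = star w * Z * w := by
    rw [hyw, star_mul, hs₃.star_eq, hZ]
    simp only [mul_assoc]
  -- lower bound
  have hlo1 : (M - η) • (star w * w) ≤ star w * Z * w := by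
    have h1 : cfc (fun t => (M - η) * (g t * g t)) Z ≤ cfc (fun t => g t * t * g t) Z := by
      refine cfc_mono (fun t _ => ?_) (continuous_const.mul (hgc.mul hgc)).continuousOn
        ((hgc.mul continuous_id).mul hgc).continuousOn
      rcases le_total t (M - η) with h | h
      · simp [hg, max_eq_left (sub_nonpos.2 h)]
      · rw [mul_right_comm (g t) t, mul_comm (M - η)]
        exact mul_le_mul_of_nonneg_left h (mul_self_nonneg _)
    rw [cfc_const_mul (M - η) (fun t => g t * g t) Z (hgc.mul hgc).continuousOn,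
      cfc_mul g g Z hgc.continuousOn hgc.continuousOn,
      cfc_mul (fun t => g t * t) g Z (hgc.mul continuous_id).continuousOn hgc.continuousOn,
      cfc_mul g (fun t => t) Z hgc.continuousOn continuousOn_id, cfc_id' ℝ Z hZs] at h1
    have h2 := star_left_conjugate_le_conjugate h1 u
    rw [hw, star_mul, hGs.star_eq]
    simpa only [smul_mul_assoc, mul_smul_comm, mul_assoc] using h2
  have hlo2 : star y * y ≤ star w * w := by
    have h3 : star b₃ * b₃ ≤ 1 := by
      refine (CStarAlgebra.norm_le_one_iff_of_nonneg _ (star_mul_self_nonneg b₃)).1 ?_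
      rw [CStarRing.norm_star_mul_self, hp₃.norm_b, one_mul]
    have h4 := star_left_conjugate_le_conjugate h3 w
    rw [mul_one] at h4
    rw [hyw, star_mul]
    simpa only [mul_assoc] using h4
  have hlo : (M - η) • (star y * y) ≤ star y * X * y := by
    rw [e1]
    exact (smul_le_smul_of_nonneg_left hlo2 (by linarith)).trans hlo1
  -- upper bound
  have hup : star y * X * y ≤ (M + η) • (star y * y) := by
    have hs' : IsSelfAdjoint b' := .of_nonneg hp'.nonneg.1
    have h1 : IsSelfAdjoint (b' * X * b') := by simpa [hs'.star_eq] using hXsa.conjugate b'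
    have h2 := star_left_conjugate_le_conjugate
      (h1.le_algebraMap_norm_self.trans
        (algebraMap_mono A hr.le : algebraMap ℝ A ‖b' * X * b'‖ ≤ algebraMap ℝ A (M + η))) y
    have e : star y * (b' * X * b') * y = star y * X * y := by
      have hyb : star y * b' = star y := by
        conv_rhs => rw [← hb'y, star_mul, hs'.star_eq]
      simp only [mul_assoc, hb'y]
      rw [← mul_assoc, hyb]
    rw [e, Algebra.algebraMap_eq_smul_one, mul_smul_comm, mul_one, smul_mul_assoc] at h2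
    exact h2
  have hDsa : IsSelfAdjoint (star y * X * y - M • (star y * y)) := by
    refine (?_ : IsSelfAdjoint _).sub ((IsSelfAdjoint.all M).smul (IsSelfAdjoint.star_mul_self y))
    simpa using hXsa.conjugate' y
  refine (exc_norm_le hDsa (star_mul_self_nonneg y) hη.le ?_ ?_).trans ?_
  · rwa [sub_le_iff_le_add, ← add_smul, add_comm]
  · rwa [le_sub_iff_add_le, neg_add_eq_sub, ← sub_smul]
  · rw [CStarRing.norm_star_mul_self, sq]

/-- One step for a self-adjoint element. -/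
theorem exists_step_sa [Nontrivial A] {X b₀ c₀ : A} (hX : IsSelfAdjoint X) (h₀ : IsPair b₀ c₀)
    {η : ℝ} (hη : 0 < η) :
    ∃ (b c : A) (M : ℝ), IsPair b c ∧ b₀ * b = b ∧
      ∀ y : A, b * y = y → ‖star y * X * y - M • (star y * y)‖ ≤ η * ‖y‖ ^ 2 := by
  have hX' : 1 ≤ X + (‖X‖ + 1) • (1 : A) := by
    have h := hX.neg_algebraMap_norm_le_self
    rw [Algebra.algebraMap_eq_smul_one, neg_le_iff_add_nonneg] at h
    calc (1 : A) ≤ (X + ‖X‖ • (1 : A)) + 1 := le_add_of_nonneg_left h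
      _ = X + (‖X‖ + 1) • (1 : A) := by rw [add_smul, one_smul, add_assoc]
  obtain ⟨b, c, M, hp, hb, hy⟩ :=
    exists_step_one_le hX' h₀ (lt_min hη (by norm_num : (0 : ℝ) < 1 / 2)) (min_le_right _ _)
  refine ⟨b, c, M - (‖X‖ + 1), hp, hb, fun y h => ?_⟩
  have e : star y * X * y - (M - (‖X‖ + 1)) • (star y * y) =
      star y * (X + (‖X‖ + 1) • (1 : A)) * y - M • (star y * y) := by
    simp only [mul_add, add_mul, mul_smul_comm, smul_mul_assoc, mul_one, sub_smul]
    abel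
  rw [e]
  exact (hy y h).trans (mul_le_mul_of_nonneg_right (min_le_left _ _) (sq_nonneg _))

/-- One step for any element. -/
theorem exists_step [Nontrivial A] (x : A) {b₀ c₀ : A} (h₀ : IsPair b₀ c₀) {η : ℝ} (hη : 0 < η) :
    ∃ (b c : A) (z : ℂ), IsPair b c ∧ b₀ * b = b ∧
      ∀ y : A, b * y = y → ‖star y * x * y - z • (star y * y)‖ ≤ η * ‖y‖ ^ 2 := by
  obtain ⟨b₁, c₁, M₁, hp₁, hb₁, hy₁⟩ := exists_step_sa (realPart x).2 h₀ (half_pos hη)
  obtain ⟨b₂, c₂, M₂, hp₂, hb₂, hy₂⟩ := exists_step_sa (imaginaryPart x).2 hp₁ (half_pos hη)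
  refine ⟨b₂, c₂, M₁ + M₂ * Complex.I, hp₂, exc_trans hb₁ hb₂, fun y hy => ?_⟩
  have e : star y * x * y - ((M₁ : ℂ) + M₂ * Complex.I) • (star y * y) =
      (star y * (realPart x : A) * y - M₁ • (star y * y)) +
        Complex.I • (star y * (imaginaryPart x : A) * y - M₂ • (star y * y)) := by
    conv_lhs => rw [← realPart_add_I_smul_imaginaryPart x]
    simp only [mul_add, add_mul, mul_smul_comm, smul_mul_assoc, add_smul, smul_sub,
      ← Complex.coe_smul, smul_smul, mul_comm Complex.I]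
    abel
  rw [e]
  refine (norm_add_le _ _).trans ?_
  rw [norm_smul, Complex.norm_I, one_mul]
  linarith [hy₁ y (exc_trans hb₂ hy), hy₂ y hy]

/-- Pairs below a pair of a right ideal lie in it. -/
theorem exc_mem {I : Set A} (hI : ∀ u : A, ∀ x ∈ I, x * u ∈ I) {b₀ b c : A} (hb₀ : b₀ ∈ I)
    (hb : b₀ * b = b) (hp : IsPair b c) : b ∈ I ∧ c ∈ I := by
  have h1 : b ∈ I := hb ▸ hI b b₀ hb₀
  exact ⟨h1, hp.unit ▸ hI c b h1⟩

/-- Finitely many steps of both kinds. -/
theorem exists_steps [Nontrivial A] {I : Set A} (hI : ∀ u : A, ∀ x ∈ I, x * u ∈ I) {ι : Type*}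
    (θ : ι → A ≃⋆ₐ[ℂ] A) (hθ : ∀ i, IsOrthOn I (θ i))
    (X : Finset A) (T : Finset ι) {η : ℝ} (hη : 0 < η) {b₀ c₀ : A} (hb₀ : b₀ ∈ I)
    (h₀ : IsPair b₀ c₀) :
    ∃ b c : A, IsPair b c ∧ b₀ * b = b ∧
      ∀ x ∈ X, (∃ z : ℂ, ∀ y : A, b * y = y →
        ‖star y * x * y - z • (star y * y)‖ ≤ η * ‖y‖ ^ 2) ∧
        ∀ i ∈ T, ‖b * x * θ i b‖ ≤ η := by
  classical
  have persist : ∀ {b₁ b₂ c₂ : A} (i : ι) (x : A), IsSelfAdjoint b₁ → IsPair b₂ c₂ →
      b₁ * b₂ = b₂ → ‖b₁ * x * θ i b₁‖ ≤ η → ‖b₂ * x * θ i b₂‖ ≤ η := by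
    intro b₁ b₂ c₂ i x hs₁ hp₂ hb h
    have hb' : b₂ * b₁ = b₂ := by
      have := congrArg star hb
      rwa [star_mul, hs₁.star_eq, (IsSelfAdjoint.of_nonneg hp₂.nonneg.1).star_eq] at this
    have e : b₂ * x * θ i b₂ = b₂ * (b₁ * x * θ i b₁) * θ i b₂ := by
      conv_lhs => rw [← hb']
      conv_lhs => arg 2; rw [hb', ← hb, map_mul]
      simp only [mul_assoc]
    have h1 : ‖θ i b₂‖ ≤ 1 :=
      (NonUnitalStarAlgHom.norm_apply_le (θ i) b₂).trans hp₂.norm_b.le
    rw [e]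
    calc ‖b₂ * (b₁ * x * θ i b₁) * θ i b₂‖ ≤ ‖b₂‖ * ‖b₁ * x * θ i b₁‖ * ‖θ i b₂‖ :=
          (norm_mul_le _ _).trans
            (mul_le_mul_of_nonneg_right (norm_mul_le _ _) (norm_nonneg _))
      _ ≤ 1 * η * 1 := by rw [hp₂.norm_b]; gcongr
      _ = η := by ring
  have orth : ∀ (x : A) (T : Finset ι) {b₁ c₁ : A}, b₁ ∈ I → IsPair b₁ c₁ →
      ∃ b c : A, IsPair b c ∧ b₁ * b = b ∧ ∀ i ∈ T, ‖b * x * θ i b‖ ≤ η := by
    intro x T
    induction T using Finset.induction with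
    | empty =>
      intro b₁ c₁ _ h
      obtain ⟨b, c, hp, hb⟩ := exists_pair_below h
      exact ⟨b, c, hp, hb, by simp⟩
    | insert i T _ ih =>
      intro b₁ c₁ hm h
      obtain ⟨b, c, hp, hb, hT⟩ := ih hm h
      obtain ⟨b', c', hp', hb', hi⟩ :=
        hθ i b c (exc_mem hI hm hb hp).1 (exc_mem hI hm hb hp).2 hp x η hη
      refine ⟨b', c', hp', exc_trans hb hb', fun j hj => ?_⟩
      rcases Finset.mem_insert.1 hj with rfl | hj
      · exact hi
      · exact persist j x (IsSelfAdjoint.of_nonneg hp.nonneg.1) hp' hb' (hT j hj)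
  induction X using Finset.induction with
  | empty =>
    obtain ⟨b, c, hp, hb⟩ := exists_pair_below h₀
    exact ⟨b, c, hp, hb, by simp⟩
  | insert x X _ ih =>
    obtain ⟨b, c, hp, hb, hX⟩ := ih
    obtain ⟨b₁, c₁, z, hp₁, hb₁, hz⟩ := exists_step x hp hη
    obtain ⟨b₂, c₂, hp₂, hb₂, hT⟩ :=
      orth x T (exc_mem hI (exc_mem hI hb₀ hb hp).1 hb₁ hp₁).1 hp₁
    have hb12 : b * b₂ = b₂ := exc_trans hb₁ hb₂
    refine ⟨b₂, c₂, hp₂, exc_trans hb hb12, fun v hv => ?_⟩
    rcases Finset.mem_insert.1 hv with rfl | hv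
    · exact ⟨⟨z, fun y hy => hz y (exc_trans hb₂ hy)⟩, hT⟩
    · obtain ⟨⟨w, hw⟩, hi⟩ := hX v hv
      exact ⟨⟨w, fun y hy => hw y (exc_trans hb12 hy)⟩, fun i hiT =>
        persist i v (IsSelfAdjoint.of_nonneg hp.nonneg.1) hp₂ hb12 (hi i hiT)⟩

/-! ### The state -/

/-- The excised state below a pair of a right ideal. -/
theorem exists_excision_aux [Nontrivial A] [TopologicalSpace.SeparableSpace A] {I : Set A}
    (hI : ∀ u : A, ∀ x ∈ I, x * u ∈ I) {b₀ c₀ : A} (hb₀ : b₀ ∈ I) (h₀ : IsPair b₀ c₀)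
    {ι : Type*} [Countable ι] (θ : ι → A ≃⋆ₐ[ℂ] A) (hθ : ∀ i, IsOrthOn I (θ i)) :
    ∃ φ : A →ₗ[ℂ] ℂ, φ 1 = 1 ∧ φ b₀ = 1 ∧
      (∀ x, 0 ≤ (φ (star x * x)).re ∧ (φ (star x * x)).im = 0) ∧
      ∀ (X : Finset A) (T : Finset ι) (η : ℝ), 0 < η → ∃ b c : A, IsPair b c ∧ b₀ * b = b ∧
        (∀ x ∈ X, ∀ y : A, b * y = y →
          ‖star y * x * y - φ x • (star y * y)‖ ≤ η * ‖y‖ ^ 2) ∧
        ∀ i ∈ T, ∀ x ∈ X, ‖b * x * θ i b‖ ≤ η := by
  classical
  obtain ⟨d, hd⟩ := TopologicalSpace.exists_dense_seq A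
  obtain ⟨enc, henc⟩ := Countable.exists_injective_nat ι
  let Pr : Type _ := {p : A × A // IsPair p.1 p.2 ∧ p.1 ∈ I}
  choose nb nc hnp hnb hnx using fun (n : ℕ) (p : Pr) =>
    exists_steps hI θ hθ ((Finset.range (n + 1)).image d)
      ((Finset.range (n + 1)).preimage enc henc.injOn)
      (Nat.one_div_pos_of_nat (α := ℝ) (n := n)) p.2.2 p.2.1
  let P : ℕ → Pr := fun n =>
    Nat.rec ⟨(b₀, c₀), h₀, hb₀⟩ (fun m p =>
      ⟨(nb m p, nc m p), hnp m p, (exc_mem hI p.2.2 (hnb m p) (hnp m p)).1⟩) n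
  set B : ℕ → A := fun n => (P n).1.1 with hB
  set C : ℕ → A := fun n => (P n).1.2 with hC
  have hPBC : ∀ n, IsPair (B n) (C n) := fun n => (P n).2.1
  have hsucc : ∀ n, B (n + 1) = nb n (P n) := fun n => rfl
  have hnest : ∀ n m, n ≤ m → ∀ y : A, B m * y = y → B n * y = y := by
    intro n m hnm
    induction m, hnm using Nat.le_induction with
    | base => exact fun y hy => hy
    | succ m _ ih => exact fun y hy => ih y (exc_trans (hnb m (P m)) (hsucc m ▸ hy))
  -- both kinds of estimates, for every element and every tolerance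
  have hgood : ∀ x : A, ∀ η > (0 : ℝ), ∃ (N : ℕ) (z : ℂ), ∀ m ≥ N, ∀ y : A, B m * y = y →
      ‖star y * x * y - z • (star y * y)‖ ≤ η * ‖y‖ ^ 2 := by
    intro x η hη
    obtain ⟨j, hj⟩ := hd.exists_dist_lt x (half_pos hη)
    obtain ⟨n, hn⟩ := exists_nat_one_div_lt (half_pos hη)
    obtain ⟨z, hz⟩ := (hnx (max j n) (P (max j n)) (d j)
      (Finset.mem_image.2 ⟨j, Finset.mem_range.2 (by omega), rfl⟩)).1
    refine ⟨max j n + 1, z, fun m hm y hy => ?_⟩
    have h1 := hz y (hnest _ _ hm y hy)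
    have h2 : (1 : ℝ) / ((max j n : ℕ) + 1) ≤ η / 2 :=
      (Nat.one_div_le_one_div (le_max_right j n)).trans hn.le
    have h3 : ‖star y * (x - d j) * y‖ ≤ η / 2 * ‖y‖ ^ 2 :=
      calc _ ≤ ‖star y‖ * ‖x - d j‖ * ‖y‖ := (norm_mul_le _ _).trans
            (mul_le_mul_of_nonneg_right (norm_mul_le _ _) (norm_nonneg _))
        _ = ‖x - d j‖ * ‖y‖ ^ 2 := by rw [norm_star]; ring
        _ ≤ _ := mul_le_mul_of_nonneg_right (by rw [← dist_eq_norm]; exact hj.le) (sq_nonneg _)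
    calc ‖star y * x * y - z • (star y * y)‖
        = ‖star y * (x - d j) * y + (star y * d j * y - z • (star y * y))‖ := by
          congr 1; noncomm_ring
      _ ≤ η / 2 * ‖y‖ ^ 2 + η / 2 * ‖y‖ ^ 2 := (norm_add_le _ _).trans
          (add_le_add h3 (h1.trans (mul_le_mul_of_nonneg_right h2 (sq_nonneg _))))
      _ = η * ‖y‖ ^ 2 := by ring
  have hCn : ∀ m, ‖star (C m) * C m‖ = 1 := fun m => by
    rw [CStarRing.norm_star_mul_self, (hPBC m).norm_c, one_mul]
  -- scalars are determined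
  have key : ∀ (x : A) (m : ℕ) (z z' : ℂ) (a a' : ℝ),
      ‖star (C m) * x * C m - z • (star (C m) * C m)‖ ≤ a →
      ‖star (C m) * x * C m - z' • (star (C m) * C m)‖ ≤ a' → ‖z - z'‖ ≤ a + a' := by
    intro x m z z' a a' h h'
    have e := (norm_sub_le (star (C m) * x * C m - z' • (star (C m) * C m))
      (star (C m) * x * C m - z • (star (C m) * C m))).trans (add_le_add h' h)
    rw [sub_sub_sub_cancel_left, ← sub_smul, norm_smul, hCn, mul_one] at e
    linarith
  choose N z hz using fun x k => hgood x _ (Nat.one_div_pos_of_nat (α := ℝ) (n := k))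
  have hC2 : ∀ m, ‖C m‖ ^ 2 = 1 := fun m => by rw [(hPBC m).norm_c, one_pow]
  have hzd : ∀ x k l, ‖z x k - z x l‖ ≤ 1 / ((k : ℝ) + 1) + 1 / ((l : ℝ) + 1) := fun x k l => by
    have a := hz x k (max (N x k) (N x l)) (le_max_left _ _) _ (hPBC _).unit
    have b := hz x l (max (N x k) (N x l)) (le_max_right _ _) _ (hPBC _).unit
    rw [hC2, mul_one] at a b
    exact key x _ _ _ _ _ a b
  have hcauchy : ∀ x, CauchySeq (z x) := fun x => by
    refine Metric.cauchySeq_iff.2 fun e he => ?_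
    obtain ⟨K, hK⟩ := exists_nat_one_div_lt (half_pos he)
    refine ⟨K, fun m hm n hn => ?_⟩
    rw [dist_eq_norm]
    have a := Nat.one_div_le_one_div (α := ℝ) hm
    have b := Nat.one_div_le_one_div (α := ℝ) hn
    linarith [hzd x m n]
  choose f hf using fun x => cauchySeq_tendsto_of_complete (hcauchy x)
  have hfd : ∀ x k, ‖z x k - f x‖ ≤ 1 / ((k : ℝ) + 1) := fun x k => by
    refine le_of_tendsto_of_tendsto' ((tendsto_const_nhds.sub (hf x)).norm) ?_ (hzd x k)
    simpa using (tendsto_one_div_add_atTop_nhds_zero_nat (𝕜 := ℝ)).const_add (1 / ((k : ℝ) + 1))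
  have hf' : ∀ x, ∀ η > (0 : ℝ), ∃ N₀, ∀ m ≥ N₀, ∀ y : A, B m * y = y →
      ‖star y * x * y - f x • (star y * y)‖ ≤ η * ‖y‖ ^ 2 := by
    intro x η hη
    obtain ⟨k, hk⟩ := exists_nat_one_div_lt (half_pos hη)
    refine ⟨N x k, fun m hm y hy => ?_⟩
    calc ‖star y * x * y - f x • (star y * y)‖
        = ‖(star y * x * y - z x k • (star y * y)) + (z x k - f x) • (star y * y)‖ := by
          rw [sub_smul]; abel_nf
      _ ≤ 1 / ((k : ℝ) + 1) * ‖y‖ ^ 2 + 1 / ((k : ℝ) + 1) * ‖y‖ ^ 2 := by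
          refine (norm_add_le _ _).trans (add_le_add (hz x k m hm y hy) ?_)
          rw [norm_smul, CStarRing.norm_star_mul_self, ← sq]
          exact mul_le_mul_of_nonneg_right (hfd x k) (sq_nonneg _)
      _ ≤ η * ‖y‖ ^ 2 := by
          rw [← add_mul]
          exact mul_le_mul_of_nonneg_right (by linarith) (sq_nonneg _)
  have hfC : ∀ x, ∀ η > (0 : ℝ), ∃ N₀, ∀ m ≥ N₀,
      ‖star (C m) * x * C m - f x • (star (C m) * C m)‖ ≤ η := by
    intro x η hη
    obtain ⟨N₀, h⟩ := hf' x η hη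
    exact ⟨N₀, fun m hm => by simpa [hC2] using h m hm _ (hPBC m).unit⟩
  have huniq : ∀ x (w : ℂ), (∀ η > (0 : ℝ), ∃ N₀, ∀ m ≥ N₀,
      ‖star (C m) * x * C m - w • (star (C m) * C m)‖ ≤ η) → f x = w := by
    intro x w h
    refine eq_of_sub_eq_zero (norm_le_zero_iff.1 (le_of_forall_pos_le_add fun e he => ?_))
    obtain ⟨N₁, h₁⟩ := h _ (half_pos he)
    obtain ⟨N₂, h₂⟩ := hfC x _ (half_pos he)
    have := key x (max N₁ N₂) _ _ _ _ (h₂ _ (le_max_right _ _)) (h₁ _ (le_max_left _ _))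
    linarith
  have hadd : ∀ x y, f (x + y) = f x + f y := fun x y => huniq _ _ fun η hη => by
    obtain ⟨N₁, h₁⟩ := hfC x _ (half_pos hη)
    obtain ⟨N₂, h₂⟩ := hfC y _ (half_pos hη)
    refine ⟨max N₁ N₂, fun m hm => ?_⟩
    have e := (norm_add_le _ _).trans (add_le_add (h₁ m (le_of_max_le_left hm))
      (h₂ m (le_of_max_le_right hm)))
    rw [add_halves] at e
    refine le_of_eq_of_le (congrArg norm ?_) e
    rw [mul_add, add_mul, add_smul]
    abel
  have hsmul : ∀ (r : ℂ) x, f (r • x) = r * f x := fun r x => huniq _ _ fun η hη => by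
    obtain ⟨N₁, h₁⟩ := hfC x (η / (‖r‖ + 1)) (by positivity)
    refine ⟨N₁, fun m hm => ?_⟩
    rw [mul_smul_comm, smul_mul_assoc, mul_smul, ← smul_sub, norm_smul]
    calc ‖r‖ * _ ≤ (‖r‖ + 1) * (η / (‖r‖ + 1)) :=
          mul_le_mul (by linarith) (h₁ m hm) (norm_nonneg _) (by positivity)
      _ = η := by field_simp
  have hstar : ∀ x, f (star x) = star (f x) := fun x => huniq _ _ fun η hη => by
    obtain ⟨N₁, h₁⟩ := hfC x η hη
    refine ⟨N₁, fun m hm => ?_⟩
    have h := h₁ m hm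
    rw [← norm_star] at h
    simpa [star_sub, star_mul, star_smul, mul_assoc] using h
  have hpos : ∀ x, 0 ≤ (f (star x * x)).re ∧ (f (star x * x)).im = 0 := by
    intro x
    have him : (f (star x * x)).im = 0 := by
      have h := congrArg Complex.im (hstar (star x * x))
      rw [star_mul, star_star, Complex.star_def, Complex.conj_im] at h
      linarith
    refine ⟨?_, him⟩
    by_contra hre
    obtain ⟨N₁, h₁⟩ := hfC (star x * x) (-(f (star x * x)).re / 2) (by linarith)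
    have h := h₁ N₁ le_rfl
    set P₁ := star (C N₁) * (star x * x) * C N₁
    have hP₁ : (0 : A) ≤ P₁ := star_left_conjugate_nonneg (star_mul_self_nonneg x) _
    have e : f (star x * x) • (star (C N₁) * C N₁) =
        (f (star x * x)).re • (star (C N₁) * C N₁) := by
      conv_lhs => rw [← Complex.re_add_im (f (star x * x)), him]
      simp
    rw [e] at h
    have hle : (-(f (star x * x)).re) • (star (C N₁) * C N₁) ≤
        P₁ - (f (star x * x)).re • (star (C N₁) * C N₁) := by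
      rw [neg_smul, sub_eq_add_neg]
      exact le_add_of_nonneg_left hP₁
    have h4 := CStarAlgebra.norm_le_norm_of_nonneg_of_le
      (smul_nonneg (by linarith) (star_mul_self_nonneg _)) hle
    rw [norm_smul, hCn, mul_one, Real.norm_of_nonneg (by linarith)] at h4
    linarith
  have hb0 : ∀ m, b₀ * C m = C m := fun m => hnest 0 m (Nat.zero_le m) _ (hPBC m).unit
  refine ⟨{ toFun := f, map_add' := hadd, map_smul' := hsmul }, ?_, ?_, hpos, fun X T η hη => ?_⟩
  · exact huniq 1 1 fun η hη => ⟨0, fun m _ => by simp [hη.le]⟩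
  · exact huniq b₀ 1 fun η hη => ⟨0, fun m _ => by simp [mul_assoc, hb0, hη.le]⟩
  choose Nf hNf using fun x => hf' x η hη
  choose j hj using fun x : A => hd.exists_dist_lt x (half_pos hη)
  obtain ⟨k, hk⟩ := exists_nat_one_div_lt (half_pos hη)
  set n : ℕ := max (max (X.sup Nf) (X.sup j)) (max (T.sup enc) k)
  have hb0B : b₀ * B (n + 1) = B (n + 1) := by
    have h : B n * B (n + 1) = B (n + 1) := hsucc n ▸ hnb n (P n)
    exact hnest 0 n (Nat.zero_le n) _ h
  refine ⟨B (n + 1), C (n + 1), hPBC (n + 1), hb0B, fun x hx => hNf x (n + 1) ?_,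
    fun i hi x hx => ?_⟩
  · have := Finset.le_sup (f := Nf) hx
    omega
  · have hjn : j x < n + 1 := by
      have := Finset.le_sup (f := j) hx
      omega
    have hin : i ∈ (Finset.range (n + 1)).preimage enc henc.injOn := by
      have := Finset.le_sup (f := enc) hi
      exact Finset.mem_preimage.2 (Finset.mem_range.2 (by omega))
    have h1 := (hnx n (P n) (d (j x))
      (Finset.mem_image.2 ⟨j x, Finset.mem_range.2 hjn, rfl⟩)).2 i hin
    rw [← hsucc] at h1
    have h2 : (1 : ℝ) / ((n : ℝ) + 1) ≤ η / 2 :=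
      (Nat.one_div_le_one_div (by omega : k ≤ n)).trans hk.le
    set b := B (n + 1)
    have hb1 : ‖b‖ = 1 := (hPBC (n + 1)).norm_b
    have hθb : ‖θ i b‖ ≤ 1 := (NonUnitalStarAlgHom.norm_apply_le (θ i) b).trans hb1.le
    have h3 : ‖b * (x - d (j x)) * θ i b‖ ≤ η / 2 :=
      calc _ ≤ ‖b‖ * ‖x - d (j x)‖ * ‖θ i b‖ := (norm_mul_le _ _).trans
            (mul_le_mul_of_nonneg_right (norm_mul_le _ _) (norm_nonneg _))
        _ ≤ 1 * (η / 2) * 1 := by
            rw [hb1]; gcongr; rw [← dist_eq_norm]; exact (hj x).le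
        _ = η / 2 := by ring
    calc ‖b * x * θ i b‖ = ‖b * (x - d (j x)) * θ i b + b * d (j x) * θ i b‖ := by
          congr 1; noncomm_ring
      _ ≤ η / 2 + η / 2 := (norm_add_le _ _).trans (add_le_add h3 (h1.trans h2))
      _ = η := add_halves η

/-- Generic excision below a pair of a simple ideal. -/
theorem exists_excisionOn [TopologicalSpace.SeparableSpace A] {I : Set A} (hI : IsSimpleIdeal I)
    {b₀ c₀ : A} (hb : b₀ ∈ I) (_hc : c₀ ∈ I) (h0 : IsPair b₀ c₀) {ι : Type*} [Countable ι]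
    (θ : ι → A ≃⋆ₐ[ℂ] A) (hθ : ∀ i, IsOrthOn I (θ i)) :
    ∃ φ : A →ₗ[ℂ] ℂ, φ 1 = 1 ∧ φ b₀ = 1 ∧
      (∀ x, 0 ≤ (φ (star x * x)).re ∧ (φ (star x * x)).im = 0) ∧
      ∀ (X : Finset A) (T : Finset ι) (η : ℝ), 0 < η → ∃ b c : A, IsPair b c ∧ b₀ * b = b ∧
        (∀ x ∈ X, ∀ y : A, b * y = y →
          ‖star y * x * y - φ x • (star y * y)‖ ≤ η * ‖y‖ ^ 2) ∧
        ∀ i ∈ T, ∀ x ∈ X, ‖b * x * θ i b‖ ≤ η :=
  haveI : Nontrivial A := nontrivial_of_ne b₀ 0 fun h => by
    have := h0.norm_b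
    rw [h, norm_zero] at this
    exact zero_ne_one this
  exists_excision_aux hI.mul_mem_right hb h0 θ hθ

/-- An excised state, compatible with countably many automorphisms of the first kind. -/
theorem exists_excision [Nontrivial A] [TopologicalSpace.SeparableSpace A] {ι : Type*} [Countable ι]
    (θ : ι → A ≃⋆ₐ[ℂ] A) (hθ : ∀ i, IsOrth (θ i)) :
    ∃ φ : A →ₗ[ℂ] ℂ, φ 1 = 1 ∧ (∀ x, 0 ≤ (φ (star x * x)).re ∧ (φ (star x * x)).im = 0) ∧
      ∀ (X : Finset A) (T : Finset ι) (η : ℝ), 0 < η → ∃ b c : A, IsPair b c ∧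
        (∀ x ∈ X, ∀ y : A, b * y = y →
          ‖star y * x * y - φ x • (star y * y)‖ ≤ η * ‖y‖ ^ 2) ∧
        ∀ i ∈ T, ∀ x ∈ X, ‖b * x * θ i b‖ ≤ η := by
  obtain ⟨φ, h1, -, h2, h3⟩ := exists_excision_aux (I := Set.univ) (fun _ _ _ => Set.mem_univ _)
    (Set.mem_univ 1) exc_isPair_one θ fun i b₀ c₀ _ _ hp => hθ i b₀ c₀ hp
  refine ⟨φ, h1, h2, fun X T η hη => ?_⟩
  obtain ⟨b, c, hp, -, hx, ht⟩ := h3 X T η hη
  exact ⟨b, c, hp, hx, ht⟩

end Vale.P095.SI
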