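import Vale.Agent.P095.SI.Defs

/-!
# P095 (SI): the same notions relative to a simple ideal of a unital algebra

`I = univ` is the unital case, `I = A` inside `Unitization ℂ A` the nonunital one. The generic forms
of the modules are stated here; the unital statements are their instances.
-/

namespace Vale.P095.SI

variable {B : Type*} [CStarAlgebra B]

/-- A closed two-sided star ideal which is topologically simple. -/
structure IsSimpleIdeal (I : Set B) : Prop where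
  zero_mem : (0 : B) ∈ I
  add_mem : ∀ x ∈ I, ∀ y ∈ I, x + y ∈ I
  smul_mem : ∀ (c : ℂ), ∀ x ∈ I, c • x ∈ I
  mul_mem_left : ∀ (b : B), ∀ x ∈ I, b * x ∈ I
  mul_mem_right : ∀ (b : B), ∀ x ∈ I, x * b ∈ I
  star_mem : ∀ x ∈ I, star x ∈ I
  closed : IsClosed I
  simple : ∀ x ∈ I, x ≠ 0 → ∀ y ∈ I, ∀ ε : ℝ, 0 < ε → ∃ (n : ℕ) (a c : Fin n → B),
    (∀ i, a i ∈ I ∧ c i ∈ I) ∧ ‖(∑ i, a i * x * c i) - y‖ ≤ ε

/-- Complete positivity on matrices with entries in `I`. -/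
def IsCPOn (I : Set B) {C : Type*} [CStarAlgebra C] (f : B →ₗ[ℂ] C) : Prop :=
  ∀ (k : ℕ) (Y : CStarMatrix (Fin k) (Fin k) B), (∀ i j, Y i j ∈ I) →
    ∃ Z : CStarMatrix (Fin k) (Fin k) C, (star Y * Y).map f = star Z * Z

section
attribute [local instance] CStarAlgebra.spectralOrder CStarAlgebra.spectralOrderedRing

/-- Nuclearity of the ideal. -/
def HasCPAPOn (I : Set B) : Prop :=
  ∀ (D : Finset B), (∀ a ∈ D, a ∈ I) → ∀ ε : ℝ, 0 < ε →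
    ∃ (N : ℕ) (ρ : B →ₗ[ℂ] CStarMatrix (Fin N) (Fin N) ℂ)
      (ψ : CStarMatrix (Fin N) (Fin N) ℂ →ₗ[ℂ] B),
      IsCPOn I ρ ∧ IsCP ψ ∧ ∀ a ∈ D, ‖ψ (ρ a) - a‖ ≤ ε

end

/-- Orthogonality below pairs of the ideal. -/
def IsOrthOn (I : Set B) (θ : B ≃⋆ₐ[ℂ] B) : Prop :=
  ∀ b₀ c₀ : B, b₀ ∈ I → c₀ ∈ I → IsPair b₀ c₀ → ∀ (x : B) (δ : ℝ), 0 < δ →
    ∃ b c : B, IsPair b c ∧ b₀ * b = b ∧ ‖b * x * θ b‖ ≤ δ

/-- Asymptotically central elements are asymptotically fixed, strictly on the ideal. -/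
def AsympFixOn (I : Set B) (θ : B ≃⋆ₐ[ℂ] B) : Prop :=
  ∀ a ∈ I, ∀ ε : ℝ, 0 < ε → ∃ (D : Finset B) (η : ℝ), 0 < η ∧ (∀ d ∈ D, d ∈ I) ∧
    ∀ z : B, ‖z‖ ≤ 2 → (∀ d ∈ D, ‖z * d - d * z‖ ≤ η) → ‖(θ z - z) * a‖ ≤ ε

/-- The only use of comparison by traces: a small central element cut by `h` lies below a large one
cut by `c`. `Small` and `Large` may look at finitely many test elements. -/
def ComparesOn (I : Set B) (Small : Finset B → ℝ → B → Prop) (Large : Finset B → ℝ → ℝ → B → Prop) :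
    Prop :=
  ∀ g h b c : B, g ∈ I → IsPair g h → b ∈ I → IsPair b c → ∀ κ ε : ℝ, 0 < κ → 0 < ε →
    ∃ (D : Finset B) (δ η : ℝ), (∀ d ∈ D, d ∈ I) ∧ 0 < δ ∧ 0 < η ∧ ∀ e q : B, IsPos e → ‖e‖ ≤ 1 → IsPos q →
      ‖q‖ ≤ 1 → (∀ d ∈ D, ‖e * d - d * e‖ ≤ η ∧ ‖q * d - d * q‖ ≤ η) →
      Small D η e → Large D κ η q →
      CuntzLE (cfc (fun r : ℝ => max (r - ε) 0) (h * e * h))
        (cfc (fun r : ℝ => max (r - δ) 0) (c * q * c))

end Vale.P095.SI
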