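import Vale.Agent.P095.SI.Local
import Vale.Agent.P095.SI.Relative
import Vale.Agent.P095.SI.Excise

/-!
# P095 (SI): the local property on a simple ideal, comparison as a black box (owner: helper19)

As in `SI.Local`, with an approximate unit `k` of the ideal in front of the coefficients, a second
one `h` chosen after the decomposition (`h d ≈ d`), and pieces `u p = c √(q p) (t p)`, so that
`(u p)* (u p) ≈ h e h` by the given subequivalence.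
-/

namespace Vale.P095.SI

variable {B : Type*} [CStarAlgebra B]

section Tools

attribute [local instance] CStarAlgebra.spectralOrder CStarAlgebra.spectralOrderedRing

/-- Ramp from `r` to `r + w`. -/
noncomputable def lonRamp (r w : ℝ) (t : ℝ) : ℝ := max 0 (min 1 ((t - r) / w))

theorem continuous_lonRamp (r w : ℝ) : Continuous (lonRamp r w) := by
  unfold lonRamp; fun_prop

theorem lonRamp_nonneg (r w t : ℝ) : 0 ≤ lonRamp r w t := le_max_left _ _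

theorem lonRamp_le_one (r w t : ℝ) : lonRamp r w t ≤ 1 := max_le zero_le_one (min_le_left _ _)

theorem lonRamp_eq_zero {r w t : ℝ} (hw : 0 < w) (h : t ≤ r) : lonRamp r w t = 0 :=
  max_eq_left ((min_le_right _ _).trans (div_nonpos_of_nonpos_of_nonneg (sub_nonpos.2 h) hw.le))

theorem lonRamp_eq_one {r w t : ℝ} (hw : 0 < w) (h : r + w ≤ t) : lonRamp r w t = 1 := by
  rw [lonRamp, min_eq_left ((one_le_div hw).2 (by linarith)), max_eq_right zero_le_one]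

theorem lon_norm_ramp {z : B} [Nontrivial B] (hz : 0 ≤ z) {r w : ℝ} (hw : 0 < w)
    (hrw : r + w ≤ ‖z‖) : ‖cfc (lonRamp r w) z‖ = 1 := by
  refine le_antisymm (norm_cfc_le zero_le_one fun t _ => ?_) ?_
  · rw [Real.norm_eq_abs, abs_of_nonneg (lonRamp_nonneg _ _ _)]
    exact lonRamp_le_one _ _ _
  · have h := norm_apply_le_norm_cfc (lonRamp r w) z
      (CStarAlgebra.norm_mem_spectrum_of_nonneg (a := z) hz) (continuous_lonRamp r w).continuousOn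
      hz.isSelfAdjoint
    rwa [lonRamp_eq_one hw hrw, norm_one] at h

theorem lon_ramp_mem {I : Set B} (hI : IsSimpleIdeal I) {z : B} (hz : 0 ≤ z) (hzI : z ∈ I)
    {r w : ℝ} (hr : 0 < r) (hw : 0 < w) : cfc (lonRamp r w) z ∈ I := by
  have hc : Continuous fun t => lonRamp r w t / max t r :=
    (continuous_lonRamp r w).div (by fun_prop) fun t => (lt_max_of_lt_right hr).ne'
  have e : cfc (lonRamp r w) z = cfc (fun t => lonRamp r w t / max t r) z * z := by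
    conv_rhs => arg 2; rw [← cfc_id' ℝ z hz.isSelfAdjoint]
    rw [← cfc_mul (fun t => lonRamp r w t / max t r) (fun t : ℝ => t) z hc.continuousOn continuousOn_id]
    refine cfc_congr fun t _ => ?_
    rcases le_total t r with h | h
    · simp [lonRamp_eq_zero hw h]
    · rw [max_eq_left h, div_mul_cancel₀ _ (hr.trans_le h).ne']
  rw [e]
  exact hI.mul_mem_left _ _ hzI

/-- Approximate units of the ideal, as pairs. -/
theorem lon_unit {I : Set B} (hI : IsSimpleIdeal I) (hne : ∃ x ∈ I, x ≠ 0) (F : Finset B)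
    (hF : ∀ a ∈ F, a ∈ I) {ξ : ℝ} (hξ : 0 < ξ) :
    ∃ g h : B, g ∈ I ∧ h ∈ I ∧ IsPair g h ∧ IsSelfAdjoint h ∧ ∀ a ∈ F, ‖h * a - a‖ ≤ ξ := by
  classical
  obtain ⟨x₀, hx₀, hx₀'⟩ := hne
  have : Nontrivial B := ⟨⟨x₀, 0, hx₀'⟩⟩
  set F' : Finset B := insert x₀ F with hF'
  have hF'I : ∀ a ∈ F', a ∈ I := fun a ha => by
    rcases Finset.mem_insert.1 ha with rfl | ha
    exacts [hx₀, hF a ha]
  set z : B := ∑ a ∈ F', a * star a with hzdef
  have hle : ∀ a ∈ F', a * star a ≤ z := fun a ha =>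
    Finset.single_le_sum (fun b _ => mul_star_self_nonneg b) ha
  have hz : 0 ≤ z := Finset.sum_nonneg fun b _ => mul_star_self_nonneg b
  have hzI : z ∈ I := Finset.sum_induction _ (· ∈ I) (fun a b ha hb => hI.add_mem a ha b hb)
    hI.zero_mem fun a ha => hI.mul_mem_right _ _ (hF'I a ha)
  have hzpos : 0 < ‖z‖ := by
    refine lt_of_lt_of_le ?_ (CStarAlgebra.norm_le_norm_of_nonneg_of_le (mul_star_self_nonneg x₀)
      (hle x₀ (Finset.mem_insert_self _ _)))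
    rw [CStarRing.norm_self_mul_star]
    positivity
  set r : ℝ := min (ξ ^ 2 / 2) (‖z‖ / 2) with hr
  have hr0 : 0 < r := lt_min (by positivity) (by positivity)
  have hrz : r + r ≤ ‖z‖ := by linarith [min_le_right (ξ ^ 2 / 2) (‖z‖ / 2)]
  have hr2 : r / 2 + r / 2 ≤ ‖z‖ := by linarith
  have hgc := (continuous_lonRamp (r / 2) (r / 2)).continuousOn (s := spectrum ℝ z)
  have hhc := (continuous_lonRamp r r).continuousOn (s := spectrum ℝ z)
  set g : B := cfc (lonRamp (r / 2) (r / 2)) z with hg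
  set h : B := cfc (lonRamp r r) z with hh
  have hsa : IsSelfAdjoint h := cfc_predicate _ _
  refine ⟨g, h, lon_ramp_mem hI hz hzI (half_pos hr0) (half_pos hr0), lon_ramp_mem hI hz hzI hr0 hr0,
    ⟨loc_isPos (cfc_nonneg fun t _ => lonRamp_nonneg _ _ t),
      loc_isPos (cfc_nonneg fun t _ => lonRamp_nonneg _ _ t), lon_norm_ramp hz (half_pos hr0) hr2,
      lon_norm_ramp hz hr0 hrz, ?_⟩, hsa, fun a ha => ?_⟩
  · rw [hg, hh, ← cfc_mul _ _ z hgc hhc]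
    refine cfc_congr fun t _ => ?_
    rcases le_total t r with h1 | h1
    · rw [lonRamp_eq_zero hr0 h1, mul_zero]
    · rw [lonRamp_eq_one (half_pos hr0) (by linarith : r / 2 + r / 2 ≤ t), one_mul]
  · have h1 : (h - 1) * (a * star a) * (h - 1) ≤ (h - 1) * z * (h - 1) :=
      (hsa.sub (IsSelfAdjoint.one B)).conjugate_le_conjugate (hle a (Finset.mem_insert_of_mem ha))
    have h2 : ‖(h - 1) * z * (h - 1)‖ ≤ ξ ^ 2 := by
      have e : (h - 1) * z * (h - 1) =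
          cfc (fun t => (lonRamp r r t - 1) * t * (lonRamp r r t - 1)) z := by
        have hm1 : h - 1 = cfc (fun t => lonRamp r r t - 1) z := by
          rw [cfc_sub (lonRamp r r) (fun _ => (1 : ℝ)) z hhc continuousOn_const,
            cfc_const_one ℝ z hz.isSelfAdjoint]
        conv_lhs => arg 1; arg 2; rw [← cfc_id' ℝ z hz.isSelfAdjoint]
        rw [hm1, ← cfc_mul (fun t => lonRamp r r t - 1) (fun t : ℝ => t) z
            (hhc.sub continuousOn_const) continuousOn_id,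
          ← cfc_mul (fun t => (lonRamp r r t - 1) * t) (fun t => lonRamp r r t - 1) z
            ((hhc.sub continuousOn_const).mul continuousOn_id) (hhc.sub continuousOn_const)]
      rw [e]
      refine norm_cfc_le (sq_nonneg ξ) fun t ht => ?_
      have h0 : 0 ≤ t := spectrum_nonneg_of_nonneg hz ht
      rw [Real.norm_eq_abs]
      rcases le_total (r + r) t with h3 | h3
      · rw [lonRamp_eq_one hr0 h3]
        simpa using sq_nonneg ξ
      · have h4 : (lonRamp r r t - 1) ^ 2 ≤ 1 := by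
          nlinarith [lonRamp_nonneg r r t, lonRamp_le_one r r t]
        rw [show (lonRamp r r t - 1) * t * (lonRamp r r t - 1) = (lonRamp r r t - 1) ^ 2 * t by ring,
          abs_of_nonneg (mul_nonneg (sq_nonneg _) h0)]
        nlinarith [min_le_left (ξ ^ 2 / 2) (‖z‖ / 2)]
    have h5 := (CStarAlgebra.norm_le_norm_of_nonneg_of_le
      ((hsa.sub (IsSelfAdjoint.one B)).conjugate_nonneg (mul_star_self_nonneg a)) h1).trans h2
    rw [show (h - 1) * (a * star a) * (h - 1) = (h * a - a) * star (h * a - a) by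
      rw [star_sub, star_mul, hsa.star_eq]; noncomm_ring, CStarRing.norm_self_mul_star, ← sq] at h5
    exact (pow_le_pow_iff_left₀ (norm_nonneg _) hξ.le two_ne_zero).1 h5

theorem lon_poly_comm (p : Polynomial ℝ) :
    ∃ C : ℝ, 0 ≤ C ∧ ∀ q a : B, ‖q‖ ≤ 1 →
      ‖Polynomial.aeval q p * a - a * Polynomial.aeval q p‖ ≤ C * ‖q * a - a * q‖ := by
  induction p using Polynomial.induction_on' with
  | add p p' hp hp' =>
    obtain ⟨C, hC, h⟩ := hp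
    obtain ⟨C', hC', h'⟩ := hp'
    refine ⟨C + C', add_nonneg hC hC', fun q a hq => ?_⟩
    rw [map_add, add_mul, mul_add, add_sub_add_comm, add_mul C C']
    exact (norm_add_le _ _).trans (add_le_add (h q a hq) (h' q a hq))
  | monomial n c =>
    refine ⟨|c| * n, by positivity, fun q a hq => ?_⟩
    have hn : ∀ m : ℕ, ‖q ^ m * a - a * q ^ m‖ ≤ m * ‖q * a - a * q‖ := by
      intro m
      induction m with
      | zero => simp
      | succ m ih =>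
        rw [show q ^ (m + 1) * a - a * q ^ (m + 1) =
          q * (q ^ m * a - a * q ^ m) + (q * a - a * q) * q ^ m by rw [pow_succ']; noncomm_ring]
        refine (norm_add_le _ _).trans ?_
        have h1 := loc_norm_mul_le hq ih
        have h2 : ‖(q * a - a * q) * q ^ m‖ ≤ ‖q * a - a * q‖ := by
          rcases Nat.eq_zero_or_pos m with rfl | hm
          · simp
          · simpa using loc_norm_mul_le (le_refl ‖q * a - a * q‖)
              ((norm_pow_le' q hm).trans (pow_le_one₀ (norm_nonneg q) hq))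
        push_cast
        linarith
    rw [Polynomial.aeval_monomial, Algebra.algebraMap_eq_smul_one, smul_one_mul, smul_mul_assoc,
      mul_smul_comm, ← smul_sub, norm_smul, Real.norm_eq_abs, mul_assoc]
    exact mul_le_mul_of_nonneg_left (hn n) (abs_nonneg c)

/-- Square roots almost commute with what the element almost commutes with. -/
theorem lon_sqrt_comm {M ε : ℝ} (hM : 0 ≤ M) (hε : 0 < ε) :
    ∃ η : ℝ, 0 < η ∧ ∀ q a : B, 0 ≤ q → ‖q‖ ≤ 1 → ‖a‖ ≤ M → ‖q * a - a * q‖ ≤ η →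
      ‖CFC.sqrt q * a - a * CFC.sqrt q‖ ≤ ε := by
  obtain ⟨p, hp⟩ := exists_polynomial_near_of_continuousOn 0 1 Real.sqrt
    Real.continuous_sqrt.continuousOn (ε / (4 * (M + 1))) (by positivity)
  obtain ⟨C, hC, hCb⟩ := lon_poly_comm (B := B) p
  refine ⟨ε / (2 * (C + 1)), by positivity, fun q a hq hq1 ha hqa => ?_⟩
  have hd : ‖CFC.sqrt q - Polynomial.aeval q p‖ ≤ ε / (4 * (M + 1)) := by
    rw [CFC.sqrt_eq_real_sqrt q hq, cfcₙ_eq_cfc (f := Real.sqrt) (a := q)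
        Real.continuous_sqrt.continuousOn Real.sqrt_zero,
      ← cfc_polynomial p q hq.isSelfAdjoint,
      ← cfc_sub Real.sqrt (fun t => p.eval t) q Real.continuous_sqrt.continuousOn
        p.continuous.continuousOn]
    refine norm_cfc_le (by positivity) fun t ht => ?_
    have h1 : t ≤ 1 := by
      rcases subsingleton_or_nontrivial B with hs | hs
      · simp [spectrum.of_subsingleton] at ht
      exact ((le_abs_self t).trans
        (Real.norm_eq_abs t ▸ spectrum.norm_le_norm_of_mem ht)).trans hq1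
    rw [Real.norm_eq_abs, abs_sub_comm]
    simpa using (hp t ⟨spectrum_nonneg_of_nonneg hq ht, h1⟩).le
  set d : B := CFC.sqrt q - Polynomial.aeval q p with hd'
  rw [show CFC.sqrt q * a - a * CFC.sqrt q =
    (Polynomial.aeval q p * a - a * Polynomial.aeval q p) + (d * a - a * d) by
      rw [hd']; noncomm_ring]
  refine (norm_add_le _ _).trans ?_
  have h2 : ‖Polynomial.aeval q p * a - a * Polynomial.aeval q p‖ ≤ ε / 2 := by
    refine (hCb q a hq1).trans ((mul_le_mul_of_nonneg_left hqa hC).trans ?_)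
    rw [mul_div_assoc', div_le_div_iff₀ (by positivity) two_pos]
    nlinarith
  have h3 : ‖d * a - a * d‖ ≤ ε / 2 := by
    refine (norm_sub_le _ _).trans ((add_le_add (loc_norm_mul_le hd ha)
      (loc_norm_mul_le ha hd)).trans ?_)
    have h4 : ε / (4 * (M + 1)) * (M + 1) = ε / 4 := by field_simp
    nlinarith [show 0 ≤ ε / (4 * (M + 1)) by positivity]
  linarith

/-- What the hypotheses give for square roots. -/
theorem lon_derived (F : Finset B) {η₂ : ℝ} (hη₂ : 0 < η₂) :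
    ∃ η : ℝ, 0 < η ∧ ∀ (f : B) {L : ℕ} (q : Fin L → B), IsPos f → ‖f‖ ≤ 1 →
      (∀ p, IsPos (q p) ∧ ‖q p‖ ≤ 1) →
      (∀ a ∈ F, ∀ p, ‖q p * a - a * q p‖ ≤ η ∧
        ‖q p * (a * star a) - a * star a * q p‖ ≤ η ∧
        ‖(f * q p - q p) * (a * star a)‖ ≤ η) →
      (∀ a ∈ F, ∀ p p', p ≠ p' → ‖q p * q p' * (a * star a)‖ ≤ η) →
      ∀ a ∈ F, ∀ p, ‖CFC.sqrt (q p) * a - a * CFC.sqrt (q p)‖ ≤ η₂ ∧
        ‖(f * CFC.sqrt (q p) - CFC.sqrt (q p)) * a‖ ≤ η₂ ∧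
        ∀ p', p ≠ p' → ‖CFC.sqrt (q p) * CFC.sqrt (q p') * a‖ ≤ η₂ := by
  obtain ⟨M, hM1, hMa⟩ : ∃ M : ℝ, 1 ≤ M ∧ ∀ a ∈ F, ‖a‖ ≤ M ∧ ‖a * star a‖ ≤ M := by
    refine ⟨1 + ∑ a ∈ F, (‖a‖ + ‖a * star a‖),
      le_add_of_nonneg_right (Finset.sum_nonneg fun a _ => by positivity), fun a ha => ?_⟩
    have := Finset.single_le_sum (fun b _ => add_nonneg (norm_nonneg b) (norm_nonneg (b * star b)))
      ha (f := fun b : B => ‖b‖ + ‖b * star b‖)
    constructor <;> linarith [norm_nonneg a, norm_nonneg (a * star a)]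
  set η₃ : ℝ := min η₂ (η₂ ^ 2 / 8) with hη₃
  obtain ⟨η₄, hη₄, hcomm⟩ := lon_sqrt_comm (B := B) (M := M) (by linarith)
    (show 0 < η₃ from lt_min hη₂ (by positivity))
  refine ⟨min η₄ (min (η₂ ^ 2 / 8) (η₂ ^ 4 / (4 * M))),
    lt_min hη₄ (lt_min (by positivity) (by positivity)), fun f L q hf hf1 hq h h' a ha => ?_⟩
  have hη₃le : η₃ ≤ η₂ ^ 2 / 8 := min_le_right _ _
  have hη_a : min η₄ (min (η₂ ^ 2 / 8) (η₂ ^ 4 / (4 * M))) ≤ η₂ ^ 2 / 8 :=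
    (min_le_right _ _).trans (min_le_left _ _)
  have hη_b : min η₄ (min (η₂ ^ 2 / 8) (η₂ ^ 4 / (4 * M))) ≤ η₂ ^ 4 / (4 * M) :=
    (min_le_right _ _).trans (min_le_right _ _)
  set b : B := a * star a with hb
  have hq0 : ∀ p, 0 ≤ q p := fun p => loc_nonneg (hq p).1
  have hrb : ∀ p, ‖CFC.sqrt (q p) * b - b * CFC.sqrt (q p)‖ ≤ η₃ := fun p =>
    hcomm _ _ (hq0 p) (hq p).2 (hMa a ha).2 ((h a ha p).2.1.trans (min_le_left _ _))
  have hrs : ∀ p, star (CFC.sqrt (q p)) = CFC.sqrt (q p) := fun p =>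
    (CFC.sqrt_nonneg (q p)).isSelfAdjoint.star_eq
  have hrr : ∀ p, CFC.sqrt (q p) * CFC.sqrt (q p) = q p := fun p =>
    CFC.sqrt_mul_sqrt_self (q p) (hq0 p)
  have hr1 : ∀ p, ‖CFC.sqrt (q p)‖ ≤ 1 := fun p => by
    have e : ‖q p‖ = ‖CFC.sqrt (q p)‖ * ‖CFC.sqrt (q p)‖ := by
      rw [← CStarRing.norm_star_mul_self, hrs, hrr]
    nlinarith [(hq p).2, norm_nonneg (CFC.sqrt (q p))]
  have hfs : star f = f := (loc_nonneg hf).isSelfAdjoint.star_eq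
  intro p
  refine ⟨(hcomm _ _ (hq0 p) (hq p).2 (hMa a ha).1
    ((h a ha p).1.trans (min_le_left _ _))).trans (min_le_left _ _), ?_, fun p' hp => ?_⟩
  · set r := CFC.sqrt (q p) with hr
    refine (pow_le_pow_iff_left₀ (norm_nonneg _) hη₂.le two_ne_zero).1 ?_
    rw [sq, ← CStarRing.norm_self_mul_star]
    have e : (f * r - r) * a * star ((f * r - r) * a) =
        (f * q p - q p) * b * (f - 1) + (f * r - r) * (b * r - r * b) * (f - 1) := by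
      rw [← hrr p, star_mul, star_sub, star_mul, hrs, hfs, hb]
      noncomm_ring
    rw [e]
    have b1 : ‖f - 1‖ ≤ 2 := by
      rcases subsingleton_or_nontrivial B with hs | hs
      · rw [Subsingleton.elim (f - 1) 0, norm_zero]; norm_num
      · linarith [norm_sub_le f 1, CStarRing.norm_one (E := B)]
    have b2 : ‖f * r - r‖ ≤ 2 := by
      linarith [norm_sub_le (f * r) r, loc_norm_mul_le hf1 (hr1 p), hr1 p]
    refine (norm_add_le _ _).trans ((add_le_add (loc_norm_mul_le (h a ha p).2.2 b1)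
      (loc_norm_mul_le (loc_norm_mul_le b2 ((norm_sub_rev _ _).trans_le (hrb p))) b1)).trans ?_)
    linarith [sq_nonneg η₂]
  · set r := CFC.sqrt (q p) with hr
    set r' := CFC.sqrt (q p') with hr'
    have b1 : ‖r * q p' * b‖ ≤ η₂ ^ 2 / 2 := by
      refine (pow_le_pow_iff_left₀ (norm_nonneg _) (by positivity) two_ne_zero).1 ?_
      rw [sq, ← CStarRing.norm_star_mul_self]
      rw [show star (r * q p' * b) * (r * q p' * b) = star b * q p' * (q p * q p' * b) by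
        rw [star_mul (r * q p') b, star_mul r (q p'), hr, hrs, (hq0 p').isSelfAdjoint.star_eq]
        conv_rhs => rw [← hrr p]
        simp only [mul_assoc]]
      refine (loc_norm_mul_le (loc_norm_mul_le ((norm_star b).trans_le (hMa a ha).2) (hq p').2)
        ((h' a ha p p' hp).trans hη_b)).trans_eq ?_
      field_simp
      ring
    refine (pow_le_pow_iff_left₀ (norm_nonneg _) hη₂.le two_ne_zero).1 ?_
    rw [sq, ← CStarRing.norm_self_mul_star]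
    have e : r * r' * a * star (r * r' * a) = r * q p' * b * r + r * r' * (b * r' - r' * b) * r := by
      rw [← hrr p', star_mul, star_mul, hrs, hrs, hb]
      noncomm_ring
    rw [e]
    refine (norm_add_le _ _).trans ((add_le_add (loc_norm_mul_le b1 (hr1 p))
      (loc_norm_mul_le (loc_norm_mul_le (loc_norm_mul_le (hr1 p) (hr1 p'))
        ((norm_sub_rev _ _).trans_le (hrb p'))) (hr1 p))).trans ?_)
    nlinarith [sq_nonneg η₂]

end Tools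

section Main

attribute [local instance] CStarAlgebra.spectralOrder CStarAlgebra.spectralOrderedRing

/-- Cutting by `h` is invisible next to the coefficients. -/
theorem lon_move {h e d d' : B} {ξ η : ℝ} (hh : IsSelfAdjoint h) (hh1 : ‖h‖ ≤ 1) (he1 : ‖e‖ ≤ 1)
    (hd : ‖h * d - d‖ ≤ ξ) (hd' : ‖h * d' - d'‖ ≤ ξ) (hed : ‖e * star d - star d * e‖ ≤ η) :
    ‖star d * (h * e * h) * d' - e * (star d * d')‖ ≤ ξ * ‖d'‖ + ‖d‖ * ξ + η * ‖d'‖ := by
  rw [show star d * (h * e * h) * d' - e * (star d * d') =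
    star (h * d - d) * (e * (h * d')) + star d * (e * (h * d' - d')) +
      (star d * e - e * star d) * d' by
    rw [star_sub, star_mul, hh.star_eq]; noncomm_ring]
  have b1 := loc_norm_mul_le ((norm_star _).trans_le hd)
    (loc_norm_mul_le he1 (loc_norm_mul_le hh1 (le_refl ‖d'‖)))
  have b2 := loc_norm_mul_le (norm_star d).le (loc_norm_mul_le he1 hd')
  have b3 := loc_norm_mul_le ((norm_sub_rev _ _).trans_le hed) (le_refl ‖d'‖)
  refine ((norm_add_le _ _).trans (add_le_add ((norm_add_le _ _).trans (add_le_add b1 b2)) b3)).trans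
    ?_
  linarith

/-- The compressions add up, up to a change from `E` to `e`. -/
theorem lon_compress {L N : ℕ} (c d : Fin L → Fin N → B) (u : Fin L → B) (φ : B →ₗ[ℂ] ℂ)
    {a e E : B} {ε₀ η₁ ρ Φ : ℝ} (he1 : ‖e‖ ≤ 1) (hΦ : 0 ≤ Φ)
    (hmat : ∀ P Q : Fin L × Fin N, ‖star (u P.1) * (star (c P.1 P.2) * a * c Q.1 Q.2) * u Q.1 -
      (if P.1 = Q.1 then φ (star (c P.1 P.2) * a * c Q.1 Q.2) • E else 0)‖ ≤ η₁)
    (hφ : ∀ P Q : Fin L × Fin N, ‖φ (star (c P.1 P.2) * a * c Q.1 Q.2)‖ ≤ Φ)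
    (hd : ∀ P Q : Fin L × Fin N, ‖star (d P.1 P.2) * E * d Q.1 Q.2 -
      e * (star (d P.1 P.2) * d Q.1 Q.2)‖ ≤ ρ)
    (hdec : ‖∑ p, ∑ i, ∑ j, φ (star (c p i) * a * c p j) • (star (d p i) * d p j) - a‖ ≤ ε₀) :
    ‖star (∑ P : Fin L × Fin N, c P.1 P.2 * u P.1 * d P.1 P.2) * a *
        (∑ P : Fin L × Fin N, c P.1 P.2 * u P.1 * d P.1 P.2) - e * a‖ ≤
      (∑ P : Fin L × Fin N, ‖d P.1 P.2‖) * η₁ * (∑ P : Fin L × Fin N, ‖d P.1 P.2‖) +
        (Fintype.card (Fin L × Fin N) : ℝ) ^ 2 * (Φ * ρ) + ε₀ := by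
  classical
  set d' : Fin L × Fin N → B := fun P => d P.1 P.2 with hd'
  set ψ : Fin L × Fin N → Fin L × Fin N → ℂ := fun P Q =>
    if P.1 = Q.1 then φ (star (c P.1 P.2) * a * c Q.1 Q.2) else 0 with hψ
  have h1 : ‖star (∑ P : Fin L × Fin N, c P.1 P.2 * u P.1 * d' P) * a *
      (∑ P : Fin L × Fin N, c P.1 P.2 * u P.1 * d' P) -
      ∑ P, ∑ Q, star (d' P) * (ψ P Q • E) * d' Q‖ ≤ (∑ P, ‖d' P‖) * η₁ * ∑ P, ‖d' P‖ := by
    rw [loc_expand]
    simp only [← Finset.sum_sub_distrib, ← sub_mul, ← mul_sub]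
    refine loc_norm_sum_le d' d' _ η₁ fun P Q => ?_
    have h := hmat P Q
    simp only [hψ]
    split_ifs with hp
    · rwa [if_pos hp] at h
    · rw [if_neg hp] at h; rwa [zero_smul]
  have h2 : ‖∑ P, ∑ Q, star (d' P) * (ψ P Q • E) * d' Q -
      e * ∑ P, ∑ Q, ψ P Q • (star (d' P) * d' Q)‖ ≤
      (Fintype.card (Fin L × Fin N) : ℝ) ^ 2 * (Φ * ρ) := by
    simp only [Finset.mul_sum, ← Finset.sum_sub_distrib]
    calc _ ≤ ∑ P : Fin L × Fin N, ∑ Q : Fin L × Fin N, Φ * ρ := by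
          refine (norm_sum_le _ _).trans (Finset.sum_le_sum fun P _ =>
            (norm_sum_le _ _).trans (Finset.sum_le_sum fun Q _ => ?_))
          rw [show star (d' P) * (ψ P Q • E) * d' Q - e * (ψ P Q • (star (d' P) * d' Q)) =
            ψ P Q • (star (d' P) * E * d' Q - e * (star (d' P) * d' Q)) by
            simp only [mul_smul_comm, smul_mul_assoc, smul_sub], norm_smul]
          refine mul_le_mul ?_ (hd P Q) (norm_nonneg _) hΦ
          simp only [hψ]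
          split_ifs
          · exact hφ P Q
          · simpa using hΦ
      _ = _ := by
          simp only [Finset.sum_const, Finset.card_univ, nsmul_eq_mul]
          ring
  have h3 : ‖e * ∑ P, ∑ Q, ψ P Q • (star (d' P) * d' Q) - e * a‖ ≤ ε₀ := by
    rw [← mul_sub]
    have e3 : ∑ P, ∑ Q, ψ P Q • (star (d' P) * d' Q) =
        ∑ p, ∑ i, ∑ j, φ (star (c p i) * a * c p j) • (star (d p i) * d p j) := by
      rw [Fintype.sum_prod_type]
      refine Finset.sum_congr rfl fun p _ => Finset.sum_congr rfl fun i _ => ?_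
      rw [Fintype.sum_prod_type, Finset.sum_eq_single p (fun p' _ hne => by
        simp [hψ, Ne.symm hne]) (by simp)]
      simp [hψ, hd']
    rw [e3]
    simpa using loc_norm_mul_le he1 hdec
  have t1 := norm_sub_le_norm_sub_add_norm_sub
    (star (∑ P : Fin L × Fin N, c P.1 P.2 * u P.1 * d' P) * a *
      (∑ P : Fin L × Fin N, c P.1 P.2 * u P.1 * d' P))
    (∑ P, ∑ Q, star (d' P) * (ψ P Q • E) * d' Q) (e * a)
  have t2 := norm_sub_le_norm_sub_add_norm_sub (∑ P, ∑ Q, star (d' P) * (ψ P Q • E) * d' Q)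
    (e * ∑ P, ∑ Q, ψ P Q • (star (d' P) * d' Q)) (e * a)
  simp only [hd'] at t1 t2 h1 h2 h3
  linarith

/-- One piece. -/
theorem lon_piece {h e c q : B} {δ ε' η₂ R : ℝ} (hh : IsSelfAdjoint h) (hh1 : ‖h‖ ≤ 1)
    (he : 0 ≤ e) (he1 : ‖e‖ ≤ 1) (hc : IsSelfAdjoint c) (hc1 : ‖c‖ ≤ 1) (hq : 0 ≤ q)
    (hδ : 0 < δ) (hε' : 0 < ε') (hε4 : ε' ≤ 1 / 4) (hR : 2 / δ ≤ R) (hR1 : 1 ≤ R)
    (hη₂ : 2 * η₂ * R ^ 2 ≤ ε') (hqn : ‖q‖ ≤ 1)
    (hrc : ‖CFC.sqrt q * c - c * CFC.sqrt q‖ ≤ η₂)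
    (hle : CuntzLE (cfc (fun r : ℝ => max (r - ε') 0) (h * e * h))
      (cfc (fun r : ℝ => max (r - δ) 0) (c * q * c))) :
    ∃ t : B, ‖t‖ ≤ R ∧
      ‖star (c * CFC.sqrt q * t) * (c * CFC.sqrt q * t) - h * e * h‖ ≤ 4 * ε' ∧
      ‖c * CFC.sqrt q * t‖ ^ 2 ≤ 2 := by
  have hE1 : ‖h * e * h‖ ≤ 1 := by simpa using loc_norm_mul_le (loc_norm_mul_le hh1 he1) hh1
  have hle' : CuntzLE (cfc (fun r : ℝ => max 0 (r - ε')) (h * e * h))
      (cfc (fun r : ℝ => max 0 (r - δ)) (c * q * c)) := by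
    simpa only [max_comm (0 : ℝ)] using hle
  obtain ⟨t, ht, htn⟩ := loc_cut (hh.conjugate_nonneg he) hE1 (hc.conjugate_nonneg hq) hδ hε' hle'
  set r := CFC.sqrt q with hr
  have hrs : star r = r := (CFC.sqrt_nonneg q).isSelfAdjoint.star_eq
  have hrr : r * r = q := CFC.sqrt_mul_sqrt_self q hq
  have hr1 : ‖r‖ ≤ 1 := by
    have e : ‖q‖ = ‖r‖ * ‖r‖ := by rw [← CStarRing.norm_star_mul_self, hrs, hrr]
    nlinarith [norm_nonneg r]
  have htR : ‖t‖ ≤ R := by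
    have h2 : (1 + 2 * ε') / δ ≤ 2 / δ := by gcongr; linarith
    nlinarith [norm_nonneg t]
  have hdiff : ‖star t * (r * (c * c) * r - c * q * c) * t‖ ≤ 2 * η₂ * R ^ 2 := by
    have b1 : ‖r * (c * c) * r - c * q * c‖ ≤ 2 * η₂ := by
      rw [← hrr, show r * (c * c) * r - c * (r * r) * c =
        (r * c - c * r) * (c * r) + c * r * (c * r - r * c) by noncomm_ring]
      refine (norm_add_le _ _).trans ((add_le_add
        (loc_norm_mul_le hrc (loc_norm_mul_le hc1 hr1))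
        (loc_norm_mul_le (loc_norm_mul_le hc1 hr1) ((norm_sub_rev _ _).trans_le hrc))).trans ?_)
      linarith
    refine (loc_norm_mul_le (loc_norm_mul_le ((norm_star t).trans_le htR) b1) htR).trans_eq ?_
    ring
  have hu : ‖star (c * r * t) * (c * r * t) - h * e * h‖ ≤ 4 * ε' := by
    have e1 : star (c * r * t) * (c * r * t) = star t * (r * (c * c) * r) * t := by
      simp only [star_mul, hc.star_eq, hrs, mul_assoc]
    have e2 : star t * (r * (c * c) * r - c * q * c) * t =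
        star t * (r * (c * c) * r) * t - star t * (c * q * c) * t := by rw [mul_sub, sub_mul]
    rw [e2] at hdiff
    rw [e1]
    have := norm_sub_le_norm_sub_add_norm_sub (star t * (r * (c * c) * r) * t)
      (star t * (c * q * c) * t) (h * e * h)
    linarith
  refine ⟨t, htR, hu, ?_⟩
  rw [sq, ← CStarRing.norm_star_mul_self]
  linarith [norm_sub_norm_le (star (c * r * t) * (c * r * t)) (h * e * h)]

/-- Different pieces are orthogonal. -/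
theorem lon_cross {r r' c t t' z : B} {η₂ R : ℝ} (hr : IsSelfAdjoint r) (hr' : IsSelfAdjoint r')
    (hr1 : ‖r'‖ ≤ 1) (hc : IsSelfAdjoint c) (ht : ‖t‖ ≤ R) (ht' : ‖t'‖ ≤ R)
    (hz : ‖r * (c * z * c) - c * z * c * r‖ ≤ η₂) (hrr : ‖r' * r * star (c * z * c)‖ ≤ η₂) :
    ‖star (c * r * t) * z * (c * r' * t')‖ ≤ 2 * η₂ * R ^ 2 := by
  set Y : B := c * z * c with hY
  have e1 : star (c * r * t) * z * (c * r' * t') =
      star t * ((r * Y - Y * r) * r' + star (r' * r * star Y)) * t' := by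
    rw [star_mul (r' * r) (star Y), star_star, star_mul r' r, hr.star_eq, hr'.star_eq,
      show (r * Y - Y * r) * r' + Y * (r * r') = r * Y * r' by noncomm_ring]
    simp only [hY, star_mul, hr.star_eq, hc.star_eq, mul_assoc]
  rw [e1]
  refine (loc_norm_mul_le (loc_norm_mul_le ((norm_star t).trans_le ht)
    ((norm_add_le _ _).trans (add_le_add (loc_norm_mul_le hz hr1)
      ((norm_star _).trans_le hrr)))) ht').trans_eq ?_
  ring

/-- The matrix of the pieces. -/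
theorem lon_matrix {L : ℕ} {b c E : B} {X : Finset B} (φ : B →ₗ[ℂ] ℂ) (r t : Fin L → B)
    {η₁ η₂ ε' Φ R : ℝ} (hr : ∀ p, IsSelfAdjoint (r p) ∧ ‖r p‖ ≤ 1) (hc : IsSelfAdjoint c)
    (hbc : b * c = c) (ht : ∀ p, ‖t p‖ ≤ R)
    (hcX : ∀ z ∈ X, ∀ p, ‖r p * (c * z * c) - c * z * c * r p‖ ≤ η₂)
    (hrX : ∀ z ∈ X, ∀ p p', p ≠ p' → ‖r p' * r p * star (c * z * c)‖ ≤ η₂)
    (hexc : ∀ z ∈ X, ∀ y : B, b * y = y →
      ‖star y * z * y - φ z • (star y * y)‖ ≤ η₁ / 4 * ‖y‖ ^ 2)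
    (he : ∀ p, ‖star (c * r p * t p) * (c * r p * t p) - E‖ ≤ 4 * ε')
    (hu2 : ∀ p, ‖c * r p * t p‖ ^ 2 ≤ 2) (hΦ : ∀ z ∈ X, ‖φ z‖ ≤ Φ) (hη₁ : 0 ≤ η₁)
    (hΦ' : Φ * (8 * ε') ≤ η₁) (hη' : 2 * η₂ * R ^ 2 ≤ η₁) :
    ∀ z ∈ X, ∀ p p', ‖star (c * r p * t p) * z * (c * r p' * t p') -
      (if p = p' then φ z • E else 0)‖ ≤ η₁ := by
  intro z hz p p'
  split_ifs with hp
  · subst hp
    have h1 := hexc z hz (c * r p * t p) (by simp only [← mul_assoc, hbc])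
    have h2 : ‖φ z • (star (c * r p * t p) * (c * r p * t p)) - φ z • E‖ ≤ Φ * (4 * ε') := by
      rw [← smul_sub, norm_smul]
      exact mul_le_mul (hΦ z hz) (he p) (norm_nonneg _) ((norm_nonneg _).trans (hΦ z hz))
    have h3 := mul_le_mul_of_nonneg_left (hu2 p) (show 0 ≤ η₁ / 4 by positivity)
    have h5 := norm_sub_le_norm_sub_add_norm_sub (star (c * r p * t p) * z * (c * r p * t p))
      (φ z • (star (c * r p * t p) * (c * r p * t p))) (φ z • E)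
    linarith
  · rw [sub_zero]
    exact (lon_cross (hr p).1 (hr p').1 (hr p').2 hc (ht p) (ht p') (hcX z hz p)
      (hrX z hz p p' hp)).trans hη'

/-- Centrality, through a unit of the ideal. -/
theorem lon_central {k e s₀ a : B} {ε₀ ε K : ℝ} (hk : IsSelfAdjoint k) (hk1 : ‖k‖ ≤ 1)
    (he : IsSelfAdjoint e) (he1 : ‖e‖ ≤ 1) (hK : 1 + ‖a‖ ≤ K) (hε : 0 ≤ ε)
    (hε1 : 5 * ε₀ * K ≤ ε) (hεK : 20 * ε₀ * K ^ 2 ≤ ε ^ 2) (hε₀ : 0 ≤ ε₀)
    (h0 : ‖star s₀ * (k * k) * s₀ - e * (k * k)‖ ≤ 3 * ε₀)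
    (h1 : ‖star s₀ * (k * a * k) * s₀ - e * (k * a * k)‖ ≤ 3 * ε₀)
    (h2 : ‖star s₀ * (k * (star a * a) * k) * s₀ - e * (k * (star a * a) * k)‖ ≤ 3 * ε₀)
    (k1 : ‖k * a - a‖ ≤ ε₀) (k2 : ‖a * k - a‖ ≤ ε₀)
    (k3 : ‖k * (star a * a) - star a * a‖ ≤ ε₀) (k4 : ‖star a * a * k - star a * a‖ ≤ ε₀)
    (hea : ‖e * star a - star a * e‖ ≤ ε₀) :
    ‖(star (k * s₀) * (k * s₀) - e) * a‖ ≤ ε ∧ ‖k * s₀ * a - a * (k * s₀)‖ ≤ ε := by
  have hkk : ∀ x : B, ‖k * x - x‖ ≤ ε₀ → ‖x * k - x‖ ≤ ε₀ → ‖k * x * k - x‖ ≤ 2 * ε₀ := by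
    intro x g1 g2
    rw [show k * x * k - x = (k * x - x) * k + (x * k - x) by noncomm_ring]
    refine (norm_add_le _ _).trans ((add_le_add (loc_norm_mul_le g1 hk1) g2).trans ?_)
    linarith
  set s : B := k * s₀ with hs
  have es : ∀ x : B, star s * x * s = star s₀ * (k * x * k) * s₀ := fun x => by
    simp only [hs, star_mul, hk.star_eq, mul_assoc]
  have hx : ∀ x : B, ‖k * x - x‖ ≤ ε₀ → ‖x * k - x‖ ≤ ε₀ →
      ‖star s₀ * (k * x * k) * s₀ - e * (k * x * k)‖ ≤ 3 * ε₀ →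
      ‖star s * x * s - e * x‖ ≤ 5 * ε₀ := by
    intro x g1 g2 g3
    rw [es]
    have g4 := loc_norm_mul_le he1 (hkk x g1 g2)
    rw [mul_sub] at g4
    linarith [norm_sub_le_norm_sub_add_norm_sub (star s₀ * (k * x * k) * s₀) (e * (k * x * k))
      (e * x)]
  have hss : ‖(star s * s - e) * a‖ ≤ 5 * ε₀ * K := by
    rw [show (star s * s - e) * a = (star s * s - e * (k * k)) * a + e * (k * (k * a - a) + (k * a - a))
      by noncomm_ring]
    have es1 : star s * s = star s₀ * (k * k) * s₀ := by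
      simp only [hs, star_mul, hk.star_eq, mul_assoc]
    rw [es1]
    refine (norm_add_le _ _).trans ((add_le_add (loc_norm_mul_le h0 (le_refl ‖a‖))
      (loc_norm_mul_le he1 ((norm_add_le _ _).trans
        (add_le_add (loc_norm_mul_le hk1 k1) k1)))).trans ?_)
    nlinarith [norm_nonneg a]
  refine ⟨hss.trans hε1, ?_⟩
  have key : star (s * a - a * s) * (s * a - a * s) =
      star a * ((star s * s - e) * a) - star a * (star s * a * s - e * a) -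
        star (star s * a * s - e * a) * a + (star s * (star a * a) * s - e * (star a * a)) +
        (e * star a - star a * e) * a := by
    simp only [star_sub, star_mul, star_star, he.star_eq]
    noncomm_ring
  have hK1 : 1 ≤ K := le_trans (le_add_of_nonneg_right (norm_nonneg a)) hK
  have hρ : 5 * ε₀ ≤ 5 * ε₀ * K := le_mul_of_one_le_right (by linarith) hK1
  have hsq : ‖s * a - a * s‖ ^ 2 ≤ 20 * ε₀ * K ^ 2 := by
    rw [sq, ← CStarRing.norm_star_mul_self, key]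
    have b1 := loc_norm_mul_le (norm_star a).le hss
    have b2 := loc_norm_mul_le (norm_star a).le (hx a k1 k2 h1)
    have b3 := loc_norm_mul_le ((norm_star _).trans_le (hx a k1 k2 h1)) (le_refl ‖a‖)
    have b4 := hx (star a * a) k3 k4 h2
    have b5 := loc_norm_mul_le hea (le_refl ‖a‖)
    refine (norm_add_le _ _).trans ((add_le_add ((norm_add_le _ _).trans
      (add_le_add ((norm_sub_le _ _).trans (add_le_add ((norm_sub_le _ _).trans
        (add_le_add b1 b2)) b3)) b4)) b5).trans ?_)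
    nlinarith [norm_nonneg a]
  exact (pow_le_pow_iff_left₀ (norm_nonneg _) hε two_ne_zero).1 (hsq.trans hεK)

/-- The pieces sit below `f`. -/
theorem lon_below {f a r t d : B} {η R : ℝ} (hf : ‖f‖ ≤ 1) (ht : ‖t‖ ≤ R)
    (h1 : ‖r * a - a * r‖ ≤ η) (h2 : ‖(f * r - r) * a‖ ≤ η) :
    ‖f * (a * r * t * d) - a * r * t * d‖ ≤ 3 * η * R * ‖d‖ := by
  rw [show f * (a * r * t * d) - a * r * t * d =
    (f * (a * r - r * a) - (a * r - r * a) + (f * r - r) * a) * t * d by noncomm_ring]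
  refine loc_norm_mul_le (loc_norm_mul_le ?_ ht) le_rfl
  have h1' : ‖a * r - r * a‖ ≤ η := (norm_sub_rev _ _).trans_le h1
  refine (norm_add_le _ _).trans ((add_le_add ((norm_sub_le _ _).trans
    (add_le_add (loc_norm_mul_le hf h1') h1')) h2).trans ?_)
  linarith

/-- The element of the local property on the ideal. -/
theorem lon_finish {L N : ℕ} (c d : Fin L → Fin N → B) (r t : Fin L → B) (φ : B →ₗ[ℂ] ℂ)
    {ι : Type*} (θ : ι → B ≃⋆ₐ[ℂ] B) (D : Finset B) (T : Finset ι) {b c₀ k e f E : B}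
    {ε ε₀ η₁ η₂ ρ Φ R S K : ℝ} (hk : IsSelfAdjoint k) (hk1 : ‖k‖ ≤ 1) (he : IsSelfAdjoint e)
    (he1 : ‖e‖ ≤ 1) (hf1 : ‖f‖ ≤ 1) (hb : IsSelfAdjoint b) (hbc : b * c₀ = c₀) (hΦ : 0 ≤ Φ)
    (hη₁ : 0 ≤ η₁) (hη₂ : 0 ≤ η₂) (hR : 0 ≤ R)
    (hS : ∑ P : Fin L × Fin N, ‖d P.1 P.2‖ ≤ S)
    (hSη : (∑ P : Fin L × Fin N, ‖d P.1 P.2‖) * η₁ * (∑ P : Fin L × Fin N, ‖d P.1 P.2‖) ≤ ε₀)
    (hρΦ : (Fintype.card (Fin L × Fin N) : ℝ) ^ 2 * (Φ * ρ) ≤ ε₀) (hε : 0 ≤ ε) (hε₀1 : ε₀ ≤ 1)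
    (hε₀ε : ε₀ ≤ ε) (hε₀0 : 0 ≤ ε₀) (hε1 : 5 * ε₀ * K ≤ ε) (hεK : 20 * ε₀ * K ^ 2 ≤ ε ^ 2)
    (hKa : ∀ a ∈ D, 1 + ‖a‖ ≤ K) (hbelow : 3 * η₂ * R * S ≤ ε) (ht : ∀ p, ‖t p‖ ≤ R)
    (hu2 : ∀ p, ‖c₀ * r p * t p‖ ^ 2 ≤ 2)
    (D₂ : Finset B) (hkk : k * k ∈ D₂)
    (hD₂ : ∀ a ∈ D, k * a * k ∈ D₂ ∧ k * (star a * a) * k ∈ D₂)
    (hmat : ∀ a ∈ D₂, ∀ P Q : Fin L × Fin N,
      ‖star (c₀ * r P.1 * t P.1) * (star (c P.1 P.2) * a * c Q.1 Q.2) * (c₀ * r Q.1 * t Q.1) -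
      (if P.1 = Q.1 then φ (star (c P.1 P.2) * a * c Q.1 Q.2) • E else 0)‖ ≤ η₁)
    (hφ : ∀ a ∈ D₂, ∀ P Q : Fin L × Fin N, ‖φ (star (c P.1 P.2) * a * c Q.1 Q.2)‖ ≤ Φ)
    (hdec : ∀ a ∈ D₂,
      ‖∑ p, ∑ i, ∑ j, φ (star (c p i) * a * c p j) • (star (d p i) * d p j) - a‖ ≤ ε₀)
    (hd : ∀ P Q : Fin L × Fin N, ‖star (d P.1 P.2) * E * d Q.1 Q.2 -
      e * (star (d P.1 P.2) * d Q.1 Q.2)‖ ≤ ρ)
    (hkD : ∀ a ∈ D, ‖k * a - a‖ ≤ ε₀ ∧ ‖a * k - a‖ ≤ ε₀ ∧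
      ‖k * (star a * a) - star a * a‖ ≤ ε₀ ∧ ‖star a * a * k - star a * a‖ ≤ ε₀ ∧
      ‖e * star a - star a * e‖ ≤ ε₀)
    (hrC : ∀ P : Fin L × Fin N, ∀ p, ‖r p * (k * c P.1 P.2 * c₀) - k * c P.1 P.2 * c₀ * r p‖ ≤ η₂ ∧
      ‖(f * r p - r p) * (k * c P.1 P.2 * c₀)‖ ≤ η₂)
    (horth : ∀ i ∈ T, ∀ P Q : Fin L × Fin N,
      ‖b * (star (k * c P.1 P.2) * θ i (k * c Q.1 Q.2)) * θ i b‖ ≤ η₁ / 4) :
    ∃ s₀ : B, ‖k * s₀‖ ≤ 2 ∧
      (∀ a ∈ D, ‖(star (k * s₀) * (k * s₀) - e) * a‖ ≤ ε ∧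
        ‖k * s₀ * a - a * (k * s₀)‖ ≤ ε) ∧
      ‖f * (k * s₀) - k * s₀‖ ≤ ε ∧ ∀ i ∈ T, ‖star (k * s₀) * θ i (k * s₀)‖ ≤ ε := by
  set u : Fin L → B := fun p => c₀ * r p * t p with hu
  set s₀ : B := ∑ P : Fin L × Fin N, c P.1 P.2 * u P.1 * d P.1 P.2 with hs
  have hcompr : ∀ a ∈ D₂, ‖star s₀ * a * s₀ - e * a‖ ≤ 3 * ε₀ := fun a ha => by
    refine (lon_compress c d u φ he1 hΦ (hmat a ha) (hφ a ha) hd (hdec a ha)).trans ?_
    linarith
  refine ⟨s₀, ?_, fun a ha => ?_, ?_, fun i hi => ?_⟩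
  · have h := hcompr _ hkk
    have h2 : ‖e * (k * k)‖ ≤ 1 := by simpa using loc_norm_mul_le he1 (loc_norm_mul_le hk1 hk1)
    have h3 : ‖k * s₀‖ ^ 2 ≤ 2 ^ 2 := by
      rw [sq, ← CStarRing.norm_star_mul_self, show star (k * s₀) * (k * s₀) =
        star s₀ * (k * k) * s₀ by simp only [star_mul, hk.star_eq, mul_assoc]]
      linarith [norm_sub_norm_le (star s₀ * (k * k) * s₀) (e * (k * k))]
    exact (pow_le_pow_iff_left₀ (norm_nonneg _) zero_le_two two_ne_zero).1 h3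
  · obtain ⟨k1, k2, k3, k4, hea⟩ := hkD a ha
    exact lon_central hk hk1 he he1 (hKa a ha) hε hε1 hεK hε₀0 (hcompr _ hkk)
      (hcompr _ (hD₂ a ha).1) (hcompr _ (hD₂ a ha).2) k1 k2 k3 k4 hea
  · rw [hs, Finset.mul_sum, Finset.mul_sum, ← Finset.sum_sub_distrib]
    calc _ ≤ ∑ P : Fin L × Fin N, 3 * η₂ * R * ‖d P.1 P.2‖ := by
          refine (norm_sum_le _ _).trans (Finset.sum_le_sum fun P _ => ?_)
          rw [show k * (c P.1 P.2 * u P.1 * d P.1 P.2) =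
            k * c P.1 P.2 * c₀ * r P.1 * t P.1 * d P.1 P.2 by simp only [hu, mul_assoc]]
          exact lon_below hf1 (ht _) (hrC P _).1 (hrC P _).2
      _ = 3 * η₂ * R * ∑ P : Fin L × Fin N, ‖d P.1 P.2‖ := by rw [Finset.mul_sum]
      _ ≤ 3 * η₂ * R * S := mul_le_mul_of_nonneg_left hS (by positivity)
      _ ≤ ε := hbelow
  · have e1 : star (k * s₀) * θ i (k * s₀) = ∑ P : Fin L × Fin N, ∑ Q : Fin L × Fin N,
        star (d P.1 P.2) * (star (u P.1) * (star (k * c P.1 P.2) * θ i (k * c Q.1 Q.2)) *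
          θ i (u Q.1)) * θ i (d Q.1 Q.2) := by
      rw [hs, Finset.mul_sum, map_sum, star_sum, Finset.sum_mul]
      refine Finset.sum_congr rfl fun P _ => ?_
      rw [Finset.mul_sum]
      refine Finset.sum_congr rfl fun Q _ => ?_
      simp only [map_mul, star_mul, mul_assoc]
    rw [e1]
    refine (loc_norm_sum_le (fun P : Fin L × Fin N => d P.1 P.2)
      (fun Q : Fin L × Fin N => θ i (d Q.1 Q.2)) _ η₁ fun P Q => ?_).trans ?_
    · exact (loc_translate (θ i) hb (by simp only [← mul_assoc, hbc])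
        (by simp only [← mul_assoc, hbc]) (horth i hi P Q) (hu2 _) (hu2 _)).trans (by linarith)
    · simp only [StarAlgEquiv.norm_map]
      exact hSη.trans hε₀ε

/-- The coefficients and the excising pair fixed, the rest for one `κ`. -/
theorem lon_step {I : Set B} (hI : IsSimpleIdeal I) (hne : ∃ x ∈ I, x ≠ 0)
    (Small : Finset B → ℝ → B → Prop) (Large : Finset B → ℝ → ℝ → B → Prop)
    (hcmp : ComparesOn I Small Large)
    (hmono : ∀ D D' : Finset B, D ⊆ D' → ∀ η η' κ : ℝ, η' ≤ η → ∀ x,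
      (Small D' η' x → Small D η x) ∧ (Large D' κ η' x → Large D κ η x))
    {ι : Type*} (θ : ι → B ≃⋆ₐ[ℂ] B) (D : Finset B) (hD : ∀ a ∈ D, a ∈ I) (T : Finset ι)
    {L N : ℕ} (c d : Fin L → Fin N → B) (hcd : ∀ p i, c p i ∈ I ∧ d p i ∈ I) (φ : B →ₗ[ℂ] ℂ)
    (X D₂ : Finset B) {b c₀ k : B} (hbI : b ∈ I) (hbc : IsPair b c₀) (hkI : k ∈ I)
    (hk : IsSelfAdjoint k) (hk1 : ‖k‖ ≤ 1) {ε ε₀ η₁ Φ S K : ℝ} (hε : 0 < ε) (hε₀ : 0 < ε₀)
    (hε₀1 : ε₀ ≤ 1) (hε1 : 5 * ε₀ * K ≤ ε) (hεK : 20 * ε₀ * K ^ 2 ≤ ε ^ 2) (hε₀ε : ε₀ ≤ ε)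
    (hKa : ∀ a ∈ D, 1 + ‖a‖ ≤ K) (hΦ : ∀ z ∈ X, ‖φ z‖ ≤ Φ) (hΦ1 : 1 ≤ Φ)
    (hS : ∑ P : Fin L × Fin N, ‖d P.1 P.2‖ + 1 ≤ S) (hη₁ : 0 < η₁) (hη₁S : S * η₁ * S ≤ ε₀)
    (hkk : k * k ∈ D₂) (hD₂ : ∀ a ∈ D, k * a * k ∈ D₂ ∧ k * (star a * a) * k ∈ D₂)
    (hX₁ : ∀ a ∈ D₂, ∀ P Q : Fin L × Fin N, star (c P.1 P.2) * a * c Q.1 Q.2 ∈ X)
    (hX₂ : ∀ i ∈ T, ∀ P Q : Fin L × Fin N, star (k * c P.1 P.2) * θ i (k * c Q.1 Q.2) ∈ X)
    (hdec : ∀ a ∈ D₂,
      ‖∑ p, ∑ i, ∑ j, φ (star (c p i) * a * c p j) • (star (d p i) * d p j) - a‖ ≤ ε₀)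
    (hkD : ∀ a ∈ D, ‖k * a - a‖ ≤ ε₀ ∧ ‖a * k - a‖ ≤ ε₀ ∧
      ‖k * (star a * a) - star a * a‖ ≤ ε₀ ∧ ‖star a * a * k - star a * a‖ ≤ ε₀)
    (hexc : ∀ z ∈ X, ∀ y : B, b * y = y →
      ‖star y * z * y - φ z • (star y * y)‖ ≤ η₁ / 4 * ‖y‖ ^ 2)
    (horth : ∀ i ∈ T, ∀ z ∈ X, ‖b * z * θ i b‖ ≤ η₁ / 4) {κ : ℝ} (hκ : 0 < κ) :
    ∃ (D' : Finset B) (η : ℝ), (∀ a ∈ D', a ∈ I) ∧ 0 < η ∧
      ∀ (e f : B) (q : Fin L → B), IsPos e → ‖e‖ ≤ 1 → IsPos f → ‖f‖ ≤ 1 →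
        (∀ p, IsPos (q p) ∧ ‖q p‖ ≤ 1) →
        (∀ a ∈ D', ‖e * a - a * e‖ ≤ η ∧ ‖f * a - a * f‖ ≤ η ∧
          ∀ p, ‖q p * a - a * q p‖ ≤ η) →
        Small D' η e → (∀ p, Large D' κ η (q p)) →
        (∀ p p', p ≠ p' → ∀ a ∈ D', ‖q p * q p' * a‖ ≤ η) →
        (∀ p, ∀ a ∈ D', ‖(f * q p - q p) * a‖ ≤ η) →
        ∃ s : B, s ∈ I ∧ ‖s‖ ≤ 2 ∧
          (∀ a ∈ D, ‖(star s * s - e) * a‖ ≤ ε ∧ ‖s * a - a * s‖ ≤ ε) ∧ ‖f * s - s‖ ≤ ε ∧
          ∀ i ∈ T, ‖star s * θ i s‖ ≤ ε := by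
  classical
  have hb := (loc_nonneg hbc.pos_b).isSelfAdjoint
  have hc₀ := (loc_nonneg hbc.pos_c).isSelfAdjoint
  have hd0 : 0 ≤ ∑ P : Fin L × Fin N, ‖d P.1 P.2‖ := Finset.sum_nonneg fun P _ => norm_nonneg _
  have hS1 : 1 ≤ S := by linarith
  obtain ⟨n₂, hn₂, hn₂'⟩ : ∃ n₂ : ℝ, n₂ = (Fintype.card (Fin L × Fin N) : ℝ) ^ 2 ∧ 0 ≤ n₂ :=
    ⟨_, rfl, sq_nonneg _⟩
  -- the second unit
  obtain ⟨ξ, hξ, hξΦ⟩ : ∃ ξ : ℝ, 0 < ξ ∧ n₂ * (Φ * (3 * ξ * S)) ≤ ε₀ := by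
    refine ⟨ε₀ / (3 * S * Φ * n₂ + 1), div_pos hε₀ (by positivity), ?_⟩
    rw [show n₂ * (Φ * (3 * (ε₀ / (3 * S * Φ * n₂ + 1)) * S)) =
      ε₀ / (3 * S * Φ * n₂ + 1) * (3 * S * Φ * n₂) by ring, div_mul_eq_mul_div,
      div_le_iff₀ (by positivity)]
    nlinarith
  obtain ⟨g, h, hgI, -, hgh, hh, hhd⟩ := lon_unit hI hne
    (Finset.univ.image fun P : Fin L × Fin N => d P.1 P.2) (by
      simp only [Finset.mem_image, Finset.mem_univ, true_and]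
      rintro _ ⟨P, rfl⟩
      exact (hcd P.1 P.2).2) hξ
  have hh1 : ‖h‖ ≤ 1 := hgh.norm_c.le
  obtain ⟨ε', hε', hε4, hΦε'⟩ : ∃ ε' : ℝ, 0 < ε' ∧ ε' ≤ 1 / 4 ∧ Φ * (8 * ε') ≤ η₁ := by
    refine ⟨min (1 / 4) (η₁ / (8 * Φ)), lt_min (by norm_num) (by positivity), min_le_left _ _, ?_⟩
    have := (le_div_iff₀ (by positivity)).1 (min_le_right (1 / 4 : ℝ) (η₁ / (8 * Φ)))
    linarith
  obtain ⟨Dc, δ, ηc, hDc, hδ, hηc, hsub⟩ := hcmp g h b c₀ hgI hgh hbI hbc κ ε' hκ hε'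
  obtain ⟨R, hR, hR1⟩ : ∃ R : ℝ, 2 / δ ≤ R ∧ 1 ≤ R :=
    ⟨max (2 / δ) 1, le_max_left _ _, le_max_right _ _⟩
  obtain ⟨η₂, hη₂, hη₂η₁, hη₂ε', hη₂S⟩ : ∃ η₂ : ℝ, 0 < η₂ ∧ 2 * η₂ * R ^ 2 ≤ η₁ ∧
      2 * η₂ * R ^ 2 ≤ ε' ∧ 3 * η₂ * R * S ≤ ε := by
    refine ⟨min (η₁ / (2 * R ^ 2)) (min (ε' / (2 * R ^ 2)) (ε / (3 * R * S))),
      lt_min (by positivity) (lt_min (by positivity) (by positivity)), ?_, ?_, ?_⟩
    · have := (le_div_iff₀ (by positivity)).1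
        (min_le_left (η₁ / (2 * R ^ 2)) (min (ε' / (2 * R ^ 2)) (ε / (3 * R * S))))
      linarith
    · have := (le_div_iff₀ (by positivity)).1 ((min_le_right (η₁ / (2 * R ^ 2))
        (min (ε' / (2 * R ^ 2)) (ε / (3 * R * S)))).trans (min_le_left _ _))
      linarith
    · have := (le_div_iff₀ (by positivity)).1 ((min_le_right (η₁ / (2 * R ^ 2))
        (min (ε' / (2 * R ^ 2)) (ε / (3 * R * S)))).trans (min_le_right _ _))
      linarith
  have hc₀I : c₀ ∈ I := hbc.unit ▸ hI.mul_mem_right c₀ b hbI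
  set F : Finset B := X.image (fun z => c₀ * z * c₀) ∪ X.image (fun z => star (c₀ * z * c₀)) ∪
    Finset.univ.image (fun P : Fin L × Fin N => k * c P.1 P.2 * c₀) ∪ {c₀} with hF
  have hFI : ∀ a ∈ F, a ∈ I := by
    intro a ha
    simp only [hF, Finset.mem_union, Finset.mem_image, Finset.mem_singleton, Finset.mem_univ,
      true_and] at ha
    rcases ha with ((⟨z, -, rfl⟩ | ⟨z, -, rfl⟩) | ⟨P, rfl⟩) | rfl
    · exact hI.mul_mem_left _ _ hc₀I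
    · exact hI.star_mem _ (hI.mul_mem_left _ _ hc₀I)
    · exact hI.mul_mem_left _ _ hc₀I
    · exact hc₀I
  obtain ⟨η', hη', hder⟩ := lon_derived F hη₂
  set D' : Finset B := F ∪ F.image (fun a => a * star a) ∪ Dc ∪ D.image star ∪
    Finset.univ.image (fun P : Fin L × Fin N => star (d P.1 P.2)) with hD'
  obtain ⟨η, hη, hη_d, hη_c, hη_ξ, hη_0⟩ : ∃ η : ℝ, 0 < η ∧ η ≤ η' ∧ η ≤ ηc ∧ η ≤ ξ ∧ η ≤ ε₀ :=
    ⟨min (min η' ηc) (min ξ ε₀), lt_min (lt_min hη' hηc) (lt_min hξ hε₀),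
      (min_le_left _ _).trans (min_le_left _ _), (min_le_left _ _).trans (min_le_right _ _),
      (min_le_right _ _).trans (min_le_left _ _), (min_le_right _ _).trans (min_le_right _ _)⟩
  refine ⟨D', η, ?_, hη, fun e f q he he1 hf hf1 hq hcomm hsm hlg hqq hfq => ?_⟩
  · intro a ha
    simp only [hD', Finset.mem_union, Finset.mem_image, Finset.mem_univ, true_and] at ha
    rcases ha with (((ha | ⟨a, ha, rfl⟩) | ha) | ⟨a, ha, rfl⟩) | ⟨P, rfl⟩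
    · exact hFI a ha
    · exact hI.mul_mem_right _ _ (hFI a ha)
    · exact hDc a ha
    · exact hI.star_mem _ (hD a ha)
    · exact hI.star_mem _ (hcd P.1 P.2).2
  have hF1 : ∀ a ∈ F, a ∈ D' ∧ a * star a ∈ D' := fun a ha => by
    simp only [hD', Finset.mem_union, Finset.mem_image]
    exact ⟨Or.inl (Or.inl (Or.inl (Or.inl ha))), Or.inl (Or.inl (Or.inl (Or.inr ⟨a, ha, rfl⟩)))⟩
  have hDcD : Dc ⊆ D' := fun a ha => by
    simp only [hD', Finset.mem_union]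
    exact Or.inl (Or.inl (Or.inr ha))
  have hstar : ∀ a ∈ D, ‖e * star a - star a * e‖ ≤ ε₀ := fun a ha =>
    (hcomm (star a) (by
      simp only [hD', Finset.mem_union, Finset.mem_image]
      exact Or.inl (Or.inr ⟨a, ha, rfl⟩))).1.trans hη_0
  have hed : ∀ P : Fin L × Fin N, ‖e * star (d P.1 P.2) - star (d P.1 P.2) * e‖ ≤ ξ := fun P =>
    (hcomm (star (d P.1 P.2)) (by
      simp only [hD', Finset.mem_union, Finset.mem_image, Finset.mem_univ, true_and]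
      exact Or.inr ⟨P, rfl⟩)).1.trans hη_ξ
  have hr := hder f q hf hf1 hq
    (fun a ha p => ⟨((hcomm a (hF1 a ha).1).2.2 p).trans hη_d,
      ((hcomm _ (hF1 a ha).2).2.2 p).trans hη_d, (hfq p _ (hF1 a ha).2).trans hη_d⟩)
    (fun a ha p p' hp => (hqq p p' hp _ (hF1 a ha).2).trans hη_d)
  have hmemF : ∀ z ∈ X, c₀ * z * c₀ ∈ F ∧ star (c₀ * z * c₀) ∈ F := fun z hz => by
    simp only [hF, Finset.mem_union, Finset.mem_image]
    exact ⟨Or.inl (Or.inl (Or.inl ⟨z, hz, rfl⟩)), Or.inl (Or.inl (Or.inr ⟨z, hz, rfl⟩))⟩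
  have hc₀F : c₀ ∈ F := by simp [hF]
  have hpiece := fun p => lon_piece hh hh1 (loc_nonneg he) he1 hc₀ hbc.norm_c.le
    (loc_nonneg (hq p).1) hδ hε' hε4 hR hR1 hη₂ε' (hq p).2 (hr c₀ hc₀F p).1
    (hsub e (q p) he he1 (hq p).1 (hq p).2
      (fun x hx => ⟨(hcomm x (hDcD hx)).1.trans hη_c, ((hcomm x (hDcD hx)).2.2 p).trans hη_c⟩)
      ((hmono Dc D' hDcD ηc η κ hη_c e).1 hsm) ((hmono Dc D' hDcD ηc η κ hη_c (q p)).2 (hlg p)))
  choose t htR htE hu2 using hpiece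
  have hsqrt : ∀ p, IsSelfAdjoint (CFC.sqrt (q p)) ∧ ‖CFC.sqrt (q p)‖ ≤ 1 := fun p => by
    have hs : IsSelfAdjoint (CFC.sqrt (q p)) := (CFC.sqrt_nonneg (q p)).isSelfAdjoint
    refine ⟨hs, ?_⟩
    have e : ‖q p‖ = ‖CFC.sqrt (q p)‖ * ‖CFC.sqrt (q p)‖ := by
      rw [← CStarRing.norm_star_mul_self, hs.star_eq,
        CFC.sqrt_mul_sqrt_self (q p) (loc_nonneg (hq p).1)]
    nlinarith [(hq p).2, norm_nonneg (CFC.sqrt (q p))]
  have hmat := lon_matrix φ (fun p => CFC.sqrt (q p)) t hsqrt hc₀ hbc.unit htR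
    (fun z hz p => (hr _ (hmemF z hz).1 p).1)
    (fun z hz p p' hp => (hr _ (hmemF z hz).2 p').2.2 p (Ne.symm hp)) hexc htE hu2 hΦ hη₁.le hΦε'
    hη₂η₁
  have hS' : ∀ P : Fin L × Fin N, ‖d P.1 P.2‖ ≤ S := fun P => by
    linarith [Finset.single_le_sum (fun Q _ => norm_nonneg (d Q.1 Q.2)) (Finset.mem_univ P)
      (f := fun Q : Fin L × Fin N => ‖d Q.1 Q.2‖)]
  have hmove : ∀ P Q : Fin L × Fin N, ‖star (d P.1 P.2) * (h * e * h) * d Q.1 Q.2 -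
      e * (star (d P.1 P.2) * d Q.1 Q.2)‖ ≤ 3 * ξ * S := fun P Q => by
    refine (lon_move hh hh1 he1 (hhd _ (Finset.mem_image.2 ⟨P, Finset.mem_univ _, rfl⟩))
      (hhd _ (Finset.mem_image.2 ⟨Q, Finset.mem_univ _, rfl⟩)) (hed P)).trans ?_
    nlinarith [hS' P, hS' Q]
  obtain ⟨s₀, hs₁, hs₂, hs₃, hs₄⟩ := lon_finish c d (fun p => CFC.sqrt (q p)) t φ θ D T
    (η₁ := η₁) (η₂ := η₂) (ρ := 3 * ξ * S) (Φ := Φ) (R := R) (S := S) (K := K)
    (ε := ε) (ε₀ := ε₀) (f := f) (E := h * e * h) hk hk1 (loc_nonneg he).isSelfAdjoint he1 hf1 hb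
    hbc.unit (by linarith) hη₁.le hη₂.le (by linarith) (by linarith)
    ((mul_le_mul (mul_le_mul_of_nonneg_right (by linarith) hη₁.le) (by linarith) hd0
      (by positivity)).trans hη₁S)
    (hn₂ ▸ hξΦ) hε.le hε₀1 hε₀ε hε₀.le hε1 hεK hKa hη₂S htR hu2 D₂ hkk hD₂
    (fun a ha P Q => hmat _ (hX₁ a ha P Q) P.1 Q.1) (fun a ha P Q => hΦ _ (hX₁ a ha P Q)) hdec
    hmove (fun a ha => ⟨(hkD a ha).1, (hkD a ha).2.1, (hkD a ha).2.2.1, (hkD a ha).2.2.2,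
      hstar a ha⟩)
    (fun P p => by
      have hPF : k * c P.1 P.2 * c₀ ∈ F := by
        simp only [hF, Finset.mem_union, Finset.mem_image, Finset.mem_univ, true_and]
        exact Or.inl (Or.inr ⟨P, rfl⟩)
      exact ⟨(hr _ hPF p).1, (hr _ hPF p).2.1⟩)
    (fun i hi P Q => horth i hi _ (hX₂ i hi P Q))
  exact ⟨k * s₀, hI.mul_mem_right _ _ hkI, hs₁, hs₂, hs₃, hs₄⟩

/-- Property (SI) on a simple ideal, local form. -/
theorem si_localOn [TopologicalSpace.SeparableSpace B] {I : Set B} (hI : IsSimpleIdeal I)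
    (hne : ∃ x ∈ I, x ≠ 0) (hA : HasCPAPOn I) (Small : Finset B → ℝ → B → Prop)
    (Large : Finset B → ℝ → ℝ → B → Prop) (hcmp : ComparesOn I Small Large)
    (hmono : ∀ D D' : Finset B, D ⊆ D' → ∀ η η' κ : ℝ, η' ≤ η → ∀ x,
      (Small D' η' x → Small D η x) ∧ (Large D' κ η' x → Large D κ η x))
    {ι : Type*} [Countable ι] (θ : ι → B ≃⋆ₐ[ℂ] B) (hθ : ∀ i, IsOrthOn I (θ i))
    (D : Finset B) (hD : ∀ a ∈ D, a ∈ I) (T : Finset ι) {ε : ℝ} (hε : 0 < ε) :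
    ∃ L : ℕ, ∀ κ : ℝ, 0 < κ → ∃ (D' : Finset B) (η : ℝ), (∀ a ∈ D', a ∈ I) ∧ 0 < η ∧
      ∀ (e f : B) (q : Fin L → B), IsPos e → ‖e‖ ≤ 1 → IsPos f → ‖f‖ ≤ 1 →
        (∀ p, IsPos (q p) ∧ ‖q p‖ ≤ 1) →
        (∀ a ∈ D', ‖e * a - a * e‖ ≤ η ∧ ‖f * a - a * f‖ ≤ η ∧
          ∀ p, ‖q p * a - a * q p‖ ≤ η) →
        Small D' η e → (∀ p, Large D' κ η (q p)) →
        (∀ p p', p ≠ p' → ∀ a ∈ D', ‖q p * q p' * a‖ ≤ η) →
        (∀ p, ∀ a ∈ D', ‖(f * q p - q p) * a‖ ≤ η) →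
        ∃ s : B, s ∈ I ∧ ‖s‖ ≤ 2 ∧
          (∀ a ∈ D, ‖(star s * s - e) * a‖ ≤ ε ∧ ‖s * a - a * s‖ ≤ ε) ∧ ‖f * s - s‖ ≤ ε ∧
          ∀ i ∈ T, ‖star s * θ i s‖ ≤ ε := by
  classical
  -- a state excised below a pair of the ideal
  obtain ⟨b₀, c₁, hb₀I, hc₁I, hpair, -, -⟩ := lon_unit hI hne ∅ (by simp) one_pos
  obtain ⟨φ, -, hφb, hφ, hexc⟩ := exists_excisionOn hI hb₀I hc₁I hpair θ hθ
  obtain ⟨K, hK⟩ : ∃ K : ℝ, K = 1 + ∑ a ∈ D, ‖a‖ := ⟨_, rfl⟩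
  have hD0 : 0 ≤ ∑ a ∈ D, ‖a‖ := Finset.sum_nonneg fun a _ => norm_nonneg a
  have hK1 : 1 ≤ K := by linarith
  obtain ⟨ε₀, hε₀, hε₀1, hε1, hεK⟩ : ∃ ε₀ : ℝ, 0 < ε₀ ∧ ε₀ ≤ 1 ∧ 5 * ε₀ * K ≤ ε ∧
      20 * ε₀ * K ^ 2 ≤ ε ^ 2 := by
    refine ⟨min (min 1 (ε / (5 * K))) (ε ^ 2 / (20 * K ^ 2)),
      lt_min (lt_min one_pos (by positivity)) (by positivity),
      (min_le_left _ _).trans (min_le_left _ _), ?_, ?_⟩
    · have := (le_div_iff₀ (by positivity)).1 ((min_le_left (min 1 (ε / (5 * K)))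
        (ε ^ 2 / (20 * K ^ 2))).trans (min_le_right _ _))
      linarith
    · have := (le_div_iff₀ (by positivity)).1
        (min_le_right (min 1 (ε / (5 * K))) (ε ^ 2 / (20 * K ^ 2)))
      linarith
  have hε₀ε : ε₀ ≤ ε := by nlinarith
  set D₁ : Finset B := D ∪ D.image (fun a => star a * a) with hD₁
  have hD₁I : ∀ a ∈ D₁, a ∈ I := fun a ha => by
    simp only [hD₁, Finset.mem_union, Finset.mem_image] at ha
    rcases ha with ha | ⟨a, ha, rfl⟩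
    exacts [hD a ha, hI.mul_mem_left _ _ (hD a ha)]
  obtain ⟨g, k, -, hkI, hgk, hk, hkF⟩ := lon_unit hI hne (D₁ ∪ D₁.image star) (fun a ha => by
    simp only [Finset.mem_union, Finset.mem_image] at ha
    rcases ha with ha | ⟨a, ha, rfl⟩
    exacts [hD₁I a ha, hI.star_mem _ (hD₁I a ha)]) hε₀
  have hk' : ∀ a ∈ D₁, ‖k * a - a‖ ≤ ε₀ ∧ ‖a * k - a‖ ≤ ε₀ := fun a ha => by
    refine ⟨hkF a (Finset.mem_union_left _ ha), ?_⟩
    rw [← norm_star, star_sub, star_mul, hk.star_eq]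
    exact hkF _ (Finset.mem_union_right _ (Finset.mem_image.2 ⟨a, ha, rfl⟩))
  set D₂ : Finset B := D₁.image (fun a => k * a * k) ∪ {k * k} with hD₂
  obtain ⟨L, N, c, d, hcd, hdec⟩ := exists_decompositionOn hI hA φ hφ
    ⟨b₀, hb₀I, by rw [hφb]; exact one_ne_zero⟩ D₂ (fun a ha => by
      simp only [hD₂, Finset.mem_union, Finset.mem_image, Finset.mem_singleton] at ha
      rcases ha with ⟨a, -, rfl⟩ | rfl
      exacts [hI.mul_mem_left _ _ hkI, hI.mul_mem_left _ _ hkI]) hε₀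
  refine ⟨L, fun κ hκ => ?_⟩
  set PP : Finset ((Fin L × Fin N) × (Fin L × Fin N)) := Finset.univ with hPP
  set X : Finset B := (D₂ ×ˢ PP).image
      (fun z => star (c z.2.1.1 z.2.1.2) * z.1 * c z.2.2.1 z.2.2.2) ∪
    (T ×ˢ PP).image (fun z => star (k * c z.2.1.1 z.2.1.2) * θ z.1 (k * c z.2.2.1 z.2.2.2))
    with hX
  obtain ⟨S, hS⟩ : ∃ S : ℝ, S = ∑ P : Fin L × Fin N, ‖d P.1 P.2‖ + 1 := ⟨_, rfl⟩
  obtain ⟨Φ, hΦ⟩ : ∃ Φ : ℝ, Φ = 1 + ∑ x ∈ X, ‖φ x‖ := ⟨_, rfl⟩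
  have hd0 : 0 ≤ ∑ P : Fin L × Fin N, ‖d P.1 P.2‖ := Finset.sum_nonneg fun P _ => norm_nonneg _
  have hS1 : 1 ≤ S := by linarith
  have hΦ0 : 0 ≤ ∑ x ∈ X, ‖φ x‖ := Finset.sum_nonneg fun x _ => norm_nonneg _
  obtain ⟨η₁, hη₁, hη₁S⟩ : ∃ η₁ : ℝ, 0 < η₁ ∧ S * η₁ * S ≤ ε₀ := by
    refine ⟨ε₀ / S ^ 2, div_pos hε₀ (by positivity), le_of_eq ?_⟩
    have hSne : S ≠ 0 := by intro h; linarith
    field_simp
  obtain ⟨b, c₀, hbc, hbb, hexc', horth⟩ := hexc X T (η₁ / 4) (by positivity)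
  refine lon_step hI hne Small Large hcmp hmono θ D hD T c d hcd φ X D₂ (K := K) (S := S) (Φ := Φ)
    (b := b) (c₀ := c₀) (hbb ▸ hI.mul_mem_right b b₀ hb₀I) hbc hkI hk hgk.norm_c.le hε hε₀ hε₀1
    hε1 hεK hε₀ε (fun a ha => ?_) (fun z hz => ?_) (by linarith) hS.ge hη₁ hη₁S
    (Finset.mem_union_right _ (Finset.mem_singleton_self _))
    (fun a ha => ?_) (fun a ha P Q => ?_) (fun i hi P Q => ?_) hdec (fun a ha => ?_) hexc' horth hκ
  · linarith [Finset.single_le_sum (fun b _ => norm_nonneg b) ha (f := fun b : B => ‖b‖)]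
  · linarith [Finset.single_le_sum (fun w _ => norm_nonneg (φ w)) hz (f := fun w => ‖φ w‖)]
  · simp only [hD₂, hD₁, Finset.mem_union, Finset.mem_image]
    exact ⟨Or.inl ⟨a, Or.inl ha, rfl⟩, Or.inl ⟨star a * a, Or.inr ⟨a, ha, rfl⟩, rfl⟩⟩
  · exact Finset.mem_union_left _ (Finset.mem_image.2
      ⟨(a, (P, Q)), Finset.mem_product.2 ⟨ha, Finset.mem_univ _⟩, rfl⟩)
  · exact Finset.mem_union_right _ (Finset.mem_image.2
      ⟨(i, (P, Q)), Finset.mem_product.2 ⟨hi, Finset.mem_univ _⟩, rfl⟩)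
  · have h1 := hk' a (Finset.mem_union_left _ ha)
    have h2 := hk' (star a * a) (Finset.mem_union_right _ (Finset.mem_image.2 ⟨a, ha, rfl⟩))
    exact ⟨h1.1, h1.2, h2.1, h2.2⟩

end Main

end Vale.P095.SI
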