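import Vale.Agent.P095.SI.Defs
import Vale.Agent.P095.Tracial.Main

/-!
# P095 (SI): the pieces under `x x*`

From almost invariant, almost central exact square zero elements with almost full trace: a plateau
version `x`, its defect `e`, and `L` almost orthogonal positive pieces under `x x*` with traces
bounded below. The pieces are `s Q s`, `s` a cutoff of `x x*` and `Q` products of fresh copies.
-/

open Filter Topology

namespace Vale.P095.SI

open Vale.P095.Tracial

variable {A : Type*} [CStarAlgebra A] {G : Type*} [Group G]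

/-- Almost invariant, almost central exact square zero elements with almost full trace. -/
def InvSquareZero (α : G →* (A ≃⋆ₐ[ℂ] A)) : Prop :=
  ∀ (D : Finset A) (S : Finset G) (ε : ℝ), 0 < ε → ∃ x : A, ‖x‖ ≤ 1 ∧ x * x = 0 ∧
    (∀ a ∈ D, ‖x * a - a * x‖ ≤ ε) ∧ (∀ g ∈ S, ‖α g x - x‖ ≤ ε) ∧
    ∀ τ : TracialState A, 1 - ε ≤ (τ.toLin (star x * x + x * star x)).re

private theorem pow_intertwine {x a b : A} (ha : ‖a‖ ≤ 1) (hb : ‖b‖ ≤ 1) (n : ℕ) :
    ‖x * a ^ n - b ^ n * x‖ ≤ n * ‖x * a - b * x‖ := by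
  nontriviality A
  have hpow : ∀ (c : A), ‖c‖ ≤ 1 → ∀ m : ℕ, ‖c ^ m‖ ≤ 1 := fun c hc m =>
    (norm_pow_le _ m).trans (pow_le_one₀ (norm_nonneg _) hc)
  induction n with
  | zero => simp
  | succ n ih =>
    have e : x * a ^ (n + 1) - b ^ (n + 1) * x
        = (x * a ^ n - b ^ n * x) * a + b ^ n * (x * a - b * x) := by
      simp only [pow_succ, sub_mul, mul_sub, ← mul_assoc]; abel
    rw [e]
    refine (norm_add_le _ _).trans ?_
    have h1 : ‖(x * a ^ n - b ^ n * x) * a‖ ≤ n * ‖x * a - b * x‖ :=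
      (norm_mul_le _ _).trans
        ((mul_le_of_le_one_right (norm_nonneg _) ha).trans ih)
    have h2 : ‖b ^ n * (x * a - b * x)‖ ≤ ‖x * a - b * x‖ :=
      (norm_mul_le _ _).trans (mul_le_of_le_one_left (norm_nonneg _) (hpow b hb n))
    push_cast
    linarith

private theorem poly_intertwine (p : Polynomial ℝ) : ∃ C : ℝ, 0 ≤ C ∧ ∀ x a b : A,
    ‖a‖ ≤ 1 → ‖b‖ ≤ 1 →
      ‖x * Polynomial.aeval a p - Polynomial.aeval b p * x‖ ≤ C * ‖x * a - b * x‖ := by
  induction p using Polynomial.induction_on' with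
  | add p q hp hq =>
    obtain ⟨C, hC, hp⟩ := hp
    obtain ⟨C', hC', hq⟩ := hq
    refine ⟨C + C', add_nonneg hC hC', fun x a b ha hb => ?_⟩
    rw [map_add, map_add, mul_add, add_mul, add_sub_add_comm, add_mul C]
    exact (norm_add_le _ _).trans (add_le_add (hp x a b ha hb) (hq x a b ha hb))
  | monomial n c =>
    refine ⟨|c| * n, by positivity, fun x a b ha hb => ?_⟩
    simp only [Polynomial.aeval_monomial, ← Algebra.smul_def, mul_smul_comm, smul_mul_assoc,
      ← smul_sub, norm_smul, Real.norm_eq_abs, mul_assoc |c|]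
    exact mul_le_mul_of_nonneg_left (pow_intertwine ha hb n) (abs_nonneg c)

/-- Continuous functional calculus is uniformly continuous on almost intertwined contractions. -/
theorem cfc_almost_intertwine {f : ℝ → ℝ} (hf : Continuous f) {R η : ℝ} (hR : 0 ≤ R)
    (hη : 0 < η) : ∃ δ : ℝ, 0 < δ ∧ ∀ x a b : A, IsSelfAdjoint a → IsSelfAdjoint b →
      ‖a‖ ≤ 1 → ‖b‖ ≤ 1 → ‖x‖ ≤ R → ‖x * a - b * x‖ ≤ δ →
        ‖x * cfc f a - cfc f b * x‖ ≤ η := by
  rcases subsingleton_or_nontrivial A with hA | hA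
  · refine ⟨1, one_pos, fun x a b _ _ _ _ _ _ => ?_⟩
    rw [Subsingleton.elim (x * cfc f a - cfc f b * x) 0, norm_zero]
    exact hη.le
  obtain ⟨p, hp⟩ := exists_polynomial_near_continuousMap (-1) 1
    ⟨fun t => f t, hf.comp continuous_subtype_val⟩ (η / (4 * (R + 1))) (by positivity)
  obtain ⟨C, hC, hpC⟩ := poly_intertwine (A := A) p
  refine ⟨η / (2 * (C + 1)), by positivity, fun x a b ha hb han hbn hxR h => ?_⟩
  have hap : ∀ c : A, IsSelfAdjoint c → ‖c‖ ≤ 1 →
      ‖cfc f c - Polynomial.aeval c p‖ ≤ η / (4 * (R + 1)) := by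
    intro c hc hc1
    rw [← cfc_polynomial p c, ← cfc_sub f (fun t => p.eval t) c hf.continuousOn
      p.continuous.continuousOn]
    refine norm_cfc_le (by positivity) fun t ht => ?_
    have ht' : t ∈ Set.Icc (-1 : ℝ) 1 := by
      have := (spectrum.norm_le_norm_of_mem ht).trans hc1
      rw [Real.norm_eq_abs, abs_le] at this
      exact this
    have := ContinuousMap.norm_coe_le_norm
      (p.toContinuousMapOn (Set.Icc (-1) 1) - ⟨fun t => f t, hf.comp continuous_subtype_val⟩)
      ⟨t, ht'⟩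
    simp only [ContinuousMap.sub_apply, Polynomial.toContinuousMapOn_apply,
      Polynomial.toContinuousMap_apply, ContinuousMap.coe_mk] at this
    rw [norm_sub_rev]
    linarith
  calc ‖x * cfc f a - cfc f b * x‖
      = ‖x * (cfc f a - Polynomial.aeval a p) - (cfc f b - Polynomial.aeval b p) * x
          + (x * Polynomial.aeval a p - Polynomial.aeval b p * x)‖ := by
        rw [mul_sub, sub_mul]; abel_nf
    _ ≤ R * (η / (4 * (R + 1))) + η / (4 * (R + 1)) * R + C * (η / (2 * (C + 1))) := by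
        refine (norm_add_le _ _).trans (add_le_add ((norm_sub_le _ _).trans (add_le_add ?_ ?_))
          ((hpC x a b han hbn).trans (mul_le_mul_of_nonneg_left h hC)))
        · exact (norm_mul_le _ _).trans (mul_le_mul hxR (hap a ha han) (norm_nonneg _) hR)
        · exact (norm_mul_le _ _).trans
            (mul_le_mul (hap b hb hbn) hxR (norm_nonneg _) (by positivity))
    _ ≤ η := by
        have e1 : R * (η / (4 * (R + 1))) ≤ η / 4 := by
          rw [mul_div_assoc', div_le_iff₀ (by positivity)]; nlinarith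
        have e2 : C * (η / (2 * (C + 1))) ≤ η / 2 := by
          rw [mul_div_assoc', div_le_iff₀ (by positivity)]; nlinarith
        nlinarith

private theorem norm_comm_star {x y : A} :
    ‖star x * y - y * star x‖ = ‖x * star y - star y * x‖ := by
  rw [← norm_neg, ← norm_star]
  simp [star_mul, neg_sub]

section Order

attribute [local instance] CStarAlgebra.spectralOrder CStarAlgebra.spectralOrderedRing

private theorem isPos_of_nonneg {a : A} (h : 0 ≤ a) : IsPos a :=
  ⟨CFC.sqrt a, by rw [(CFC.sqrt_nonneg a).isSelfAdjoint.star_eq, CFC.sqrt_mul_sqrt_self a h]⟩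

private theorem nonneg_of_isPos {a : A} (h : IsPos a) : 0 ≤ a := by
  obtain ⟨y, rfl⟩ := h
  exact star_mul_self_nonneg y

/-- The sum of two orthogonal positive contractions is a contraction. -/
theorem add_le_one_of_orth {p q : A} (hp : 0 ≤ p) (hq : 0 ≤ q) (hp1 : ‖p‖ ≤ 1)
    (hq1 : ‖q‖ ≤ 1) (h : p * q = 0) : p + q ≤ 1 := by
  nontriviality A
  have hsq : ∀ c : A, 0 ≤ c → ‖c‖ ≤ 1 → c * c ≤ c := fun c hc h1 => by
    have e : c * c = cfc (fun t : ℝ => t * t) c := by
      rw [cfc_mul (fun t => t) (fun t => t) c, cfc_id' ℝ c]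
    rw [e]
    conv_rhs => rw [← cfc_id' ℝ c hc.isSelfAdjoint]
    refine cfc_mono fun t ht => ?_
    have := (spectrum.norm_le_norm_of_mem ht).trans h1
    rw [Real.norm_eq_abs, abs_le] at this
    nlinarith [spectrum_nonneg_of_nonneg hc ht]
  have hqp : q * p = 0 := by
    simpa [hp.isSelfAdjoint.star_eq, hq.isSelfAdjoint.star_eq] using congrArg star h
  have hz : (p + q) * (p + q) ≤ p + q := by
    simp only [mul_add, add_mul, h, hqp, add_zero, zero_add]
    exact add_le_add (hsq p hp hp1) (hsq q hq hq1)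
  have hs := (add_nonneg hp hq).isSelfAdjoint
  have hn : ‖p + q‖ ≤ 1 := by
    have h0 : 0 ≤ (p + q) * (p + q) := by
      simpa [hs.star_eq] using star_mul_self_nonneg (p + q)
    have := CStarAlgebra.norm_le_norm_of_nonneg_of_le h0 hz
    have e : ‖(p + q) * (p + q)‖ = ‖p + q‖ * ‖p + q‖ := by
      conv_lhs => enter [1, 1]; rw [← hs.star_eq]
      exact CStarRing.norm_star_mul_self
    nlinarith [norm_nonneg (p + q)]
  exact hs.le_algebraMap_norm_self.trans (by simpa using algebraMap_mono A hn)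

/-- `|τ w| ≤ ‖w‖`. -/
theorem abs_trace_le_norm {t : A →ₗ[ℝ] ℝ} (ht : IsTrace t) (h1 : t 1 = 1) (w : A) :
    |t w| ≤ ‖w‖ := by
  have h := ht.cauchy_schwarz 1 w
  simp only [star_one, one_mul, h1] at h
  have h2 : t (star w * w) ≤ ‖w‖ ^ 2 := by
    refine (ht.mono (IsSelfAdjoint.le_algebraMap_norm_self (IsSelfAdjoint.star_mul_self w))).trans ?_
    rw [Algebra.algebraMap_eq_smul_one, map_smul, h1, smul_eq_mul, mul_one,
      CStarRing.norm_star_mul_self, sq]
  exact abs_le_of_sq_le_sq (h.trans h2) (norm_nonneg w)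

/-- The consequences of almost full trace of `x* x + x x*` for an exact square zero contraction. -/
theorem trace_facts {t : A →ₗ[ℝ] ℝ} (ht : IsTrace t) (h1 : t 1 = 1) {x Q : A}
    {ε δ : ℝ} (hx : ‖x‖ ≤ 1) (hxx : x * x = 0) (hfull : 1 - ε ≤ t (star x * x + x * star x))
    (hQ : 0 ≤ Q) (hQ1 : ‖Q‖ ≤ 1) (hcomm : ‖Q * x - x * Q‖ ≤ δ) :
    (t Q - ε - δ) / 2 ≤ t (Q * (x * star x)) ∧ (t Q - ε - δ) / 2 ≤ t (Q * (star x * x)) ∧
      t (Q * (x * star x)) - ε ≤ t (Q * (x * star x * (x * star x))) ∧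
      t (Q * (star x * x)) - ε ≤ t (Q * (star x * x * (star x * x))) := by
  set p := star x * x
  set q := x * star x
  have hp : 0 ≤ p := star_mul_self_nonneg x
  have hq : 0 ≤ q := mul_star_self_nonneg x
  have hp1 : ‖p‖ ≤ 1 := by
    rw [CStarRing.norm_star_mul_self]; nlinarith [norm_nonneg x]
  have hq1 : ‖q‖ ≤ 1 := by
    rw [CStarRing.norm_self_mul_star]; nlinarith [norm_nonneg x]
  have hpq : p * q = 0 := by
    simp only [p, q, mul_assoc]; rw [← mul_assoc x x, hxx, zero_mul, mul_zero]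
  have hqp : q * p = 0 := by
    simp only [p, q, mul_assoc]
    rw [← mul_assoc (star x) (star x), ← star_mul, hxx, star_zero, zero_mul, mul_zero]
  have hQle : Q ≤ 1 :=
    hQ.isSelfAdjoint.le_algebraMap_norm_self.trans (by simpa using algebraMap_mono A hQ1)
  have hy : 0 ≤ 1 - (p + q) := sub_nonneg.2 (add_le_one_of_orth hp hq hp1 hq1 hpq)
  have hy' : t (1 - (p + q)) ≤ ε := by rw [map_sub, h1]; linarith
  have hQy : t (Q * (1 - (p + q))) ≤ ε := by
    have := ht.mul_le_mul_left hQle hy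
    rw [one_mul] at this; linarith
  have hdiff : |t (Q * q) - t (Q * p)| ≤ δ := by
    have e1 : t (Q * q) = t (star x * (Q * x)) := by
      rw [ht.comm (star x)]; simp only [q, mul_assoc]
    have e2 : t (Q * p) = t (star x * (x * Q)) := by
      rw [ht.comm Q]; simp only [p, mul_assoc]
    rw [e1, e2, ← map_sub, ← mul_sub]
    refine (abs_trace_le_norm ht h1 _).trans ((norm_mul_le _ _).trans ?_)
    exact (mul_le_of_le_one_left (norm_nonneg _) (by rwa [norm_star])).trans hcomm
  rw [abs_le] at hdiff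
  rw [mul_sub, mul_one, map_sub, mul_add, map_add] at hQy
  have key : ∀ a b : A, 0 ≤ a → ‖a‖ ≤ 1 → a * b = 0 → b * a = 0 →
      t (1 - (a + b)) ≤ ε → 0 ≤ 1 - (a + b) → t (Q * a) - ε ≤ t (Q * (a * a)) := by
    intro a b ha ha1 hab hba hsum hsum0
    have hale : a ≤ 1 :=
      ha.isSelfAdjoint.le_algebraMap_norm_self.trans (by simpa using algebraMap_mono A ha1)
    have hcomm' : Commute a b := by rw [commute_iff_eq, hab, hba]
    have hw : 0 ≤ a * (1 - (a + b)) :=
      ((Commute.one_right a).sub_right ((Commute.refl a).add_right hcomm')).mul_nonneg ha hsum0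
    have h2 : t (Q * (a * (1 - (a + b)))) ≤ ε := by
      refine le_trans ?_ hsum
      have h3 := ht.mul_le_mul_left hQle hw
      have h4 := ht.mul_le_mul_left hale hsum0
      rw [one_mul] at h3 h4
      linarith
    rw [mul_sub, mul_one, mul_add, hab, add_zero, mul_sub, map_sub] at h2
    linarith
  refine ⟨by linarith, by linarith, ?_, key p q hp hp1 hpq hqp hy' hy⟩
  exact key q p hq hq1 hqp hpq (by rwa [add_comm q p]) (by rwa [add_comm q p])

private theorem state_isTrace (τ : TracialState A) :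
    IsTrace τ.toTraceFun.real ∧ τ.toTraceFun.real 1 = 1 :=
  ⟨τ.toTraceFun.isTrace_real, by simp [TraceFun.real_apply, TracialState.toTraceFun, τ.map_one]⟩

/-- Almost central, almost orthogonal families with traces at least `2 ^ (-m)`. -/
private theorem exists_family (α : G →* (A ≃⋆ₐ[ℂ] A)) (h : InvSquareZero α) (m : ℕ) :
    ∀ (D : Finset A) (η : ℝ), 0 < η → ∃ q : (Fin m → Bool) → A,
      (∀ w, 0 ≤ q w ∧ ‖q w‖ ≤ 1 ∧ ∀ a ∈ D, ‖q w * a - a * q w‖ ≤ η) ∧
      (∀ w w', w ≠ w' → ‖q w * q w'‖ ≤ η) ∧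
      ∀ (t : A →ₗ[ℝ] ℝ) (τ : TracialState A), t = τ.toTraceFun.real →
        ∀ w, (1 / 2 : ℝ) ^ m - η ≤ t (q w) := by
  classical
  induction m with
  | zero =>
    intro D η hη
    refine ⟨fun _ => 1, fun w => ⟨zero_le_one, ?_, fun a _ => by simpa using hη.le⟩,
      fun w w' hw => absurd (Subsingleton.elim w w') hw, fun t τ ht w => ?_⟩
    · nontriviality A
      rw [norm_one]
    · rw [ht, (state_isTrace τ).2]; norm_num; exact hη.le
  | succ m ih =>
    intro D η hη
    obtain ⟨R, hR⟩ := (D.image fun a => ‖a‖).bddAbove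
    set R' : ℝ := max R 1
    have hR1 : 1 ≤ R' := le_max_right _ _
    set ε : ℝ := η / (8 * R') with hεdef
    have hε : 0 < ε := by positivity
    have hεη : ε ≤ η / 8 := div_le_div_of_nonneg_left hη.le (by norm_num) (by linarith)
    obtain ⟨x, hx, hxx, hxD, -, hfull⟩ := h (D ∪ D.image star) ∅ ε hε
    set p : Bool → A := fun b => if b then x * star x else star x * x with hpdef
    obtain ⟨Q, hQ, hQo, hQt⟩ := ih (insert x (insert (star x) D)) ε hε
    have hxs : ‖star x‖ ≤ 1 := by rwa [norm_star]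
    have hp0 : ∀ b, 0 ≤ p b := fun b => by
      cases b <;> simp [p, star_mul_self_nonneg, mul_star_self_nonneg]
    have hp1 : ∀ b, ‖p b‖ ≤ 1 := fun b => by
      cases b <;> simp [p, CStarRing.norm_star_mul_self, CStarRing.norm_self_mul_star] <;>
        nlinarith [norm_nonneg x]
    have hporth : ∀ b b', b ≠ b' → p b * p b' = 0 := by
      intro b b' hb
      cases b <;> cases b' <;> simp_all only [ne_eq, not_true_eq_false, not_false_eq_true, p,
        ↓reduceIte, Bool.false_eq_true]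
      · rw [mul_assoc, ← mul_assoc x x, hxx, zero_mul, mul_zero]
      · rw [mul_assoc, ← mul_assoc (star x) (star x), ← star_mul, hxx, star_zero, zero_mul,
          mul_zero]
    have hcomm2 : ∀ (u v c : A), ‖u‖ ≤ 1 → ‖v‖ ≤ 1 →
        ‖u * v * c - c * (u * v)‖ ≤ ‖v * c - c * v‖ + ‖u * c - c * u‖ := by
      intro u v c hu hv
      have e : u * v * c - c * (u * v) = u * (v * c - c * v) + (u * c - c * u) * v := by
        simp only [mul_sub, sub_mul, mul_assoc]; abel
      rw [e]
      refine (norm_add_le _ _).trans (add_le_add ?_ ?_)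
      · exact (norm_mul_le _ _).trans (mul_le_of_le_one_left (norm_nonneg _) hu)
      · exact (norm_mul_le _ _).trans (mul_le_of_le_one_right (norm_nonneg _) hv)
    have hpD : ∀ b, ∀ a ∈ D, ‖p b * a - a * p b‖ ≤ 2 * ε := by
      intro b a ha
      have h1 := hxD a (Finset.mem_union_left _ ha)
      have h2 : ‖star x * a - a * star x‖ ≤ ε := by
        rw [norm_comm_star]
        exact hxD _ (Finset.mem_union_right _ (Finset.mem_image_of_mem _ ha))
      cases b <;> simp only [p, Bool.false_eq_true, ↓reduceIte]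
      · exact (hcomm2 _ _ a hxs hx).trans (by linarith)
      · exact (hcomm2 _ _ a hx hxs).trans (by linarith)
    have hQp : ∀ w b, ‖p b * Q w - Q w * p b‖ ≤ 2 * ε := by
      intro w b
      have h1 : ‖x * Q w - Q w * x‖ ≤ ε := by
        rw [norm_sub_rev]; exact (hQ w).2.2 x (by simp)
      have h2 : ‖star x * Q w - Q w * star x‖ ≤ ε := by
        rw [norm_sub_rev]; exact (hQ w).2.2 (star x) (by simp)
      cases b <;> simp only [p, Bool.false_eq_true, ↓reduceIte]
      · exact (hcomm2 _ _ _ hxs hx).trans (by linarith)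
      · exact (hcomm2 _ _ _ hx hxs).trans (by linarith)
    refine ⟨fun w => p (w 0) * Q (fun i => w i.succ) * p (w 0),
      fun w => ⟨?_, ?_, fun a ha => ?_⟩, fun w w' hw => ?_, fun t τ ht w => ?_⟩
    · exact (hp0 _).isSelfAdjoint.conjugate_nonneg (hQ _).1
    · calc _ ≤ ‖p (w 0)‖ * ‖Q fun i => w i.succ‖ * ‖p (w 0)‖ := norm_mul₃_le
        _ ≤ 1 * 1 * 1 := by gcongr <;> first | exact hp1 _ | exact (hQ _).2.1
        _ = 1 := by norm_num
    · have h2 := (hQ fun i => w i.succ).2.2 a (by simp [ha])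
      have h3 : ‖p (w 0) * (Q fun i => w i.succ)‖ ≤ 1 :=
        (norm_mul_le _ _).trans (mul_le_one₀ (hp1 _) (norm_nonneg _) (hQ _).2.1)
      have h4 := hcomm2 (p (w 0) * Q fun i => w i.succ) (p (w 0)) a h3 (hp1 _)
      have h5 := hcomm2 (p (w 0)) (Q fun i => w i.succ) a (hp1 _) (hQ _).2.1
      have h6 := hpD (w 0) a ha
      linarith
    · rcases eq_or_ne (w 0) (w' 0) with h0 | h0
      · have hne : (fun i : Fin m => w i.succ) ≠ fun i => w' i.succ := fun he => hw <| funext fun i => by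
          refine Fin.cases h0 (fun j => ?_) i
          exact congrFun he j
        simp only [← h0]
        set c := p (w 0)
        set U := Q fun i => w i.succ
        set V := Q fun i => w' i.succ
        have hc : ‖c‖ ≤ 1 := hp1 _
        have e : c * U * c * (c * V * c)
            = c * c * c * (U * V) * c - c * (c * c * U - U * (c * c)) * V * c := by
          simp only [mul_sub, sub_mul, mul_assoc]; abel
        rw [e]
        refine (norm_sub_le _ _).trans ?_
        have n1 : ‖c * c * c * (U * V) * c‖ ≤ ε := by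
          calc _ ≤ ‖c * c * c‖ * ‖U * V‖ * ‖c‖ := norm_mul₃_le
            _ ≤ 1 * ε * 1 := by
              gcongr
              · exact norm_mul₃_le.trans (mul_le_one₀ (mul_le_one₀ hc (norm_nonneg _) hc)
                  (norm_nonneg _) hc)
              · exact hQo _ _ hne
            _ = ε := by ring
        have n2 : ‖c * (c * c * U - U * (c * c)) * V * c‖ ≤ 4 * ε := by
          calc _ ≤ ‖c * (c * c * U - U * (c * c))‖ * ‖V‖ * ‖c‖ := norm_mul₃_le
            _ ≤ (4 * ε) * 1 * 1 := by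
              gcongr
              · refine (norm_mul_le _ _).trans ((mul_le_of_le_one_left (norm_nonneg _) hc).trans ?_)
                exact (hcomm2 c c U hc hc).trans (by linarith [hQp (fun i => w i.succ) (w 0)])
              · exact (hQ _).2.1
            _ = 4 * ε := by ring
        linarith
      · have : p (w 0) * (Q fun i => w i.succ) * p (w 0)
            * (p (w' 0) * (Q fun i => w' i.succ) * p (w' 0)) = 0 := by
          simp only [mul_assoc]
          rw [← mul_assoc (p (w 0)) (p (w' 0)), hporth _ _ h0]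
          simp
        simpa [this] using hη.le
    · obtain ⟨ht', h1⟩ := state_isTrace τ
      rw [← ht] at ht' h1
      have hfull' : 1 - ε ≤ t (star x * x + x * star x) := by rw [ht]; exact hfull τ
      set U := Q fun i => w i.succ
      have h4 := trace_facts ht' h1 hx hxx hfull' (hQ _).1 (hQ _).2.1
        ((hQ fun i => w i.succ).2.2 x (by simp))
      have h5 : (1 / 2 : ℝ) ^ m - ε ≤ t U := hQt t τ ht _
      have e : t (p (w 0) * U * p (w 0)) = t (U * (p (w 0) * p (w 0))) := by
        rw [ht'.comm, ← mul_assoc, ht'.comm]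
      rw [e, pow_succ]
      obtain ⟨f1, f2, f3, f4⟩ := h4
      cases hw0 : w 0 <;> simp only [p, Bool.false_eq_true, ↓reduceIte] <;> linarith

/-- The cutoff. -/
noncomputable def pieceCut (t : ℝ) : ℝ := max 0 (2 * t - 1)

/-- The plateau weight: `t ↦ t * pieceWeight t ^ 2` is `min (2 t) 1` on `t ≥ 0`. -/
noncomputable def pieceWeight (t : ℝ) : ℝ := √(2 / max 1 (2 * t))

theorem continuous_pieceWeight : Continuous pieceWeight :=
  Real.continuous_sqrt.comp (continuous_const.div (by fun_prop) fun t =>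
    (lt_of_lt_of_le one_pos (le_max_left _ _)).ne')

theorem continuous_pieceCut : Continuous pieceCut := by unfold pieceCut; fun_prop

theorem mul_weight_sq {t : ℝ} (ht : 0 ≤ t) :
    t * pieceWeight t * pieceWeight t = if 2 * t ≤ 1 then 2 * t else 1 := by
  rw [mul_assoc, pieceWeight, Real.mul_self_sqrt (by positivity)]
  split_ifs with h
  · rw [max_eq_left h]; ring
  · rw [max_eq_right (not_le.1 h).le]
    have : t ≠ 0 := fun h0 => h (by simp [h0])
    field_simp

theorem norm_weight_le (c : A) : ‖cfc pieceWeight c‖ ≤ 2 := by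
  refine norm_cfc_le zero_le_two fun t _ => ?_
  rw [Real.norm_eq_abs, pieceWeight, abs_of_nonneg (Real.sqrt_nonneg _)]
  refine Real.sqrt_le_iff.2 ⟨zero_le_two, ?_⟩
  calc 2 / max 1 (2 * t) ≤ 2 / 1 :=
        div_le_div_of_nonneg_left zero_le_two one_pos (le_max_left _ _)
    _ ≤ 2 ^ 2 := by norm_num

theorem spectrum_mem_unit {c : A} (hc : 0 ≤ c) (hc1 : ‖c‖ ≤ 1) {t : ℝ}
    (ht : t ∈ spectrum ℝ c) : 0 ≤ t ∧ t ≤ 1 := by
  rcases subsingleton_or_nontrivial A with hA | hA
  · simp [spectrum.of_subsingleton] at ht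
  refine ⟨spectrum_nonneg_of_nonneg hc ht, ?_⟩
  have := (spectrum.norm_le_norm_of_mem ht).trans hc1
  rw [Real.norm_eq_abs, abs_le] at this
  exact this.2

/-- The trace of a cut piece is bounded below linearly. -/
theorem cut_trace_le {t : A →ₗ[ℝ] ℝ} (ht : IsTrace t) {b Q : A} (hb : 0 ≤ b)
    (hb1 : ‖b‖ ≤ 1) (hQ : 0 ≤ Q) :
    t (Q * b) - 4 * (t (Q * b) - t (Q * (b * b)))
      ≤ t (cfc pieceCut b * Q * cfc pieceCut b) := by
  have hlow : b - (4 : ℝ) • (b - b * b) ≤ cfc pieceCut b * cfc pieceCut b := by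
    have hid : ContinuousOn (fun u : ℝ => u) (spectrum ℝ b) := continuousOn_id
    have hsq : ContinuousOn (fun u : ℝ => u * u) (spectrum ℝ b) := hid.mul hid
    have e1 : cfc (fun u : ℝ => u - 4 * (u - u * u)) b = b - (4 : ℝ) • (b - b * b) := by
      rw [cfc_sub (fun u : ℝ => u) (fun u => 4 * (u - u * u)) b hid
          (continuousOn_const.mul (hid.sub hsq)),
        cfc_const_mul 4 (fun u : ℝ => u - u * u) b (hid.sub hsq),
        cfc_sub (fun u : ℝ => u) (fun u => u * u) b hid hsq,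
        cfc_mul (fun u : ℝ => u) (fun u => u) b hid hid, cfc_id' ℝ b hb.isSelfAdjoint]
    rw [← e1, ← cfc_mul pieceCut pieceCut b continuous_pieceCut.continuousOn
      continuous_pieceCut.continuousOn]
    refine cfc_mono (fun u hu => ?_) (hid.sub (continuousOn_const.mul (hid.sub hsq)))
      (continuous_pieceCut.mul continuous_pieceCut).continuousOn
    obtain ⟨h0, h1⟩ := spectrum_mem_unit hb hb1 hu
    rw [pieceCut]
    rcases le_total (2 * u - 1) 0 with h2 | h2
    · rw [max_eq_left h2]; nlinarith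
    · rw [max_eq_right h2]; nlinarith
  have f6 := ht.mul_le_mul_left hlow hQ
  rw [sub_mul, smul_mul_assoc, sub_mul, map_sub, map_smul, map_sub, smul_eq_mul,
    ht.comm b, ht.comm (b * b), ht.comm (cfc pieceCut b * cfc pieceCut b)] at f6
  have e : t (cfc pieceCut b * Q * cfc pieceCut b)
      = t (Q * (cfc pieceCut b * cfc pieceCut b)) := by
    rw [ht.comm, ← mul_assoc, ht.comm]
  rw [e]
  exact f6

/-- The data for property (SI): the square zero element with a plateau, the defect `e` and `L`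
orthogonal pieces under `x x*`. -/
theorem exists_pieces (α : G →* (A ≃⋆ₐ[ℂ] A)) (h : InvSquareZero α) (L : ℕ) :
    ∃ κ : ℝ, 0 < κ ∧ ∀ (D : Finset A) (S : Finset G) (η : ℝ), 0 < η →
      ∃ (x e : A) (q : Fin L → A), ‖x‖ ≤ 1 ∧ x * x = 0 ∧
        e = 1 - (star x * x + x * star x) ∧ IsPos e ∧ ‖e‖ ≤ 1 ∧
        (∀ g ∈ S, ‖α g x - x‖ ≤ η) ∧
        (∀ p, IsPos (q p) ∧ ‖q p‖ ≤ 1) ∧
        (∀ a ∈ D, ‖x * a - a * x‖ ≤ η ∧ ‖e * a - a * e‖ ≤ η ∧
          ‖x * star x * a - a * (x * star x)‖ ≤ η ∧ ∀ p, ‖q p * a - a * q p‖ ≤ η) ∧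
        (∀ τ : TracialState A, (τ.toLin e).re ≤ η ∧ ∀ p, κ ≤ (τ.toLin (q p)).re) ∧
        (∀ p p', p ≠ p' → ‖q p * q p'‖ ≤ η) ∧
        ∀ p, ‖x * star x * q p - q p‖ ≤ η := by
  classical
  refine ⟨(1 / 2) ^ L / 4, by positivity, fun D S η hη => ?_⟩
  obtain ⟨R₀, hR₀⟩ := (D.image fun a => ‖a‖).bddAbove
  set R : ℝ := max R₀ 1 with hRdef
  have hR1 : 1 ≤ R := le_max_right _ _
  have hR0 : 0 ≤ R := by linarith
  have haR : ∀ a ∈ D, ‖a‖ ≤ R := fun a ha =>
    (hR₀ (Finset.mem_image_of_mem _ ha)).trans (le_max_left _ _)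
  set η₁ : ℝ := min (η / (16 * R)) ((1 / 2) ^ L / 64) with hη₁def
  have hη₁ : 0 < η₁ := lt_min (by positivity) (by positivity)
  have hη₁a : η₁ * (16 * R) ≤ η := by
    rw [← le_div_iff₀ (by positivity)]; exact min_le_left _ _
  have hη₁b : η₁ ≤ (1 / 2) ^ L / 64 := min_le_right _ _
  have hη₁η : 16 * η₁ ≤ η := by nlinarith
  obtain ⟨δw, hδw, hweight⟩ :=
    cfc_almost_intertwine (A := A) continuous_pieceWeight hR0 hη₁
  obtain ⟨δc, hδc, hcut⟩ := cfc_almost_intertwine (A := A) continuous_pieceCut hR0 hη₁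
  set ε : ℝ := min η₁ (min (δw / 4) (δc / 4)) with hεdef
  have hε : 0 < ε := lt_min hη₁ (lt_min (by positivity) (by positivity))
  have hε1 : ε ≤ η₁ := min_le_left _ _
  have hεw : 4 * ε ≤ δw := by
    have : ε ≤ δw / 4 := (min_le_right _ _).trans (min_le_left _ _)
    linarith
  have hεc : 4 * ε ≤ δc := by
    have : ε ≤ δc / 4 := (min_le_right _ _).trans (min_le_right _ _)
    linarith
  obtain ⟨y, hy, hyy, hyD, hyS, hfull⟩ := h (D ∪ D.image star) S ε hε
  obtain ⟨a₀, ha₀⟩ : ∃ a₀, a₀ = star y * y := ⟨_, rfl⟩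
  obtain ⟨b₀, hb₀⟩ : ∃ b₀, b₀ = y * star y := ⟨_, rfl⟩
  have hys : ‖star y‖ ≤ 1 := by rwa [norm_star]
  have ha0 : 0 ≤ a₀ := ha₀ ▸ star_mul_self_nonneg y
  have hb0 : 0 ≤ b₀ := hb₀ ▸ mul_star_self_nonneg y
  have ha1 : ‖a₀‖ ≤ 1 := by
    rw [ha₀, CStarRing.norm_star_mul_self]; nlinarith [norm_nonneg y]
  have hb1 : ‖b₀‖ ≤ 1 := by
    rw [hb₀, CStarRing.norm_self_mul_star]; nlinarith [norm_nonneg y]
  have hay : a₀ * y = 0 := by rw [ha₀, mul_assoc, hyy, mul_zero]
  have hab : a₀ * b₀ = 0 := by rw [hb₀, ← mul_assoc, hay, zero_mul]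
  have hyab : y * a₀ = b₀ * y := by rw [ha₀, hb₀, mul_assoc]
  set ψ := cfc pieceWeight a₀ with hψ
  set x := y * ψ with hxdef
  have hψs : IsSelfAdjoint ψ := IsSelfAdjoint.cfc
  have hψy : ψ * y = pieceWeight 0 • y :=
    Vale.P101.cfc_mul_of_eigen ha0.isSelfAdjoint (by simp [hay]) continuous_pieceWeight
  have hxx : x * x = 0 := by
    rw [hxdef, mul_assoc, ← mul_assoc ψ, hψy, smul_mul_assoc, mul_smul_comm, ← mul_assoc, hyy,
      zero_mul, smul_zero]
  set r : ℝ → ℝ := fun t => t * pieceWeight t * pieceWeight t with hr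
  have hwc := continuous_pieceWeight.continuousOn (s := Set.univ)
  have hrc : Continuous r :=
    (continuous_id.mul continuous_pieceWeight).mul continuous_pieceWeight
  have hmul3 : ∀ c : A, IsSelfAdjoint c →
      cfc r c = c * cfc pieceWeight c * cfc pieceWeight c := fun c hc => by
    rw [hr, cfc_mul (fun t => t * pieceWeight t) pieceWeight c
      (continuous_id.mul continuous_pieceWeight).continuousOn continuous_pieceWeight.continuousOn,
      cfc_mul (fun t => t) pieceWeight c continuousOn_id continuous_pieceWeight.continuousOn,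
      cfc_id' ℝ c]
  have hcomm : ∀ c : A, IsSelfAdjoint c → c * cfc pieceWeight c = cfc pieceWeight c * c :=
    fun c hc => Vale.P101.intertwine_cfc hc hc rfl continuous_pieceWeight
  have hxsx : star x * x = cfc r a₀ := by
    rw [hxdef, star_mul, hψs.star_eq, mul_assoc ψ, ← mul_assoc (star y), ← ha₀, ← mul_assoc,
      ← hcomm a₀ ha0.isSelfAdjoint, hmul3 a₀ ha0.isSelfAdjoint]
  have hψint : y * ψ = cfc pieceWeight b₀ * y :=
    Vale.P101.intertwine_cfc ha0.isSelfAdjoint hb0.isSelfAdjoint hyab continuous_pieceWeight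
  have hxxs : x * star x = cfc r b₀ := by
    rw [hxdef, hψint, star_mul, (IsSelfAdjoint.cfc : IsSelfAdjoint (cfc pieceWeight b₀)).star_eq,
      mul_assoc, ← mul_assoc y, ← hb₀, ← mul_assoc, ← hcomm b₀ hb0.isSelfAdjoint,
      hmul3 b₀ hb0.isSelfAdjoint]
  have hspec : ∀ c : A, 0 ≤ c → ‖c‖ ≤ 1 → ∀ t ∈ spectrum ℝ c, 0 ≤ t ∧ t ≤ 1 :=
    fun c hc hc1 t ht => spectrum_mem_unit hc hc1 ht
  have hr01 : ∀ t : ℝ, 0 ≤ t → t ≤ 1 → 0 ≤ r t ∧ r t ≤ 1 ∧ t ≤ r t := by
    intro t h0 h1
    simp only [hr, mul_weight_sq h0]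
    split_ifs with h2 <;> refine ⟨?_, ?_, ?_⟩ <;> linarith
  have hp0 : 0 ≤ star x * x := star_mul_self_nonneg x
  have hq0 : 0 ≤ x * star x := mul_star_self_nonneg x
  have hp1 : ‖star x * x‖ ≤ 1 := by
    rw [hxsx]
    refine norm_cfc_le zero_le_one fun t ht => ?_
    obtain ⟨h0, h1⟩ := hspec a₀ ha0 ha1 t ht
    rw [Real.norm_eq_abs, abs_of_nonneg (hr01 t h0 h1).1]
    exact (hr01 t h0 h1).2.1
  have hx1 : ‖x‖ ≤ 1 := by
    rw [CStarRing.norm_star_mul_self] at hp1
    nlinarith [norm_nonneg x]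
  have hq1 : ‖x * star x‖ ≤ 1 := by
    rw [CStarRing.norm_self_mul_star]; nlinarith [norm_nonneg x]
  have horth : star x * x * (x * star x) = 0 := by
    rw [mul_assoc, ← mul_assoc x x, hxx, zero_mul, mul_zero]
  have he0 : 0 ≤ 1 - (star x * x + x * star x) :=
    sub_nonneg.2 (add_le_one_of_orth hp0 hq0 hp1 hq1 horth)
  have he1 : ‖1 - (star x * x + x * star x)‖ ≤ 1 :=
    (CStarAlgebra.norm_le_one_iff_of_nonneg _ he0).2
      (sub_le_self _ (add_nonneg hp0 hq0))
  set s := cfc pieceCut b₀ with hs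
  have hss : IsSelfAdjoint s := IsSelfAdjoint.cfc
  have hs1 : ‖s‖ ≤ 1 := by
    refine norm_cfc_le zero_le_one fun t ht => ?_
    obtain ⟨h0, h1⟩ := hspec b₀ hb0 hb1 t ht
    rw [Real.norm_eq_abs, pieceCut, abs_of_nonneg (le_max_left _ _)]
    exact max_le zero_le_one (by linarith)
  have hrs : x * star x * s = s := by
    rw [hxxs, hs, ← cfc_mul r pieceCut b₀ hrc.continuousOn continuous_pieceCut.continuousOn]
    refine cfc_congr fun t ht => ?_
    obtain ⟨h0, h1⟩ := hspec b₀ hb0 hb1 t ht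
    simp only [hr, mul_weight_sq h0, pieceCut]
    split_ifs with h2
    · rw [max_eq_left (by linarith), mul_zero]
    · ring
  obtain ⟨Q, hQ, hQo, hQt⟩ := exists_family α h L (insert y (insert s D)) ε hε
  let w : Fin L → (Fin L → Bool) := fun i k => decide (i = k)
  have hw : ∀ i i', i ≠ i' → w i ≠ w i' := fun i i' hne he => by
    have := congrFun he i
    simp [w, Ne.symm hne] at this
  refine ⟨x, _, fun i => s * Q (w i) * s, hx1, hxx, rfl, isPos_of_nonneg he0, he1,
    fun g hg => ?_, fun i => ⟨isPos_of_nonneg (hss.conjugate_nonneg (hQ _).1), ?_⟩,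
    fun a ha => ?_, fun τ => ?_, fun i i' hne => ?_, fun i => ?_⟩
  · -- invariance
    have hd := hyS g hg
    have hαn : ∀ z : A, ‖α g z‖ = ‖z‖ := fun z => StarAlgEquiv.norm_map (α g) z
    have hαa : α g ψ = cfc pieceWeight (α g a₀) :=
      StarAlgHomClass.map_cfc (α g) pieceWeight a₀ continuous_pieceWeight.continuousOn
        (map_continuous (α g)) ha0.isSelfAdjoint (ha0.isSelfAdjoint.map _)
    have hd2 : ‖α g a₀ - a₀‖ ≤ 2 * ε := by
      have e : α g a₀ - a₀ = star (α g y) * (α g y - y) + star (α g y - y) * y := by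
        rw [ha₀, map_mul, map_star]; simp only [mul_sub, star_sub, sub_mul]; abel
      rw [e]
      refine (norm_add_le _ _).trans ?_
      have n1 : ‖star (α g y) * (α g y - y)‖ ≤ ε :=
        (norm_mul_le _ _).trans ((mul_le_of_le_one_left (norm_nonneg _)
          (by rw [norm_star, hαn]; exact hy)).trans hd)
      have n2 : ‖star (α g y - y) * y‖ ≤ ε :=
        (norm_mul_le _ _).trans ((mul_le_of_le_one_right (norm_nonneg _) hy).trans
          (by rw [norm_star]; exact hd))
      linarith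
    have h3 : ‖α g ψ - ψ‖ ≤ η₁ := by
      rcases subsingleton_or_nontrivial A with hA | hA
      · rw [Subsingleton.elim (α g ψ - ψ) 0, norm_zero]; exact hη₁.le
      have := hweight 1 (α g a₀) a₀ (ha0.isSelfAdjoint.map _) ha0.isSelfAdjoint
        (by rw [hαn]; exact ha1) ha1 (by rw [norm_one]; exact hR1)
        (by rw [one_mul, mul_one]; linarith)
      rw [one_mul, mul_one] at this
      rwa [hαa, hψ]
    have hψn : ‖ψ‖ ≤ 2 := norm_weight_le a₀
    have e : α g x - x = α g y * (α g ψ - ψ) + (α g y - y) * ψ := by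
      rw [hxdef, map_mul]; simp only [mul_sub, sub_mul]; abel
    rw [e]
    refine (norm_add_le _ _).trans ?_
    have n1 : ‖α g y * (α g ψ - ψ)‖ ≤ η₁ :=
      (norm_mul_le _ _).trans ((mul_le_of_le_one_left (norm_nonneg _)
        (by rw [hαn]; exact hy)).trans h3)
    have n2 : ‖(α g y - y) * ψ‖ ≤ ε * 2 :=
      (norm_mul_le _ _).trans (mul_le_mul hd hψn (norm_nonneg _) hε.le)
    linarith
  · calc _ ≤ ‖s‖ * ‖Q (w i)‖ * ‖s‖ := norm_mul₃_le
      _ ≤ 1 * 1 * 1 := by gcongr; exact (hQ _).2.1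
      _ = 1 := by norm_num
  · -- centrality
    have haR' := haR a ha
    have h1 := hyD a (Finset.mem_union_left _ ha)
    have h2 : ‖star y * a - a * star y‖ ≤ ε := by
      rw [norm_comm_star]
      exact hyD _ (Finset.mem_union_right _ (Finset.mem_image_of_mem _ ha))
    have hprod : ∀ (u v : A), ‖u‖ ≤ 1 → ‖v‖ ≤ 1 → ‖u * a - a * u‖ ≤ ε →
        ‖v * a - a * v‖ ≤ ε → ‖a * (u * v) - u * v * a‖ ≤ 2 * ε := by
      intro u v hu hv h h'
      have e : a * (u * v) - u * v * a = (a * u - u * a) * v + u * (a * v - v * a) := by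
        simp only [mul_sub, sub_mul, mul_assoc]; abel
      rw [e]
      refine (norm_add_le _ _).trans ?_
      have n1 : ‖(a * u - u * a) * v‖ ≤ ε :=
        (norm_mul_le _ _).trans ((mul_le_of_le_one_right (norm_nonneg _) hv).trans
          (by rwa [norm_sub_rev]))
      have n2 : ‖u * (a * v - v * a)‖ ≤ ε :=
        (norm_mul_le _ _).trans ((mul_le_of_le_one_left (norm_nonneg _) hu).trans
          (by rwa [norm_sub_rev]))
      linarith
    have ka : ‖a * a₀ - a₀ * a‖ ≤ 2 * ε := by rw [ha₀]; exact hprod _ _ hys hy h2 h1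
    have kb : ‖a * b₀ - b₀ * a‖ ≤ 2 * ε := by rw [hb₀]; exact hprod _ _ hy hys h1 h2
    have wa := hweight a a₀ a₀ ha0.isSelfAdjoint ha0.isSelfAdjoint ha1 ha1 haR' (by linarith)
    have wb := hweight a b₀ b₀ hb0.isSelfAdjoint hb0.isSelfAdjoint hb1 hb1 haR' (by linarith)
    have wc := hcut a b₀ b₀ hb0.isSelfAdjoint hb0.isSelfAdjoint hb1 hb1 haR' (by linarith)
    have hψn : ‖ψ‖ ≤ 2 := norm_weight_le a₀
    have cx : ‖x * a - a * x‖ ≤ 3 * η₁ := by
      have e : x * a - a * x = y * (ψ * a - a * ψ) + (y * a - a * y) * ψ := by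
        simp only [hxdef, mul_sub, sub_mul, mul_assoc]; abel
      rw [e]
      refine (norm_add_le _ _).trans ?_
      have n1 : ‖y * (ψ * a - a * ψ)‖ ≤ η₁ :=
        (norm_mul_le _ _).trans ((mul_le_of_le_one_left (norm_nonneg _) hy).trans
          (by rw [norm_sub_rev]; exact wa))
      have n2 : ‖(y * a - a * y) * ψ‖ ≤ ε * 2 :=
        (norm_mul_le _ _).trans (mul_le_mul h1 hψn (norm_nonneg _) hε.le)
      linarith
    have cxs : ‖star x * a - a * star x‖ ≤ 3 * η₁ := by
      have e : star x * a - a * star x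
          = ψ * (star y * a - a * star y) + (ψ * a - a * ψ) * star y := by
        simp only [hxdef, star_mul, hψs.star_eq, mul_sub, sub_mul, mul_assoc]; abel
      rw [e]
      refine (norm_add_le _ _).trans ?_
      have n1 : ‖ψ * (star y * a - a * star y)‖ ≤ 2 * ε :=
        (norm_mul_le _ _).trans (mul_le_mul hψn h2 (norm_nonneg _) zero_le_two)
      have n2 : ‖(ψ * a - a * ψ) * star y‖ ≤ η₁ :=
        (norm_mul_le _ _).trans ((mul_le_of_le_one_right (norm_nonneg _) hys).trans
          (by rw [norm_sub_rev]; exact wa))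
      linarith
    have hxs1 : ‖star x‖ ≤ 1 := by rwa [norm_star]
    have prod2 : ∀ (u v : A), ‖u‖ ≤ 1 → ‖v‖ ≤ 1 → ‖u * a - a * u‖ ≤ 3 * η₁ →
        ‖v * a - a * v‖ ≤ 3 * η₁ → ‖u * v * a - a * (u * v)‖ ≤ 6 * η₁ := by
      intro u v hu hv h h'
      have e : u * v * a - a * (u * v) = u * (v * a - a * v) + (u * a - a * u) * v := by
        simp only [mul_sub, sub_mul, mul_assoc]; abel
      rw [e]
      refine (norm_add_le _ _).trans ?_
      have n1 : ‖u * (v * a - a * v)‖ ≤ 3 * η₁ :=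
        (norm_mul_le _ _).trans ((mul_le_of_le_one_left (norm_nonneg _) hu).trans h')
      have n2 : ‖(u * a - a * u) * v‖ ≤ 3 * η₁ :=
        (norm_mul_le _ _).trans ((mul_le_of_le_one_right (norm_nonneg _) hv).trans h)
      linarith
    have c1 := prod2 _ _ hxs1 hx1 cxs cx
    have c2 := prod2 _ _ hx1 hxs1 cx cxs
    refine ⟨by linarith, ?_, by linarith, fun i => ?_⟩
    · have e : (1 - (star x * x + x * star x)) * a - a * (1 - (star x * x + x * star x))
          = -((star x * x * a - a * (star x * x)) + (x * star x * a - a * (x * star x))) := by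
        simp only [sub_mul, mul_sub, add_mul, mul_add, one_mul, mul_one]; abel
      rw [e, norm_neg]
      exact (norm_add_le _ _).trans (by linarith)
    · have e : s * Q (w i) * s * a - a * (s * Q (w i) * s)
          = s * Q (w i) * (s * a - a * s) + s * (Q (w i) * a - a * Q (w i)) * s
            + (s * a - a * s) * (Q (w i) * s) := by
        simp only [mul_sub, sub_mul, mul_assoc]; abel
      rw [e]
      refine (norm_add₃_le).trans ?_
      have n1 : ‖s * Q (w i) * (s * a - a * s)‖ ≤ η₁ :=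
        (norm_mul_le _ _).trans ((mul_le_of_le_one_left (norm_nonneg _)
          ((norm_mul_le _ _).trans (mul_le_one₀ hs1 (norm_nonneg _) (hQ _).2.1))).trans
          (by rw [norm_sub_rev]; exact wc))
      have n2 : ‖s * (Q (w i) * a - a * Q (w i)) * s‖ ≤ ε :=
        norm_mul₃_le.trans ((mul_le_of_le_one_right (by positivity) hs1).trans
          ((mul_le_of_le_one_left (norm_nonneg _) hs1).trans ((hQ _).2.2 a (by simp [ha]))))
      have n3 : ‖(s * a - a * s) * (Q (w i) * s)‖ ≤ η₁ :=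
        (norm_mul_le _ _).trans ((mul_le_of_le_one_right (norm_nonneg _)
          ((norm_mul_le _ _).trans (mul_le_one₀ (hQ _).2.1 (norm_nonneg _) hs1))).trans
          (by rw [norm_sub_rev]; exact wc))
      linarith
  · -- traces
    obtain ⟨ht, h1⟩ := state_isTrace τ
    set t := τ.toTraceFun.real with htdef
    have hfull' : 1 - ε ≤ t (star y * y + y * star y) := hfull τ
    refine ⟨?_, fun i => ?_⟩
    · change t (1 - (star x * x + x * star x)) ≤ η
      have m1 : t a₀ ≤ t (star x * x) := by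
        rw [hxsx]
        refine ht.mono ?_
        conv_lhs => rw [← cfc_id' ℝ a₀ ha0.isSelfAdjoint]
        exact cfc_mono (fun u hu => (hr01 u (hspec a₀ ha0 ha1 u hu).1 (hspec a₀ ha0 ha1 u hu).2).2.2)
          continuousOn_id hrc.continuousOn
      have m2 : t b₀ ≤ t (x * star x) := by
        rw [hxxs]
        refine ht.mono ?_
        conv_lhs => rw [← cfc_id' ℝ b₀ hb0.isSelfAdjoint]
        exact cfc_mono (fun u hu => (hr01 u (hspec b₀ hb0 hb1 u hu).1 (hspec b₀ hb0 hb1 u hu).2).2.2)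
          continuousOn_id hrc.continuousOn
      rw [map_sub, map_add, h1]
      rw [map_add, ← ha₀, ← hb₀] at hfull'
      linarith
    · change (1 / 2 : ℝ) ^ L / 4 ≤ t (s * Q (w i) * s)
      obtain ⟨hQ0, hQ1, hQc⟩ := hQ (w i)
      obtain ⟨f1, -, f3, -⟩ := trace_facts ht h1 hy hyy hfull' hQ0 hQ1 (hQc y (by simp))
      rw [← hb₀] at f1 f3
      have f5 := hQt t τ rfl (w i)
      have f6 := cut_trace_le ht hb0 hb1 hQ0
      rw [← hs] at f6
      linarith
  · -- orthogonality
    set U := Q (w i)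
    set V := Q (w i')
    have e : s * U * s * (s * V * s)
        = s * s * s * (U * V) * s + s * (U * s - s * U) * (s * (V * s))
          + s * s * (U * s - s * U) * (V * s) := by
      simp only [mul_sub, sub_mul, mul_assoc]; abel
    rw [e]
    refine norm_add₃_le.trans ?_
    have hUs : ‖U * s - s * U‖ ≤ ε := (hQ _).2.2 s (by simp)
    have n1 : ‖s * s * s * (U * V) * s‖ ≤ ε := by
      calc _ ≤ ‖s * s * s‖ * ‖U * V‖ * ‖s‖ := norm_mul₃_le
        _ ≤ 1 * ε * 1 := by
          gcongr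
          · exact norm_mul₃_le.trans (mul_le_one₀ (mul_le_one₀ hs1 (norm_nonneg _) hs1)
              (norm_nonneg _) hs1)
          · exact hQo _ _ (hw i i' hne)
        _ = ε := by ring
    have hVs : ‖V * s‖ ≤ 1 :=
      (norm_mul_le _ _).trans (mul_le_one₀ (hQ _).2.1 (norm_nonneg _) hs1)
    have n2 : ‖s * (U * s - s * U) * (s * (V * s))‖ ≤ ε := by
      calc _ ≤ ‖s‖ * ‖U * s - s * U‖ * ‖s * (V * s)‖ := norm_mul₃_le
        _ ≤ 1 * ε * 1 := by
          gcongr
          exact (norm_mul_le _ _).trans (mul_le_one₀ hs1 (norm_nonneg _) hVs)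
        _ = ε := by ring
    have n3 : ‖s * s * (U * s - s * U) * (V * s)‖ ≤ ε := by
      calc _ ≤ ‖s * s‖ * ‖U * s - s * U‖ * ‖V * s‖ := norm_mul₃_le
        _ ≤ 1 * ε * 1 := by
          gcongr
          exact (norm_mul_le _ _).trans (mul_le_one₀ hs1 (norm_nonneg _) hs1)
        _ = ε := by ring
    linarith
  · rw [← mul_assoc, ← mul_assoc, hrs, sub_self, norm_zero]
    exact hη.le

end Order

end Vale.P095.SI
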