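import Vale.Agent.P095.Tracial.Limit

/-!
# P095: definitions for the equivariant property (SI) argument

The classical hypotheses (simplicity is `IsSimpleRing`, equivalent to topological simplicity for
unital C⋆-algebras), and the two alternatives for an automorphism.
-/

open Filter Topology

namespace Vale.P095.SI

open Vale.P095.Tracial

variable {A : Type*} [CStarAlgebra A]

/-- Positive elements. -/
def IsPos (a : A) : Prop := ∃ y : A, a = star y * y

/-- Complete positivity for maps into or out of matrix algebras: amplifications map positive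
matrices to positive matrices. -/
def IsCP {B C : Type*} [CStarAlgebra B] [CStarAlgebra C] (f : B →ₗ[ℂ] C) : Prop :=
  ∀ (k : ℕ) (Y : CStarMatrix (Fin k) (Fin k) B),
    ∃ Z : CStarMatrix (Fin k) (Fin k) C, (star Y * Y).map f = star Z * Z

section
attribute [local instance] CStarAlgebra.spectralOrder CStarAlgebra.spectralOrderedRing

/-- The completely positive approximation property (nuclearity); contractivity is not required. -/
def HasCPAP (A : Type*) [CStarAlgebra A] : Prop :=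
  ∀ (D : Finset A) (ε : ℝ), 0 < ε → ∃ (N : ℕ) (ρ : A →ₗ[ℂ] CStarMatrix (Fin N) (Fin N) ℂ)
    (ψ : CStarMatrix (Fin N) (Fin N) ℂ →ₗ[ℂ] A), IsCP ρ ∧ IsCP ψ ∧ ∀ a ∈ D, ‖ψ (ρ a) - a‖ ≤ ε

end

/-- The dimension function `d_τ (a) = lim τ (min (1, n a))`. -/
noncomputable def dimFn (τ : TracialState A) (a : A) : ℝ :=
  ⨆ m : ℕ, (τ.toLin (cfc (fun r : ℝ => max 0 (min 1 ((m + 1) * r))) a)).re

/-- Cuntz subequivalence. -/
def CuntzLE (a b : A) : Prop := ∀ ε : ℝ, 0 < ε → ∃ w : A, ‖star w * b * w - a‖ ≤ ε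

/-- Strict comparison of positive elements of `A` by tracial states. -/
def HasComparison (A : Type*) [CStarAlgebra A] : Prop :=
  ∀ a b : A, IsPos a → IsPos b → b ≠ 0 → (∀ τ : TracialState A, dimFn τ a < dimFn τ b) →
    CuntzLE a b

/-- Lossy strict comparison: traces small enough against a lower bound on all tracial states. -/
def HasLossyComparison (A : Type*) [CStarAlgebra A] : Prop :=
  ∀ δ ε : ℝ, 0 < δ → 0 < ε → ∃ θ : ℝ, 0 < θ ∧ ∀ e a : A, IsPos e → ‖e‖ ≤ 1 → IsPos a → ‖a‖ ≤ 1 →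
    (∀ τ : TracialState A, (τ.toLin e).re < θ) → (∀ τ : TracialState A, δ ≤ (τ.toLin a).re) →
    CuntzLE (cfc (fun r : ℝ => max 0 (r - ε)) e) a

/-- A plateau pair: `b` is a unit for `c`. -/
structure IsPair (b c : A) : Prop where
  pos_b : IsPos b
  pos_c : IsPos c
  norm_b : ‖b‖ = 1
  norm_c : ‖c‖ = 1
  unit : b * c = c

/-- The first alternative: below every pair there is a pair almost orthogonal to its translate. -/
def IsOrth (θ : A ≃⋆ₐ[ℂ] A) : Prop :=
  ∀ b₀ c₀ : A, IsPair b₀ c₀ → ∀ (x : A) (δ : ℝ), 0 < δ →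
    ∃ b c : A, IsPair b c ∧ b₀ * b = b ∧ ‖b * x * θ b‖ ≤ δ

/-- The second alternative: asymptotically central elements are asymptotically fixed. -/
def AsympFix (θ : A ≃⋆ₐ[ℂ] A) : Prop :=
  ∀ ε : ℝ, 0 < ε → ∃ (D : Finset A) (η : ℝ), 0 < η ∧
    ∀ z : A, ‖z‖ ≤ 2 → (∀ a ∈ D, ‖z * a - a * z‖ ≤ η) → ‖θ z - z‖ ≤ ε

end Vale.P095.SI
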